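import Vale.Agent.P014.H687.Isog2
import Vale.Agent.P004H.H666.Iso2

/-!
# P004 / P014 (H687): the `L`-functions of the twists of the curves with the `j`-invariants of the
curves of conductor `17`
-/

open WeierstrassCurve

namespace Vale.Agent.P014.H687.P4

open P004G P004G.ML Vale.Agent.P004H.H641 Vale.Agent.P004H.H666
open Vale.Agent.P014.H687 Vale.Agent.P014.H687.Isog

/-- the coefficients of the short model -/
def A0 (a : ℤ) : ℤ := -27 * c4 a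

/-- the coefficients of the short model -/
def B0 (a b : ℤ) : ℤ := -54 * (27 - 108 * (2 * a + 1) - 216 * (4 * b + 1))

theorem AB_vals : (A0 (-1) = -891 ∧ B0 (-1) (-14) = -648810) ∧
    (A0 (-6) = -7371 ∧ B0 (-6) (-4) = -240570) ∧
    (A0 (-91) = -117531 ∧ B0 (-91) (-310) = -15508746) ∧
    (A0 (-1) = -891 ∧ B0 (-1) 0 = 4374) := by
  refine ⟨⟨?_, ?_⟩, ⟨?_, ?_⟩, ⟨?_, ?_⟩, ⟨?_, ?_⟩⟩ <;> simp [A0, B0, c4]

theorem disc0 {a b : ℤ} (h : Is4 a b) : 4 * (A0 a) ^ 3 + 27 * (B0 a b) ^ 2 ≠ 0 := by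
  obtain ⟨⟨h1, h1'⟩, ⟨h2, h2'⟩, ⟨h3, h3'⟩, ⟨h4, h4'⟩⟩ := AB_vals
  rcases h with ⟨rfl, rfl⟩ | ⟨rfl, rfl⟩ | ⟨rfl, rfl⟩ | ⟨rfl, rfl⟩
  · rw [h1, h1']; norm_num
  · rw [h2, h2']; norm_num
  · rw [h3, h3']; norm_num
  · rw [h4, h4']; norm_num

/-- the variable change to the short model -/
noncomputable def vc (k : ℤ) : VariableChange ℚ :=
  ⟨(Units.mk0 (6 : ℚ) (by norm_num))⁻¹, (4 * k + 1) / 4, -1 / 2, -((4 * k + 1) / 4 + 1) / 2⟩

theorem vc_smul (a b k : ℤ) :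
    vc k • GW ℚ a b k = Ec (A0 a * (4 * k + 1) ^ 2) (B0 a b * (4 * k + 1) ^ 3) := by
  unfold vc Ec GW A0 B0 c4
  ext
  · simp only [variableChange_a₁, inv_inv, Units.val_mk0]
    norm_num
  · simp only [variableChange_a₂, inv_inv, Units.val_mk0]
    push_cast
    ring
  · simp only [variableChange_a₃, inv_inv, Units.val_mk0]
    push_cast
    ring
  · simp only [variableChange_a₄, inv_inv, Units.val_mk0]
    push_cast
    ring
  · simp only [variableChange_a₆, inv_inv, Units.val_mk0]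
    push_cast
    ring

/-- **the `L`-function of the short model** -/
theorem LA_tw {a b : ℤ} (h4 : Is4 a b) (k : ℤ) (h : Squarefree (4 * k + 1))
    (h17 : ¬ (17 : ℤ) ∣ 4 * k + 1) (m : ℕ) :
    LA (A0 a * (4 * k + 1) ^ 2) (B0 a b * (4 * k + 1) ^ 3) m = (tw k).LFunction m := by
  unfold LA
  rw [← vc_smul, LFunction_smul _ ?_, LFunction_GW h4 k h h17]
  rw [GW_Δ]
  have h1 : dis a b * (4 * k + 1) ^ 6 ≠ 0 :=
    mul_ne_zero (dis_17 h4).2 (pow_ne_zero _ h.ne_zero)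
  exact_mod_cast h1

/-- **the general twist** -/
theorem LA_gen {a b : ℤ} (h4 : Is4 a b) {A B e : ℤ} (he : e ≠ 0)
    (hS : SameL A B (A0 a * e ^ 2) (B0 a b * e ^ 3)) (k : ℤ) (h : Squarefree (4 * k + 1))
    (h17 : ¬ (17 : ℤ) ∣ 4 * k + 1) (m : ℕ) :
    LA (A * (_root_.P004G.Dm (sqp ((4 * k + 1) * e))) ^ 2) (B * (_root_.P004G.Dm (sqp ((4 * k + 1) * e))) ^ 3) m =
      (tw k).LFunction m := by
  have hd := disc0 h4
  have hk0 : 4 * k + 1 ≠ 0 := h.ne_zero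
  have hke : (4 * k + 1) * e ≠ 0 := mul_ne_zero hk0 he
  obtain ⟨h1, s, h2, h3⟩ := sqp_spec hke
  have hD0 : _root_.P004G.Dm (sqp ((4 * k + 1) * e)) ≠ 0 := Fund1_ne (fund1_Dm h1)
  rw [hS _ hD0 m]
  have hd' : 4 * (A0 a * e ^ 2) ^ 3 + 27 * (B0 a b * e ^ 3) ^ 2 ≠ 0 := disc_tw hd he
  rw [← LA_sqp hd' hke m]
  have e1 : A0 a * e ^ 2 * ((4 * k + 1) * e) ^ 2 = A0 a * ((4 * k + 1) * e ^ 2) ^ 2 := by ring
  have e2 : B0 a b * e ^ 3 * ((4 * k + 1) * e) ^ 3 = B0 a b * ((4 * k + 1) * e ^ 2) ^ 3 := by ring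
  rw [e1, e2, LA_sq hd hk0 he, LA_tw h4 k h h17 m]

end Vale.Agent.P014.H687.P4
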