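import Vale.Agent.P014.H687.Tr
import Vale.Agent.P014.H70.R2

/-!
# P014 (H687): the theta series instance; unconditional statements
-/

open Complex
open UpperHalfPlane hiding I

namespace Vale.Agent.P014.H687

open Vale.Agent.P004H.H204 (qq)
open Vale.Agent.P014.H70 (Th3 r3 Th3_W Th3_mob Th3_sum r3_vals r3_even)

theorem T3 : TD Th3 r3 where
  form :=
    { mob := fun a b c d h z hz => Th3_mob h hz
      W := fun z hz => Th3_W hz
      sum := fun z hz => Th3_sum hz }
  r0 := r3_vals.1
  r1 := r3_vals.2.1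
  r2 := r3_vals.2.2.1
  r3 := r3_vals.2.2.2.1
  r5 := r3_vals.2.2.2.2.1
  r7 := r3_vals.2.2.2.2.2
  even := r3_even

end Vale.Agent.P014.H687
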