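import Vale.Agent.P014.H687.Inst
import Vale.Agent.P004H.H666.Hasse4

/-!
# P014 (H687): Hasse's bound for the coefficients of the form of level `17`
-/

namespace Vale.Agent.P014.H687

open Vale.Agent.P014.H70 (r3)

section

variable {p : ℕ} [hp : Fact p.Prime]

theorem s2_hasse (hp5 : 5 ≤ p) (h17 : p ≠ 17) : (s2 p) ^ 2 ≤ 4 * p := by
  have hp2 : p ≠ 2 := by omega
  have h2 := two_ne (p := p) hp2
  have h3 : (3 : ZMod p) ≠ 0 := by
    have := natCast_ne (p := p) (n := 3) (fun h => by have := Nat.le_of_dvd (by norm_num) h; omega)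
    exact_mod_cast this
  have h17' := seventeen_ne h17
  have h9 : (9 : ZMod p) ≠ 0 := by
    have : (9 : ZMod p) = 3 ^ 2 := by norm_num
    rw [this]; exact pow_ne_zero _ h3
  have h27 : (27 : ZMod p) ≠ 0 := by
    have : (27 : ZMod p) = 3 ^ 3 := by norm_num
    rw [this]; exact pow_ne_zero _ h3
  have e : s2 p = ∑ x : ZMod p, quadraticChar (ZMod p) (x ^ 3 + (-7371) * x + (-240570)) := by
    unfold s2
    let e : ZMod p ≃ ZMod p :=
      { toFun := fun w => 9 * w - 54
        invFun := fun x => (x + 54) / 9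
        left_inv := fun t => by field_simp; ring
        right_inv := fun x => by field_simp; ring }
    refine Fintype.sum_equiv e _ _ fun w => ?_
    have : (e w) ^ 3 + (-7371) * (e w) + (-240570) = 27 ^ 2 * (w * (w - 1) * (w - 17)) := by
      change (9 * w - 54) ^ 3 + (-7371) * (9 * w - 54) + (-240570) = _
      ring
    rw [this, map_mul _ (27 ^ 2), quadraticChar_sq_one' h27, one_mul]
  have hD : (4 * (-7371) ^ 3 + 27 * (-240570) ^ 2 : ZMod p) ≠ 0 := by
    have : (4 * (-7371) ^ 3 + 27 * (-240570) ^ 2 : ZMod p) = -(2 ^ 8 * 3 ^ 12 * 17 ^ 2) := by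
      norm_num
    rw [this]
    exact neg_ne_zero.2 (mul_ne_zero (mul_ne_zero (pow_ne_zero _ h2) (pow_ne_zero _ h3))
      (pow_ne_zero _ h17'))
  rw [e]
  have := Vale.Agent.P004H.H666.hasse_char (ringChar_ne (p := p) hp2) hD
  rwa [ZMod.card] at this

end

theorem an_hasse {p : ℕ} (hp : p.Prime) (h17 : p ≠ 17) : (an r3 p) ^ 2 ≤ 4 * p := by
  have hfact : Fact p.Prime := ⟨hp⟩
  rcases eq_or_ne p 2 with rfl | hp2
  · rw [an_two T3]; norm_num
  rw [an_eq_s2 T3 hp2 h17, neg_sq]
  rcases eq_or_ne p 3 with rfl | hp3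
  · have h := s2_bound (p := 3)
    have h1 := abs_le.1 h
    push_cast at h1 ⊢
    nlinarith
  · have h4 : p ≠ 4 := by rintro rfl; exact absurd hp (by norm_num)
    have := hp.two_le
    exact s2_hasse (by omega) h17

end Vale.Agent.P014.H687
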