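import Vale.Agent.P014.H687.Ord

/-!
# P014 (H687): the quartic identity of level `17`
-/

open Complex
open UpperHalfPlane hiding I
open CongruenceSubgroup ModularForm Filter Asymptotics Manifold
open Matrix.SpecialLinearGroup (mapGL)
open scoped Real MatrixGroups ModularForm ArithmeticFunction.sigma Topology

namespace Vale.Agent.P014.H687

open Vale.Agent.P004H.H204 (Conv ev conv_of qq norm_qq norm_qq_lt tendsto_qq th deriv_inv
  eventually_im mob_im mob_deriv CR mem_CR evH evH_apply conv_th map_th mk_succ exists_qq ev_X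
  ev_mul conv_X)

/-! ### derivatives -/

/-- `q d/dq` of the form with coefficients `c` -/
noncomputable def dv (c : ℕ → ℂ) (z : ℂ) : ℂ := ev (th (PowerSeries.mk c)) (qq z)

theorem two_pi_I_ne : (2 * π * I : ℂ) ≠ 0 := by
  simp [Real.pi_ne_zero]

namespace WForm

variable {G : ℂ → ℂ} {c : ℕ → ℂ} {s : ℂ} (w : WForm G c s)

include w

theorem hasDeriv {z : ℂ} (hz : 0 < z.im) : HasDerivAt G (2 * π * I * dv c z) z :=
  w.hasDerivAt hz

theorem dv_mob {a b cc d : ℤ} (h : a * d - b * (17 * cc) = 1) {z : ℂ} (hz : 0 < z.im) :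
    2 * π * I * dv c ((a * z + b) / ((17 * cc : ℤ) * z + d)) =
      2 * π * I * ((17 * cc : ℤ) * z + d) ^ 4 * dv c z +
        2 * (17 * cc : ℤ) * ((17 * cc : ℤ) * z + d) ^ 3 * G z := by
  have h0 := den_ne h hz
  have h1 := (w.hasDeriv (mob_im h hz)).comp z (mob_deriv h hz)
  have hd : HasDerivAt (fun w : ℂ => ((17 * cc : ℤ) : ℂ) * w + d) ((17 * cc : ℤ) : ℂ) z := by
    simpa using ((hasDerivAt_id z).const_mul ((17 * cc : ℤ) : ℂ)).add_const (d : ℂ)
  have h2 := (hd.pow 2).mul (w.hasDeriv hz)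
  have h3 : (fun w : ℂ => G ((a * w + b) / ((17 * cc : ℤ) * w + d))) =ᶠ[𝓝 z]
      fun w : ℂ => ((17 * cc : ℤ) * w + d) ^ 2 * G w :=
    (eventually_im hz).mono fun u hu => w.mob a b cc d h u hu
  have h4 := h1.unique (h2.congr_of_eventuallyEq h3)
  simp only [Pi.pow_apply, Nat.cast_ofNat, Nat.add_one_sub_one, pow_one] at h4
  generalize ((17 * cc : ℤ) : ℂ) * z + d = j at *
  field_simp at h4
  linear_combination 2 * h4

theorem dv_W {z : ℂ} (hz : 0 < z.im) :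
    2 * π * I * dv c (-1 / (17 * z)) =
      17 * s * z ^ 4 * (2 * π * I * dv c z) + 34 * s * z ^ 3 * G z := by
  have h0 := ne_of_im hz
  have hd : HasDerivAt (fun w : ℂ => -1 / (17 * w)) (1 / (17 * z ^ 2)) z := by
    have h4 : HasDerivAt (fun w : ℂ => 17 * w) 17 z := by
      simpa using (hasDerivAt_id z).const_mul (17 : ℂ)
    have h5 := (hasDerivAt_const z (-1 : ℂ)).div h4 (mul_ne_zero (by norm_num) h0)
    refine h5.congr_deriv ?_
    field_simp
    ring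
  have him : 0 < (-1 / (17 * z)).im := Vale.Agent.P004H.H792.im_S (im17 hz)
  have h1 := (w.hasDeriv him).comp z hd
  have h2 := (((hasDerivAt_id z).pow 2).const_mul s).mul (w.hasDeriv hz)
  have h3 : (fun w : ℂ => G (-1 / (17 * w))) =ᶠ[𝓝 z] fun w : ℂ => s * w ^ 2 * G w :=
    (eventually_im hz).mono fun u hu => w.W u hu
  have h4 := h1.unique (h2.congr_of_eventuallyEq h3)
  simp only [Pi.pow_apply, id_eq, Nat.cast_ofNat, Nat.add_one_sub_one, pow_one, mul_one] at h4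
  generalize dv c (-1 / (17 * z)) = x at *
  field_simp at h4
  linear_combination 2 * h4

end WForm

/-- the bracket of two forms -/
theorem bracket_mob {G1 G2 : ℂ → ℂ} {c1 c2 : ℕ → ℂ} {s1 s2 : ℂ} (w1 : WForm G1 c1 s1)
    (w2 : WForm G2 c2 s2) {a b cc d : ℤ} (h : a * d - b * (17 * cc) = 1) {z : ℂ} (hz : 0 < z.im) :
    G1 ((a * z + b) / ((17 * cc : ℤ) * z + d)) * dv c2 ((a * z + b) / ((17 * cc : ℤ) * z + d)) -
      G2 ((a * z + b) / ((17 * cc : ℤ) * z + d)) * dv c1 ((a * z + b) / ((17 * cc : ℤ) * z + d)) =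
      ((17 * cc : ℤ) * z + d) ^ 6 * (G1 z * dv c2 z - G2 z * dv c1 z) := by
  have h1 := w1.dv_mob h hz
  have h2 := w2.dv_mob h hz
  rw [w1.mob _ _ _ _ h z hz, w2.mob _ _ _ _ h z hz]
  apply mul_left_cancel₀ two_pi_I_ne
  generalize ((17 * cc : ℤ) : ℂ) * z + d = j at *
  linear_combination j ^ 2 * G1 z * h2 - j ^ 2 * G2 z * h1

theorem bracket_W {G1 G2 : ℂ → ℂ} {c1 c2 : ℕ → ℂ} {s1 s2 : ℂ} (w1 : WForm G1 c1 s1)
    (w2 : WForm G2 c2 s2) {z : ℂ} (hz : 0 < z.im) :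
    G1 (-1 / (17 * z)) * dv c2 (-1 / (17 * z)) - G2 (-1 / (17 * z)) * dv c1 (-1 / (17 * z)) =
      17 * s1 * s2 * z ^ 6 * (G1 z * dv c2 z - G2 z * dv c1 z) := by
  have h1 := w1.dv_W hz
  have h2 := w2.dv_W hz
  rw [w1.W z hz, w2.W z hz]
  apply mul_left_cancel₀ two_pi_I_ne
  linear_combination s1 * z ^ 2 * G1 z * h2 - s2 * z ^ 2 * G2 z * h1

/-! ### the form of weight `12` -/

/-- the form which has to vanish -/
noncomputable def gg (Θ : ℂ → ℂ) (c : ℕ → ℂ) (z : ℂ) : ℂ :=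
  4 * (ec z * dv c z - Fc Θ z * dv (fun n => (cE n : ℂ)) z) ^ 2 -
    Fc Θ z ^ 2 * (ec z ^ 4 - 16 * ec z ^ 3 * Fc Θ z - 66 * ec z ^ 2 * Fc Θ z ^ 2 -
      48 * ec z * Fc Θ z ^ 3 - 127 * Fc Θ z ^ 4)

section

variable {Θ : ℂ → ℂ} {r : ℕ → ℤ} (T : TD Θ r)

include T

theorem gg_mob {a b cc d : ℤ} (h : a * d - b * (17 * cc) = 1) {z : ℂ} (hz : 0 < z.im) :
    gg Θ (fun n => (an r n : ℂ)) ((a * z + b) / ((17 * cc : ℤ) * z + d)) =
      ((17 * cc : ℤ) * z + d) ^ 12 * gg Θ (fun n => (an r n : ℂ)) z := by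
  unfold gg
  rw [bracket_mob ec_form (F_form' T) h hz, ec_mob h hz, (F_form' T).mob _ _ _ _ h z hz]
  generalize ((17 * cc : ℤ) : ℂ) * z + d = j
  ring

theorem gg_W {z : ℂ} (hz : 0 < z.im) :
    gg Θ (fun n => (an r n : ℂ)) (-1 / (17 * z)) =
      17 ^ 6 * z ^ 12 * gg Θ (fun n => (an r n : ℂ)) z := by
  unfold gg
  rw [bracket_W ec_form (F_form' T) hz, ec_W hz, (F_form' T).W z hz]
  ring

theorem convD : Conv (DD (PowerSeries.mk fun n => (an r n : ℂ))
    (PowerSeries.mk fun n => (cE n : ℂ))) := by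
  have e : (PowerSeries.mk fun n => (cE n : ℂ)) ∈ CR := ec_form.conv
  have f : (PowerSeries.mk fun n => (an r n : ℂ)) ∈ CR := (F_form' T).conv
  have te : th (PowerSeries.mk fun n => (cE n : ℂ)) ∈ CR := conv_th ec_form.conv
  have tf : th (PowerSeries.mk fun n => (an r n : ℂ)) ∈ CR := conv_th (F_form' T).conv
  rw [← mem_CR]
  unfold DD
  exact sub_mem (mul_mem (ofNat_mem CR 4) (pow_mem (sub_mem (mul_mem e tf) (mul_mem f te)) 2))
    (mul_mem (pow_mem f 2) (sub_mem (sub_mem (sub_mem (sub_mem (pow_mem e 4)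
      (mul_mem (mul_mem (ofNat_mem CR 16) (pow_mem e 3)) f))
      (mul_mem (mul_mem (ofNat_mem CR 66) (pow_mem e 2)) (pow_mem f 2)))
      (mul_mem (mul_mem (ofNat_mem CR 48) e) (pow_mem f 3)))
      (mul_mem (ofNat_mem CR 127) (pow_mem f 4))))

theorem gg_eq {z : ℂ} (hz : 0 < z.im) :
    gg Θ (fun n => (an r n : ℂ)) z = ev (DD (PowerSeries.mk fun n => (an r n : ℂ))
      (PowerSeries.mk fun n => (cE n : ℂ))) (qq z) := by
  have hq1 := norm_qq_lt hz
  have hF := (F_form' T).conv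
  have hE := ec_form.conv
  unfold gg dv
  rw [(F_form' T).eq_ev hz, ec_form.eq_ev hz]
  have h2 := congrArg (evH (qq z) hq1) (show (⟨DD (PowerSeries.mk fun n => (an r n : ℂ))
      (PowerSeries.mk fun n => (cE n : ℂ)), convD T⟩ : CR) =
    4 * (⟨_, hE⟩ * ⟨_, conv_th hF⟩ - ⟨_, hF⟩ * ⟨_, conv_th hE⟩) ^ 2 -
    ⟨_, hF⟩ ^ 2 * (⟨_, hE⟩ ^ 4 - 16 * ⟨_, hE⟩ ^ 3 * ⟨_, hF⟩ -
      66 * ⟨_, hE⟩ ^ 2 * ⟨_, hF⟩ ^ 2 -
      48 * ⟨_, hE⟩ * ⟨_, hF⟩ ^ 3 - 127 * ⟨_, hF⟩ ^ 4) from rfl)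
  rw [evH_apply] at h2
  simp only [map_sub, map_mul, map_pow, map_ofNat, evH_apply] at h2
  exact h2.symm

omit T in
theorem map_DD (f E : PowerSeries ℤ) : PowerSeries.map (Int.castRingHom ℂ) (DD f E) =
    DD (PowerSeries.map (Int.castRingHom ℂ) f) (PowerSeries.map (Int.castRingHom ℂ) E) := by
  unfold DD
  simp only [map_sub, map_mul, map_pow, map_ofNat, map_th]

omit T in
theorem mk_seven (c : ℕ → ℤ) : PowerSeries.mk c =
    PowerSeries.C (c 0) + PowerSeries.C (c 1) * PowerSeries.X +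
      PowerSeries.C (c 2) * PowerSeries.X ^ 2 + PowerSeries.C (c 3) * PowerSeries.X ^ 3 +
      PowerSeries.C (c 4) * PowerSeries.X ^ 4 + PowerSeries.C (c 5) * PowerSeries.X ^ 5 +
      PowerSeries.C (c 6) * PowerSeries.X ^ 6 +
      PowerSeries.X ^ 7 * PowerSeries.mk (fun n => c (n + 7)) := by
  rw [mk_succ c, mk_succ (fun n => c (n + 1)), mk_succ (fun n => c (n + 1 + 1)),
    mk_succ (fun n => c (n + 1 + 1 + 1)), mk_succ (fun n => c (n + 1 + 1 + 1 + 1)),
    mk_succ (fun n => c (n + 1 + 1 + 1 + 1 + 1)), mk_succ (fun n => c (n + 1 + 1 + 1 + 1 + 1 + 1))]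
  simp only [zero_add]
  norm_num [Nat.add_assoc]
  ring

omit T in
theorem cE_table : cE 0 = 2 ∧ cE 1 = 3 ∧ cE 2 = 9 ∧ cE 3 = 12 ∧ cE 4 = 21 ∧ cE 5 = 18 ∧
    cE 6 = 36 := by decide

theorem form9 : ∃ R : PowerSeries ℤ, DD (PowerSeries.mk (an r)) (PowerSeries.mk cE) =
    PowerSeries.X ^ 9 * R := by
  obtain ⟨e0, e1, e2, e3, e4, e5, e6⟩ := cE_table
  have hm : PowerSeries.mk (an r) = PowerSeries.X * PowerSeries.mk (fun n => an r (n + 1)) := by
    rw [mk_succ (an r), an_zero T, map_zero, zero_add]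
  have hf := mk_seven (fun n => an r (n + 1))
  have hE := mk_seven cE
  simp only [zero_add, Nat.reduceAdd, an_one T, an_two T, an_three T, an_four T, an_five T,
    an_six T, an_seven T] at hf
  rw [e0, e1, e2, e3, e4, e5, e6] at hE
  obtain ⟨R, hR⟩ := DD_dvd (f1 := PowerSeries.mk (fun n => an r (n + 1))) (E := PowerSeries.mk cE)
    (g := PowerSeries.mk (fun n => an r (n + 7 + 1))) (h := PowerSeries.mk (fun n => cE (n + 7)))
    (by rw [hf]; simp; ring) (by rw [hE]; simp)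
  refine ⟨R, ?_⟩
  rw [hm]
  exact hR

theorem gg_decay : (fun z : ℍ => gg Θ (fun n => (an r n : ℂ)) z) =O[atImInfty]
    fun τ => Real.exp (-2 * π * 9 * τ.im) := by
  obtain ⟨R, hR⟩ := form9 T
  set p := DD (PowerSeries.mk fun n => (an r n : ℂ)) (PowerSeries.mk fun n => (cE n : ℂ)) with hp
  have hpR : p = PowerSeries.X ^ 9 * PowerSeries.map (Int.castRingHom ℂ) R := by
    have h1 := congrArg (PowerSeries.map (Int.castRingHom ℂ)) hR
    rw [map_DD, map_mul, map_pow, PowerSeries.map_X] at h1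
    rw [← h1, hp]
    congr 1
  have h2 := decay_of_coeff (f := fun z : ℍ => gg Θ (fun n => (an r n : ℂ)) z)
    (c := fun n => PowerSeries.coeff n p) (fun τ => by
      have := (convD T).hasSum (norm_qq_lt τ.2)
      rw [← gg_eq T τ.2] at this
      exact this) 9 (fun k hk => by
      exact PowerSeries.X_pow_dvd_iff.1 ⟨_, hpR⟩ k hk)
  exact h2

theorem gg_S (z : ℍ) : ((fun z : ℍ => gg Θ (fun n => (an r n : ℂ)) z) ∣[((12 : ℕ) : ℤ)]
    ModularGroup.S) z = (17 ^ 6 : ℂ)⁻¹ * gg Θ (fun n => (an r n : ℂ)) ((z : ℂ) / 17) := by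
  have h := slash_S_apply' (k := 12) (gg Θ (fun n => (an r n : ℂ))) z
  have h0 : (z : ℂ) ≠ 0 := z.ne_zero
  have h1 := gg_W T (im_div17 z.2)
  rw [show 17 * ((z : ℂ) / 17) = z by field_simp] at h1
  rw [h1] at h
  rw [h]
  field_simp

theorem gg_decay_S : ((fun z : ℍ => gg Θ (fun n => (an r n : ℂ)) z) ∣[((12 : ℕ) : ℤ)]
    ModularGroup.S) =O[atImInfty] fun τ => Real.exp (-2 * π * 9 * τ.im / 17) := by
  have h8 : Tendsto (fun z : ℍ => (⟨(z : ℂ) / 17, im_div17 z.2⟩ : ℍ)) atImInfty atImInfty := by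
    rw [atImInfty, tendsto_comap_iff]
    have h9 : Tendsto (fun z : ℍ => z.im / 17) (comap UpperHalfPlane.im atTop) atTop :=
      tendsto_comap.atTop_div_const (by norm_num)
    refine h9.congr fun z => ?_
    simp only [Function.comp_apply]
    rw [← UpperHalfPlane.coe_im, ← UpperHalfPlane.coe_im]
    show (z : ℂ).im / 17 = ((z : ℂ) / 17).im
    rw [im_d17]
  have h1 := ((gg_decay T).comp_tendsto h8).const_mul_left ((17 ^ 6 : ℂ)⁻¹)
  refine (h1.congr_left fun z => ?_).congr_right fun z => ?_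
  · rw [gg_S T]
    rfl
  · simp only [Function.comp_apply]
    congr 1
    rw [← UpperHalfPlane.coe_im, ← UpperHalfPlane.coe_im]
    show -2 * π * 9 * ((z : ℂ) / 17).im = -2 * π * 9 * (z : ℂ).im / 17
    rw [im_d17]
    ring

theorem gg_mdiff : MDiff (fun z : ℍ => gg Θ (fun n => (an r n : ℂ)) z) := by
  rw [UpperHalfPlane.mdifferentiable_iff]
  intro z hz
  have h6 : DifferentiableAt ℂ (fun z => ev (DD (PowerSeries.mk fun n => (an r n : ℂ))
      (PowerSeries.mk fun n => (cE n : ℂ))) (qq z)) z := ((convD T).hasDerivAt hz).differentiableAt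
  refine (h6.congr_of_eventuallyEq ?_).differentiableWithinAt
  filter_upwards [eventually_im hz] with w hw
  simp only [Function.comp_apply]
  rw [ofComplex_apply_of_im_pos hw]
  exact gg_eq T hw

theorem gg_zero (z : ℍ) : gg Θ (fun n => (an r n : ℂ)) z = 0 := by
  set h : ℍ → ℂ := fun z : ℍ => gg Θ (fun n => (an r n : ℂ)) z with hh
  have hi : ∀ γ ∈ Gamma0 17, h ∣[((12 : ℕ) : ℤ)] γ = h :=
    fun γ hγ => slash_of_mob (k := 12) (fun _ _ _ _ h _ hz => gg_mob T h hz) γ hγ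
  have hk : ((2 : ℕ) * ((12 : ℕ) : ℤ) : ℤ) = ((12 * (1 + 1) : ℕ) : ℤ) := by norm_num
  obtain ⟨c, hc⟩ := eq_smul_of (k := ((12 * (1 + 1) : ℕ) : ℤ)) (h := fun z => h z ^ 2)
    (g := GH 1 1) (mdiff_pow (gg_mdiff T) 2) (GH_mdiff 1 1) (fun z => GG_ne 1 1 z.2)
    (fun γ hγ => by
      rw [← hk, pow_slash, hi γ hγ]) (GH_slash 1 1)
    (by
      refine ((gg_decay T).pow 2).trans
        ((isBigO_refl _ _).congr_left ?_ |>.trans (GH_lower 1 1))
      intro τ
      rw [← Real.exp_nat_mul]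
      congr 1
      push_cast
      ring)
    (by
      rw [← hk, pow_slash]
      rw [hk]
      refine ((gg_decay_S T).pow 2).trans
        ((isBigO_refl _ _).congr_left ?_ |>.trans (GHS_lower 1 1))
      intro τ
      rw [← Real.exp_nat_mul]
      congr 1
      push_cast
      ring)
  have e1 : Fc Θ z0 = 0 := elliptic_zero (h := fun z : ℍ => Fc Θ z) (F_form' T).slash
  have h3 : h z0 ^ 2 = c * GH 1 1 z0 := hc z0
  have e3 : h z0 = 0 := by
    have e2 : ec z0 = 0 := elliptic_zero (h := fun z : ℍ => ec z) ec_form.slash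
    rw [hh]
    simp only [gg]
    rw [e1, e2]
    ring
  rw [e3, zero_pow (by norm_num)] at h3
  have hc0 : c = 0 := by
    rcases mul_eq_zero.1 h3.symm with h | h
    · exact h
    · exact absurd h (GG_ne 1 1 z0.2)
  have h4 : h z ^ 2 = c * GH 1 1 z := hc z
  rw [hc0, zero_mul] at h4
  exact pow_eq_zero_iff (by norm_num) |>.1 h4

/-- **The quartic identity** -/
theorem quartic : DD (PowerSeries.mk (an r)) (PowerSeries.mk cE) = 0 := by
  have hD0 : DD (PowerSeries.mk fun n => (an r n : ℂ)) (PowerSeries.mk fun n => (cE n : ℂ)) = 0 := by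
    apply (convD T).eq_zero
    intro q hq0 hq1
    obtain ⟨z, hz, rfl⟩ := exists_qq hq0 hq1
    rw [← gg_eq T hz]
    exact gg_zero T ⟨z, hz⟩
  have h8 : PowerSeries.map (Int.castRingHom ℂ) (DD (PowerSeries.mk (an r)) (PowerSeries.mk cE)) =
      0 := by
    rw [map_DD]
    refine Eq.trans ?_ hD0
    congr 1
  have hinj : Function.Injective (PowerSeries.map (Int.castRingHom ℂ)) :=
    PowerSeries.map_injective _ (Int.cast_injective (α := ℂ))
  exact hinj (by rw [h8, map_zero])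

end

end Vale.Agent.P014.H687
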