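import Vale.Agent.P014.H687.Out

/-!
# P014 (H687): the Hasse-Weil `L`-functions of the twists of `17a2`
-/

open Complex

namespace Vale.Agent.P014

/-- the Hasse-Weil `L`-function is unique -/
theorem IsHasseWeil.unique {E : WeierstrassCurve ℚ} {L L' : ℂ → ℂ} (h : IsHasseWeil E L)
    (h' : IsHasseWeil E L') : L = L' := by
  have a1 : AnalyticOnNhd ℂ L Set.univ := fun z _ => h.1.analyticAt z
  have a2 : AnalyticOnNhd ℂ L' Set.univ := fun z _ => h'.1.analyticAt z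
  have ho : IsOpen {s : ℂ | 3 / 2 < s.re} := isOpen_lt continuous_const Complex.continuous_re
  have e : L =ᶠ[nhds (2 : ℂ)] L' := by
    filter_upwards [ho.mem_nhds (show (2 : ℂ) ∈ {s : ℂ | 3 / 2 < s.re} by norm_num)] with s hs
    exact (h.2 s hs).unique (h'.2 s hs)
  exact a1.eq_of_eventuallyEq a2 e

namespace H687

open Vale.Agent.P014.H70 (r3 Th3)
open Vale.Agent.P014.H483 (Form AT rhoO rhoE L_odd L_even)
open Vale.Agent.P014.H74 (ell)

theorem hw_of {k : ℤ} {n : ℕ} (hsq : Squarefree n) (h17 : Nat.Coprime 17 n)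
    (hk : (4 * k + 1).natAbs = n) {L : ℂ → ℂ} (h1 : Differentiable ℂ L)
    (h2 : ∀ s : ℂ, 3 / 2 < s.re → LSeriesHasSum (fun m => (AT (an r3) n m : ℂ)) s (L s)) :
    IsHasseWeil (tw k) L := by
  have hs : Squarefree (4 * k + 1) := by
    rw [← Int.squarefree_natAbs, hk]
    exact hsq
  have h17' : ¬ (17 : ℤ) ∣ 4 * k + 1 := by
    intro h
    have h3 : (17 : ℕ) ∣ n := by
      rw [← hk]
      exact Int.natCast_dvd.1 (by exact_mod_cast h)
    have := Nat.Coprime.eq_one_of_dvd h17 h3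
    norm_num at this
  refine ⟨h1, fun s hs' => ?_⟩
  have e : (fun m => (((tw k).LFunction m : ℤ) : ℂ)) = fun m => (AT (an r3) n m : ℂ) := by
    funext m
    rw [LFunction_tw k hs h17' m, hk]
    rfl
  rw [e]
  exact h2 s hs'

/-- **the `L`-function of the twist of `17a2` by `-n`, `n ≡ 3 mod 4`** -/
theorem hw_odd {k : ℤ} {n : ℕ} (h4 : n % 4 = 3) (hsq : Squarefree n) (h17 : Nat.Coprime 17 n)
    (hk : 4 * k + 1 = -(n : ℤ)) : ∃ L : ℂ → ℂ, IsHasseWeil (tw k) L ∧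
      ∃ ε : ℝ, (ε = 1 ∨ ε = -1) ∧ L 1 = ((ε * (ell (rhoO (an r3)) n / √(n : ℝ)) : ℝ) : ℂ) := by
  obtain ⟨L, h1, h2, h3⟩ := L_odd form17 h4 hsq h17 (ld_AT h17)
  exact ⟨L, hw_of hsq h17 (by rw [hk, Int.natAbs_neg, Int.natAbs_natCast]) h1 h2, h3⟩

/-- **the `L`-function of the twist of `17a2` by `n`, `n ≡ 1 mod 4`** -/
theorem hw_even {k : ℤ} {n : ℕ} (h4 : n % 4 = 1) (h1n : 1 < n) (hsq : Squarefree n)
    (h17 : Nat.Coprime 17 n) (hk : 4 * k + 1 = (n : ℤ)) : ∃ L : ℂ → ℂ, IsHasseWeil (tw k) L ∧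
      ∃ ε : ℝ, (ε = 1 ∨ ε = -1) ∧ L 1 = ((ε * (ell (rhoE (an r3)) n / √(n : ℝ)) : ℝ) : ℂ) := by
  obtain ⟨L, h1, h2, h3⟩ := L_even form17 h4 h1n hsq h17 (ld_AT h17)
  exact ⟨L, hw_of hsq h17 (by rw [hk, Int.natAbs_natCast]) h1 h2, h3⟩

end H687

end Vale.Agent.P014
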