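import Vale.Agent.P014.H687.FM5d

/-!
# FM5: the main term of the first moment, for an arbitrary class modulo 4 and 17
-/

namespace Vale.Agent.P014.H687.FMG

open Finset Vale.Agent.P014.FM Vale.Agent.P014.H687.FM Asymptotics Filter

/-! ### The constants -/

/-- the constant of an unlinked set (times `64`) -/
def cs (c : G) (e : Fin 4 → Idx) : ℤ :=
  ∑ h : Fin 4 → G, if h 0 + h 1 + h 2 + h 3 = c then Fe e h else 0

/-- nested form -/
def cn (k : G) (e : Fin 4 → Idx) : ℤ :=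
  ∑ a : G, ∑ b : G, ∑ c : G, Fe e ![a, b, c, k + a + b + c]

theorem cn_sum00 : (L.map (cn (0, 0))).sum = 192 := by
  decide +kernel

theorem cn_sum01 : (L.map (cn (0, 1))).sum = 192 := by
  decide +kernel

theorem cn_sum10 : (L.map (cn (1, 0))).sum = 192 := by
  decide +kernel

theorem cn_sum11 : (L.map (cn (1, 1))).sum = 192 := by
  decide +kernel

theorem cn_sum (k : G) : (L.map (cn k)).sum = 192 := by
  have h : ∀ k : G, k = (0, 0) ∨ k = (0, 1) ∨ k = (1, 0) ∨ k = (1, 1) := by decide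
  rcases h k with rfl | rfl | rfl | rfl
  · exact cn_sum00
  · exact cn_sum01
  · exact cn_sum10
  · exact cn_sum11

/-- functions on `Fin 4` as quadruples -/
def E4 : (Fin 4 → G) ≃ G × G × G × G where
  toFun h := (h 0, h 1, h 2, h 3)
  invFun x := ![x.1, x.2.1, x.2.2.1, x.2.2.2]
  left_inv h := by
    funext i
    fin_cases i <;> rfl
  right_inv x := rfl

theorem cs_eq (k : G) (e : Fin 4 → Idx) : cs k e = cn k e := by
  have h1 : cs k e = ∑ x : G × G × G × G,
      if x.1 + x.2.1 + x.2.2.1 + x.2.2.2 = k then Fe e (E4.symm x) else 0 := by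
    rw [cs]
    refine Fintype.sum_equiv E4 _ _ fun h => ?_
    rw [Equiv.symm_apply_apply]
    rfl
  rw [h1, cn, Fintype.sum_prod_type]
  refine Finset.sum_congr rfl fun a _ => ?_
  rw [Fintype.sum_prod_type]
  refine Finset.sum_congr rfl fun b _ => ?_
  rw [Fintype.sum_prod_type]
  refine Finset.sum_congr rfl fun c _ => ?_
  have h2 : ∀ d : G, (a + b + c + d = k) ↔ d = k + a + b + c := by
    have h3 : ∀ x d k : G, (x + d = k) ↔ d = k + x := by decide
    intro d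
    rw [h3 (a + b + c) d k, add_assoc k, add_assoc k]
  simp only [h2]
  rw [Finset.sum_ite_eq' univ, if_pos (mem_univ _)]
  rfl

theorem cs_hat (k : G) (e : Fin 4 → Idx) :
    ∑ δ : G, hat (Fe e) (fun _ => δ) * chi δ k = 4 * cs k e := by
  unfold hat cs
  simp_rw [Finset.sum_mul]
  rw [Finset.sum_comm, Finset.mul_sum]
  refine Finset.sum_congr rfl fun h _ => ?_
  simp_rw [chiv_const]
  have h1 : ∑ δ : G, Fe e h * chi δ (h 0 + h 1 + h 2 + h 3) * chi δ k =
      Fe e h * ∑ δ : G, chi δ (h 0 + h 1 + h 2 + h 3) * chi δ k := by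
    rw [Finset.mul_sum]
    exact Finset.sum_congr rfl fun δ _ => by ring
  rw [h1, orth1]
  split_ifs <;> ring

/-- the limit constant of `ψ` -/
def kap (k : G) (ψ : Fin 4 → G) : ℤ :=
  if ψ 0 = ψ 1 ∧ ψ 0 = ψ 2 ∧ ψ 0 = ψ 3 then chi (ψ 0) k else 0

theorem sum_kap (k : G) (F : (Fin 4 → G) → ℤ) :
    ∑ ψ, F ψ * kap k ψ = ∑ δ : G, F (fun _ => δ) * chi δ k := by
  unfold kap
  have h1 : ∀ ψ : Fin 4 → G, F ψ * (if ψ 0 = ψ 1 ∧ ψ 0 = ψ 2 ∧ ψ 0 = ψ 3 then
      chi (ψ 0) k else 0) =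
      if ψ 0 = ψ 1 ∧ ψ 0 = ψ 2 ∧ ψ 0 = ψ 3 then F ψ * chi (ψ 0) k else 0 := by
    intro ψ
    split_ifs <;> simp
  simp_rw [h1]
  rw [← Finset.sum_filter]
  refine Finset.sum_bij' (fun ψ _ => ψ 0) (fun δ _ => fun _ => δ) ?_ ?_ ?_ ?_ ?_
  · intro ψ _; exact mem_univ _
  · intro δ _; simp
  · intro ψ hψ
    obtain ⟨h1, h2, h3⟩ := (mem_filter.1 hψ).2
    funext i
    fin_cases i
    · rfl
    · exact h1
    · exact h2
    · exact h3
  · intro δ _; rfl
  · intro ψ hψ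
    obtain ⟨h1, h2, h3⟩ := (mem_filter.1 hψ).2
    have : ψ = fun _ => ψ 0 := by
      funext i
      fin_cases i
      · rfl
      · exact h1.symm
      · exact h2.symm
      · exact h3.symm
    conv_lhs => rw [this]

/-! ### The sums over the family -/

open Classical in
/-- the squarefree numbers prime to `34` in the class `c` -/
noncomputable def Fam (c : G) (X : ℕ) : Finset ℕ :=
  (range (X + 1)).filter fun n => Squarefree n ∧ n.Coprime 34 ∧ FM.cl n = c

theorem mem_Fam {c : G} {X n : ℕ} :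
    n ∈ Fam c X ↔ n ≤ X ∧ Squarefree n ∧ n.Coprime 34 ∧ FM.cl n = c := by
  simp only [Fam, mem_filter, mem_range]
  constructor
  · rintro ⟨h1, h2⟩; exact ⟨by omega, h2⟩
  · rintro ⟨h1, h2⟩; exact ⟨by omega, h2⟩

theorem Fam_subset (c : G) (X : ℕ) : Fam c X ⊆ sqf X := by
  intro n hn
  obtain ⟨h1, h2⟩ := mem_Fam.1 hn
  exact mem_sqf.2 ⟨⟨Nat.pos_of_ne_zero h2.1.ne_zero, h1⟩, h2.1⟩

theorem Fam_Dm (X : ℕ) : Fam (1, 1) X = Dm X := by
  ext n
  rw [mem_Fam, FM.mem_Dm]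
  refine and_congr_right fun _ => ?_
  constructor
  · rintro ⟨h1, h2, h3⟩
    unfold FM.cl at h3
    rw [Prod.ext_iff] at h3
    obtain ⟨h4, h5⟩ := h3
    refine ⟨h1, ?_, ?_⟩
    · by_contra h
      simp only [if_neg h] at h4
      exact absurd h4 (by decide)
    · by_contra h
      simp only [if_neg h] at h5
      exact absurd h5 (by decide)
  · intro h
    exact ⟨h.1, IsDm_cop h, IsDm_cl h⟩

/-- the sum attached to `ψ` -/
noncomputable def Tψ (k : G) (ψ : Fin 4 → G) (X : ℕ) : ℝ :=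
  ∑ n ∈ Fam k X, ∏ p ∈ n.primeFactors, fav ψ p

theorem T_const (k δ : G) (X : ℕ) : Tψ k (fun _ => δ) X = chi δ k * ((Fam k X).card : ℝ) := by
  unfold Tψ
  have h1 : ∀ p, fav (fun _ => δ) p = chR δ p := by
    intro p
    unfold fav
    rw [Finset.sum_const]
    simp
  simp_rw [h1]
  rw [Finset.sum_congr rfl (g := fun _ => (chi δ k : ℝ)), Finset.sum_const, nsmul_eq_mul,
    mul_comm]
  intro n hn
  have hD := (mem_Fam.1 hn).2
  rw [prod_chR δ hD.1, chR, if_pos hD.2.1, hD.2.2]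

theorem T_nonconst (hsw : SW) (k : G) {ψ : Fin 4 → G} {i j : Fin 4} (hij : ψ i ≠ ψ j) :
    Tψ k ψ =o[atTop] fun X : ℕ => (X : ℝ) := by
  have hne : i ≠ j := fun h => hij (by rw [h])
  have hδ : ψ i + ψ j ≠ 0 := by
    have : ∀ x y : G, x + y = 0 → x = y := by decide
    exact fun h => hij (this _ _ h)
  obtain ⟨C, hC, hb⟩ := fm2c hsw (npchar_chR hδ) (chR_val _)
  have hlim : Tendsto (fun X : ℕ => C * Real.log X ^ (-(1 / 4 : ℝ))) atTop (nhds 0) := by
    have h1 := (tendsto_rpow_neg_atTop (by norm_num : (0 : ℝ) < 1 / 4)).comp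
      (Real.tendsto_log_atTop.comp tendsto_natCast_atTop_atTop)
    have h2 := h1.const_mul C
    rw [mul_zero] at h2
    exact h2
  refine IsLittleO.of_bound fun c hc => ?_
  filter_upwards [hlim.eventually_le_const hc, eventually_ge_atTop 3] with X hX hX3
  have hX3' : (3 : ℝ) ≤ X := by exact_mod_cast hX3
  have h1 := hb X hX3' (fun p => |fav ψ p|) (fun p => abs_nonneg _) (fun p _ => fav_abs ψ p)
    (fun p _ hp => fav_half hne hp)
  rw [Nat.floor_natCast] at h1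
  have h2 : |Tψ k ψ X| ≤ ∑ n ∈ sqf X, mf (fun p => |fav ψ p|) n := by
    unfold Tψ
    refine (Finset.abs_sum_le_sum_abs _ _).trans ?_
    refine le_trans (le_of_eq (Finset.sum_congr rfl fun n _ => Finset.abs_prod _ _)) ?_
    exact Finset.sum_le_sum_of_subset_of_nonneg (Fam_subset k X)
      (fun n _ _ => mf_nonneg (fun p => abs_nonneg _) n)
  rw [Real.norm_eq_abs, Real.norm_natCast]
  calc |Tψ k ψ X| ≤ C * X * Real.log X ^ (-(1 / 4 : ℝ)) := h2.trans h1
    _ = (C * Real.log X ^ (-(1 / 4 : ℝ))) * X := by ring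
    _ ≤ c * X := by gcongr

theorem T_lim (hsw : SW) (k : G) (ψ : Fin 4 → G) :
    (fun X : ℕ => Tψ k ψ X - kap k ψ * ((Fam k X).card : ℝ)) =o[atTop] fun X : ℕ => (X : ℝ) := by
  by_cases h : ψ 0 = ψ 1 ∧ ψ 0 = ψ 2 ∧ ψ 0 = ψ 3
  · have h1 : ψ = fun _ => ψ 0 := by
      funext i
      fin_cases i
      · rfl
      · exact h.1.symm
      · exact h.2.1.symm
      · exact h.2.2.symm
    have h2 : (fun X : ℕ => Tψ k ψ X - kap k ψ * ((Fam k X).card : ℝ)) = fun _ => 0 := by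
      funext X
      unfold kap
      rw [if_pos h]
      conv_lhs => rw [h1]
      rw [T_const]
      ring
    rw [h2]
    exact isLittleO_zero _ _
  · have h2 : (fun X : ℕ => Tψ k ψ X - kap k ψ * ((Fam k X).card : ℝ)) = Tψ k ψ := by
      funext X
      unfold kap
      rw [if_neg h]
      simp
    rw [h2]
    have h3 : ψ 0 ≠ ψ 1 ∨ ψ 0 ≠ ψ 2 ∨ ψ 0 ≠ ψ 3 := by tauto
    rcases h3 with h3 | h3 | h3
    · exact T_nonconst hsw k h3
    · exact T_nonconst hsw k h3
    · exact T_nonconst hsw k h3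

theorem main_e (hsw : SW) (k : G) {e : Fin 4 → Idx} (he : e ∈ L) :
    (fun X : ℕ => ∑ n ∈ Fam k X, mainU (univ.image e) n - cn k e / 64 * ((Fam k X).card : ℝ))
      =o[atTop] fun X : ℕ => (X : ℝ) := by
  have h1 : (fun X : ℕ => ∑ n ∈ Fam k X, mainU (univ.image e) n - cn k e / 64 * ((Fam k X).card : ℝ)) =
      fun X : ℕ => (1 / 256) * ∑ ψ : Fin 4 → G, (hat (Fe e) ψ : ℝ) *
        (Tψ k ψ X - kap k ψ * ((Fam k X).card : ℝ)) := by
    funext X
    have h2 : ∑ n ∈ Fam k X, mainU (univ.image e) n =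
        (1 / 256) * ∑ ψ : Fin 4 → G, (hat (Fe e) ψ : ℝ) * Tψ k ψ X := by
      rw [Finset.sum_congr rfl fun n hn => mainU_eq (L_inj he) (L_unl he) (mem_Fam.1 hn).2.1
        (mem_Fam.1 hn).2.2.1, ← Finset.mul_sum, Finset.sum_comm]
      congr 1
      refine Finset.sum_congr rfl fun ψ _ => ?_
      rw [Tψ, Finset.mul_sum]
    have h3 : ∑ ψ : Fin 4 → G, (hat (Fe e) ψ : ℝ) * (kap k ψ : ℝ) = 4 * (cn k e : ℝ) := by
      rw [← cs_eq]
      exact_mod_cast (sum_kap k (hat (Fe e))).trans (cs_hat k e)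
    have h4 : ∑ ψ : Fin 4 → G, (hat (Fe e) ψ : ℝ) * (Tψ k ψ X - kap k ψ * ((Fam k X).card : ℝ)) =
        ∑ ψ : Fin 4 → G, (hat (Fe e) ψ : ℝ) * Tψ k ψ X -
        (∑ ψ : Fin 4 → G, (hat (Fe e) ψ : ℝ) * (kap k ψ : ℝ)) * ((Fam k X).card : ℝ) := by
      rw [Finset.sum_mul, ← Finset.sum_sub_distrib]
      exact Finset.sum_congr rfl fun ψ _ => by ring
    rw [h4, h3, h2]
    ring
  rw [h1]
  refine IsLittleO.const_mul_left ?_ _
  have h := IsLittleO.sum (s := univ) (A := fun (ψ : Fin 4 → G) (X : ℕ) =>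
    (hat (Fe e) ψ : ℝ) * (Tψ k ψ X - kap k ψ * ((Fam k X).card : ℝ)))
    (fun ψ _ => (T_lim hsw k ψ).const_mul_left _)
  refine h.congr_left fun X => ?_
  rw [Finset.sum_apply]

theorem list_littleO {α : Type*} (l : List α) (F : α → ℕ → ℝ) (g : ℕ → ℝ)
    (h : ∀ e ∈ l, F e =o[atTop] g) : (fun X => (l.map (fun e => F e X)).sum) =o[atTop] g := by
  induction l with
  | nil => simp
  | cons a l ih =>
    simp only [List.map_cons, List.sum_cons]
    exact (h a List.mem_cons_self).add (ih fun e he => h e (List.mem_cons_of_mem a he))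

theorem fm5_littleO (hsw : SW) (k : G) :
    (fun X : ℕ => ∑ n ∈ Fam k X, ∑ U ∈ Us, mainU U n - 3 * ((Fam k X).card : ℝ))
      =o[atTop] fun X : ℕ => (X : ℝ) := by
  have h1 : (fun X : ℕ => ∑ n ∈ Fam k X, ∑ U ∈ Us, mainU U n - 3 * ((Fam k X).card : ℝ)) =
      fun X : ℕ => (L.map (fun e => ∑ n ∈ Fam k X, mainU (univ.image e) n -
        cn k e / 64 * ((Fam k X).card : ℝ))).sum := by
    funext X
    rw [Finset.sum_comm, Us_eq, List.sum_toFinset _ L_nodup, List.map_map]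
    have h2 : ∀ l : List (Fin 4 → Idx), (l.map (fun e => ∑ n ∈ Fam k X, mainU (univ.image e) n -
        cn k e / 64 * ((Fam k X).card : ℝ))).sum =
        (l.map (fun e => ∑ n ∈ Fam k X, mainU (univ.image e) n)).sum -
          (((l.map (cn k)).sum : ℤ) : ℝ) / 64 * ((Fam k X).card : ℝ) := by
      intro l
      induction l with
      | nil => simp
      | cons a l ih =>
        simp only [List.map_cons, List.sum_cons, ih]
        push_cast
        ring
    rw [h2, cn_sum]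
    have h3 : ((192 : ℤ) : ℝ) / 64 = 3 := by norm_num
    rw [h3]
    rfl
  rw [h1]
  exact list_littleO L _ _ fun e he => main_e hsw k he

/-- **FM5** -/
theorem fm5 (hsw : SW) (k : G) (ε : ℝ) (hε : 0 < ε) : ∃ X₀ : ℕ, ∀ X : ℕ, X₀ ≤ X →
    |∑ n ∈ Fam k X, ∑ U ∈ Us, mainU U n - 3 * ((Fam k X).card : ℝ)| ≤ ε * X := by
  obtain ⟨X₀, h⟩ := eventually_atTop.1 ((fm5_littleO hsw k).bound hε)
  refine ⟨X₀, fun X hX => ?_⟩
  have := h X hX
  rwa [Real.norm_eq_abs, Real.norm_natCast] at this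

end Vale.Agent.P014.H687.FMG
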