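import Vale.Agent.P014.H698.Dens
import Vale.Agent.P014.H687.FM5g

/-!
# First moment, the family `n = 1 mod 4`, `(n | 17) = 1`: corank, size, final deduction
-/

namespace Vale.Agent.P014.H687.DP

open Finset Vale.Agent.P014.FM Vale.Agent.P014.H698

/-- the second family -/
def IsDp (n : ℕ) : Prop := Squarefree n ∧ n % 4 = 1 ∧ jacobiSym (n : ℤ) 17 = 1

open Classical in
/-- the second family up to `X` -/
noncomputable def Dp (X : ℕ) : Finset ℕ := (range (X + 1)).filter IsDp

section

variable {n : ℕ}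

theorem dp_odd (h : IsDp n) : n % 2 = 1 := by have := h.2.1; omega

theorem dp_cop (h : IsDp n) : Nat.Coprime n 17 := by
  by_contra hc
  have h1 := (jacobiSym.eq_zero_iff_not_coprime (a := (n : ℤ)) (b := 17)).mpr (by
    rw [show ((17 : ℕ) : ℤ) = ((17 : ℕ) : ℤ) from rfl, Int.gcd_natCast_natCast]
    exact hc)
  rw [h.2.2] at h1
  norm_num at h1

theorem sum_eP_zero (hn : Squarefree n) (h4 : n % 4 = 1) : ∑ p : n.primeFactors, eP p = 0 := by
  apply sg_inj
  rw [sg_sum, sg_zero]
  have h1 : ∏ p : n.primeFactors, sg (eP p) = ∏ p ∈ n.primeFactors, chi4 p := by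
    rw [← Finset.prod_coe_sort n.primeFactors]
    refine Finset.prod_congr rfl fun p _ => ?_
    refine sg_eP ?_
    by_contra hc
    have h2 : 2 ∣ (p : ℕ) := by omega
    have := h2.trans (Nat.dvd_of_mem_primeFactors p.2)
    omega
  rw [h1, ← chi4_prod, Nat.prod_primeFactors_of_squarefree hn]
  unfold chi4
  rw [if_pos h4]

theorem sum_sP_zero (hn : Squarefree n) (h17 : jacobiSym n 17 = 1) (hc : Nat.Coprime n 17) :
    ∑ p : n.primeFactors, sP p = 0 := by
  apply sg_inj
  rw [sg_sum, sg_zero]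
  have h1 : ∏ p : n.primeFactors, sg (sP p) = ∏ p ∈ n.primeFactors, J p 17 := by
    rw [← Finset.prod_coe_sort n.primeFactors]
    refine Finset.prod_congr rfl fun p _ => ?_
    exact sg_sP (Nat.Coprime.coprime_dvd_left (Nat.dvd_of_mem_primeFactors p.2) hc)
  rw [h1, ← J_prod_left, Nat.prod_primeFactors_of_squarefree hn]
  unfold H580.J
  rw [h17]; norm_num

/-- the characteristic vector -/
def cv (n : ℕ) : n.primeFactors ⊕ n.primeFactors → ZMod 2 := Sum.elim (fun _ => 1) (fun _ => 0)

theorem NP_cv (h : IsDp n) (i : n.primeFactors ⊕ n.primeFactors) :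
    (NP n).mulVec (cv n) i = NP n i i := by
  have hodd := dp_odd h
  have hpo : ∀ p : n.primeFactors, (p : ℕ) % 2 = 1 := by
    intro p
    by_contra hc
    have h2 : 2 ∣ (p : ℕ) := by omega
    have := h2.trans (Nat.dvd_of_mem_primeFactors p.2)
    omega
  unfold NP NMat cv
  rw [Matrix.fromBlocks_mulVec]
  rcases i with p | p
  · simp only [Sum.elim_inl, Matrix.fromBlocks_apply₁₁, Matrix.diagonal_apply, if_true,
      Pi.add_apply, Matrix.mulVec_diagonal, Function.comp]
    rw [lap_mulVec']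
    rw [Finset.sum_eq_zero, mul_one, add_zero]
    intro q _
    simp only [Function.comp, Sum.elim_inr]
    rw [show (0 : ZMod 2) + 0 = 0 from by decide, mul_zero]
  · simp only [Sum.elim_inr, Matrix.fromBlocks_apply₂₂, Matrix.diagonal_apply, if_true,
      Pi.add_apply, Matrix.mulVec_diagonal, Function.comp]
    rw [lap_transpose_mulVec', mul_zero, add_zero]
    simp only [Function.comp, Sum.elim_inl]
    rw [← Finset.add_sum_erase _ _ (Finset.mem_univ p), CharTwo.add_self_eq_zero, zero_add]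
    have h2 : ∀ q ∈ (Finset.univ : Finset n.primeFactors).erase p,
        wP p q * 1 + wP q p * 1 = eP p * eP q := by
      intro q hq
      rw [mul_one, mul_one]
      refine wP_recip' (hpo p) (hpo q) ?_
      rw [Nat.coprime_primes (Nat.prime_of_mem_primeFactors p.2)
        (Nat.prime_of_mem_primeFactors q.2)]
      intro hc
      exact (Finset.ne_of_mem_erase hq) (Subtype.ext hc.symm)
    rw [Finset.sum_congr rfl h2, ← Finset.mul_sum]
    have h3 := sum_eP_zero h.1 h.2.1
    rw [← Finset.add_sum_erase _ _ (Finset.mem_univ p)] at h3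
    have h4 : ∑ q ∈ Finset.univ.erase p, eP (q : ℕ) = eP p := by
      have := CharTwo.add_eq_zero.1 h3
      exact this.symm
    rw [h4]
    rcases zmod2_cases (eP p) with h5 | h5 <;> rw [h5] <;> decide

theorem card_ker_ge_dp {n : ℕ} (h : IsDp n) (hdet : (NP n).det ≠ 1) :
    4 ≤ Nat.card {x // (NP n).mulVec x = 0} := by
  have hdet0 : (NP n).det = 0 := (zmod2_cases _).resolve_right hdet
  obtain ⟨x, hx, hNx⟩ := Matrix.exists_mulVec_eq_zero_iff.mpr hdet0
  have hcard : Even (Fintype.card (n.primeFactors ⊕ n.primeFactors)) := by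
    rw [Fintype.card_sum]; exact ⟨_, rfl⟩
  have hdiag : ∑ i, NP n i i * cv n i = 0 := by
    rw [Fintype.sum_sum_type]
    have h1 : ∑ p : n.primeFactors, NP n (Sum.inl p) (Sum.inl p) * cv n (Sum.inl p) =
        ∑ p : n.primeFactors, sP p := by
      refine Finset.sum_congr rfl fun p _ => ?_
      simp [NP, NMat, cv]
    have h2 : ∑ p : n.primeFactors, NP n (Sum.inr p) (Sum.inr p) * cv n (Sum.inr p) = 0 := by
      refine Finset.sum_eq_zero fun p _ => ?_
      simp [cv]
    rw [h1, h2, sum_sP_zero h.1 h.2.2 (dp_cop h), add_zero]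
  obtain ⟨z, hz, hzx, hNz⟩ := exists_third_sym (NP n) hcard NP_symm (cv n) (NP_cv h) hdiag
    hx hNx
  have hxz : (NP n).mulVec (x + z) = 0 := by rw [Matrix.mulVec_add, hNx, hNz, add_zero]
  have h0 : (NP n).mulVec 0 = 0 := Matrix.mulVec_zero _
  rw [Nat.card_eq_fintype_card]
  have hsub : ({⟨0, h0⟩, ⟨x, hNx⟩, ⟨z, hNz⟩, ⟨x + z, hxz⟩} :
      Finset {x // (NP n).mulVec x = 0}).card = 4 := by
    have hself : ∀ y : n.primeFactors ⊕ n.primeFactors → ZMod 2, y + y = 0 := by
      intro y; funext i; exact CharTwo.add_self_eq_zero _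
    have e1 : x + z ≠ 0 := by
      intro hc
      apply hzx
      have := congrArg (fun y => x + y) hc
      simp only [← add_assoc, hself, zero_add, add_zero] at this
      exact this
    have e2 : x + z ≠ x := by
      intro hc; apply hz; simpa using hc
    have e3 : x + z ≠ z := by
      intro hc; apply hx; simpa using hc
    rw [Finset.card_insert_of_notMem, Finset.card_insert_of_notMem, Finset.card_insert_of_notMem,
      Finset.card_singleton]
    · simp only [Finset.mem_singleton, Subtype.mk.injEq]; exact e3.symm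
    · simp only [Finset.mem_insert, Finset.mem_singleton, Subtype.mk.injEq, not_or]
      exact ⟨hzx.symm, e2.symm⟩
    · simp only [Finset.mem_insert, Finset.mem_singleton, Subtype.mk.injEq, not_or]
      exact ⟨hx.symm, hz.symm, e1.symm⟩
  rw [← hsub]
  exact Finset.card_le_univ _

end

theorem card_sq_dvd' (M k : ℕ) (hk : Nat.Coprime k 68) (hk0 : 0 < k) :
    ((range M).filter fun m => k ^ 2 ∣ 68 * m + 1).card ≤ M / k ^ 2 + 1 := by
  have hk2 : 0 < k ^ 2 := by positivity
  rw [← Finset.card_range (M / k ^ 2 + 1)]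
  apply Finset.card_le_card_of_injOn (fun m => m / k ^ 2)
  · intro m hm
    rw [Finset.mem_coe, Finset.mem_filter, Finset.mem_range] at hm
    rw [Finset.mem_coe, Finset.mem_range]
    exact Nat.lt_succ_of_le (Nat.div_le_div_right hm.1.le)
  · intro a ha b hb hab
    rw [Finset.mem_coe, Finset.mem_filter] at ha hb
    simp only at hab
    have hcop : IsCoprime ((k ^ 2 : ℕ) : ℤ) 68 := by
      have := (Nat.isCoprime_iff_coprime.mpr (Nat.Coprime.pow_left 2 hk))
      exact_mod_cast this
    have h1 : ((k ^ 2 : ℕ) : ℤ) ∣ 68 * ((a : ℤ) - b) := by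
      have h2 : ((k ^ 2 : ℕ) : ℤ) ∣ ((68 * a + 1 : ℕ) : ℤ) := by exact_mod_cast ha.2
      have h3 : ((k ^ 2 : ℕ) : ℤ) ∣ ((68 * b + 1 : ℕ) : ℤ) := by exact_mod_cast hb.2
      have h4 := dvd_sub h2 h3
      have h5 : ((68 * a + 1 : ℕ) : ℤ) - ((68 * b + 1 : ℕ) : ℤ) = 68 * ((a : ℤ) - b) := by
        push_cast; ring
      rwa [h5] at h4
    have h2 : ((k ^ 2 : ℕ) : ℤ) ∣ (a : ℤ) - b := hcop.dvd_of_dvd_mul_left h1
    have h3 : a ≡ b [MOD k ^ 2] := by
      rw [Nat.modEq_iff_dvd]
      have := dvd_neg.mpr h2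
      rwa [neg_sub] at this
    have h4 : a % k ^ 2 = b % k ^ 2 := h3
    rw [← Nat.div_add_mod a (k ^ 2), ← Nat.div_add_mod b (k ^ 2), h4, hab]

theorem bad_card' (M X : ℕ) (hX : 68 * M ≤ X + 65) :
    (((range M).filter fun m => ¬ Squarefree (68 * m + 1)).card : ℝ) ≤
      (M : ℝ) / 4 + (Nat.sqrt X : ℝ) := by
  set K := Nat.sqrt X with hK
  have hsub : ((range M).filter fun m => ¬ Squarefree (68 * m + 1)) ⊆
      (range K).biUnion fun j => if Nat.Coprime (2 * (j + 1) + 1) 68 then
        (range M).filter fun m => (2 * (j + 1) + 1) ^ 2 ∣ 68 * m + 1 else ∅ := by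
    intro m hm
    rw [Finset.mem_filter, Finset.mem_range] at hm
    obtain ⟨hmM, hsq⟩ := hm
    rw [Nat.squarefree_iff_prime_squarefree] at hsq
    push Not at hsq
    obtain ⟨p, hp, hpd⟩ := hsq
    have hpd1 : p ∣ 68 * m + 1 := (dvd_mul_right p p).trans hpd
    have hp2 : p ≠ 2 := by rintro rfl; omega
    have hodd := hp.eq_two_or_odd.resolve_left hp2
    have hp3 := hp.two_le
    have hp17 : p ≠ 17 := by rintro rfl; omega
    rw [Finset.mem_biUnion]
    have hle : p * p ≤ X := by
      have h1 := Nat.le_of_dvd (by omega) hpd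
      omega
    have hpK : p ≤ K := Nat.le_sqrt.mpr hle
    refine ⟨(p - 3) / 2, ?_, ?_⟩
    · rw [Finset.mem_range]; omega
    · have h1 : 2 * ((p - 3) / 2 + 1) + 1 = p := by omega
      rw [h1]
      have h2 : Nat.Coprime p 68 := by
        rw [show (68 : ℕ) = 2 ^ 2 * 17 by norm_num]
        apply Nat.Coprime.mul_right
        · exact Nat.Coprime.pow_right 2 ((Nat.coprime_primes hp Nat.prime_two).mpr hp2)
        · exact (Nat.coprime_primes hp (by norm_num)).mpr hp17
      rw [if_pos h2, Finset.mem_filter, Finset.mem_range, sq]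
      exact ⟨hmM, hpd⟩
  have h1 := Finset.card_le_card hsub
  have h2 := h1.trans Finset.card_biUnion_le
  have h3 : ∀ j ∈ range K, (((if Nat.Coprime (2 * (j + 1) + 1) 68 then
        (range M).filter fun m => (2 * (j + 1) + 1) ^ 2 ∣ 68 * m + 1 else ∅ :
          Finset ℕ).card : ℕ) : ℝ) ≤ M * (1 / (2 * (j + 1 : ℝ) + 1) ^ 2) + 1 := by
    intro j _
    split_ifs with h
    · have h4 := card_sq_dvd' M _ h (by omega)
      have h5 : (((M / (2 * (j + 1) + 1) ^ 2 + 1 : ℕ)) : ℝ) ≤
          M * (1 / (2 * (j + 1 : ℝ) + 1) ^ 2) + 1 := by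
        push_cast
        have h6 := @Nat.cast_div_le ℝ _ _ _ M ((2 * (j + 1) + 1) ^ 2)
        push_cast at h6
        rw [mul_one_div]
        linarith
      exact le_trans (by exact_mod_cast h4) h5
    · rw [Finset.card_empty]
      push_cast
      positivity
  calc (((range M).filter fun m => ¬ Squarefree (68 * m + 1)).card : ℝ)
      ≤ ((∑ j ∈ range K, (if Nat.Coprime (2 * (j + 1) + 1) 68 then
        (range M).filter fun m => (2 * (j + 1) + 1) ^ 2 ∣ 68 * m + 1 else ∅ :
          Finset ℕ).card : ℕ) : ℝ) := by exact_mod_cast h2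
    _ = ∑ j ∈ range K, (((if Nat.Coprime (2 * (j + 1) + 1) 68 then
        (range M).filter fun m => (2 * (j + 1) + 1) ^ 2 ∣ 68 * m + 1 else ∅ :
          Finset ℕ).card : ℕ) : ℝ) := by push_cast; rfl
    _ ≤ ∑ j ∈ range K, (M * (1 / (2 * (j + 1 : ℝ) + 1) ^ 2) + 1) := Finset.sum_le_sum h3
    _ = M * ∑ j ∈ range K, (1 / (2 * (j + 1 : ℝ) + 1) ^ 2) + K := by
        rw [Finset.sum_add_distrib, Finset.mul_sum]; simp
    _ ≤ (M : ℝ) / 4 + K := by
        have h7 := sum_odd_sq K
        have h8 : (0 : ℝ) < 1 / (4 * (K + 1 : ℝ)) := by positivity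
        have h9 : (0 : ℝ) ≤ M := Nat.cast_nonneg M
        nlinarith

theorem isDp_of (m : ℕ) (h : Squarefree (68 * m + 1)) : IsDp (68 * m + 1) := by
  refine ⟨h, by omega, ?_⟩
  rw [jacobiSym.mod_left]
  have : (((68 * m + 1 : ℕ) : ℤ)) % ((17 : ℕ) : ℤ) = 1 := by omega
  rw [this]
  norm_num

/-- the family has positive lower density -/
theorem Dp_card_ge (X : ℕ) (hX : 1000000 ≤ X) : (X : ℝ) / 200 ≤ (Dp X).card := by
  classical
  set M := (X - 3) / 68 + 1 with hM
  have hM1 : 68 * M ≤ X + 65 := by omega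
  have hM2 : X ≤ 68 * M + 3 := by omega
  have hbad := bad_card' M X hM1
  have hsplit : ((range M).filter fun m => Squarefree (68 * m + 1)).card +
      ((range M).filter fun m => ¬ Squarefree (68 * m + 1)).card = M := by
    rw [Finset.card_filter_add_card_filter_not, Finset.card_range]
  have hinj : ((range M).filter fun m => Squarefree (68 * m + 1)).card ≤ (Dp X).card := by
    apply Finset.card_le_card_of_injOn (fun m => 68 * m + 1)
    · intro m hm
      rw [Finset.mem_coe, Finset.mem_filter, Finset.mem_range] at hm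
      rw [Finset.mem_coe]
      unfold Dp
      rw [Finset.mem_filter, Finset.mem_range]
      have h5 : 68 * m + 1 < X + 1 := by
        have := hm.1
        omega
      exact ⟨h5, isDp_of m hm.2⟩
    · intro a _ b _ hab
      simp only at hab
      omega
  have hs1 : Nat.sqrt X * Nat.sqrt X ≤ X := Nat.sqrt_le X
  have hs2 : 1000 ≤ Nat.sqrt X := Nat.le_sqrt.mpr (by omega)
  have hs3 : (1000 : ℝ) * Nat.sqrt X ≤ X := by
    have : 1000 * Nat.sqrt X ≤ X := le_trans (Nat.mul_le_mul_right _ hs2) hs1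
    exact_mod_cast this
  have h1 : (((range M).filter fun m => Squarefree (68 * m + 1)).card : ℝ) +
      (((range M).filter fun m => ¬ Squarefree (68 * m + 1)).card : ℝ) = M := by
    exact_mod_cast hsplit
  have h2 : (((range M).filter fun m => Squarefree (68 * m + 1)).card : ℝ) ≤ (Dp X).card := by
    exact_mod_cast hinj
  have h3 : (X : ℝ) ≤ 68 * M + 3 := by exact_mod_cast hM2
  have h4 : (1000000 : ℝ) ≤ X := by exact_mod_cast hX
  linarith

open Classical in
/-- **the final deduction** -/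
theorem proportion_dp
    (hmain : ∀ ε : ℝ, 0 < ε → ∃ X0 : ℕ, ∀ X : ℕ, X0 ≤ X →
      ∑ n ∈ Dp X, kerAv n ≤ 3 * ((Dp X).card : ℝ) + ε * X) :
    ∀ ε : ℝ, 0 < ε → ∃ X0 : ℕ, ∀ X : ℕ, X0 ≤ X →
      (1 / 3 - ε) * ((Dp X).card : ℝ) ≤ (((Dp X).filter fun n => (NP n).det = 1).card : ℝ) := by
  intro ε hε
  obtain ⟨X0, hX0⟩ := hmain (ε / 200) (by positivity)
  refine ⟨max X0 1000000, fun X hX => ?_⟩
  have h1 := hX0 X ((le_max_left _ _).trans hX)
  have h2 := Dp_card_ge X ((le_max_right _ _).trans hX)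
  have h3 : ((Dp X).filter fun n => (NP n).det = 1).card +
      ((Dp X).filter fun n => ¬ (NP n).det = 1).card = (Dp X).card :=
    Finset.card_filter_add_card_filter_not _
  have h3' : (((Dp X).filter fun n => (NP n).det = 1).card : ℝ) +
      (((Dp X).filter fun n => ¬ (NP n).det = 1).card : ℝ) = (Dp X).card := by exact_mod_cast h3
  have hD : ∀ n ∈ Dp X, IsDp n := by
    intro n hn
    unfold Dp at hn
    exact (Finset.mem_filter.mp hn).2
  have h4 : (((Dp X).filter fun n => (NP n).det = 1).card : ℝ) +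
      4 * (((Dp X).filter fun n => ¬ (NP n).det = 1).card : ℝ) ≤ ∑ n ∈ Dp X, kerAv n := by
    rw [← Finset.sum_filter_add_sum_filter_not (Dp X) (fun n => (NP n).det = 1)]
    refine add_le_add ?_ ?_
    · rw [Finset.card_eq_sum_ones]
      push_cast
      refine Finset.sum_le_sum fun n hn => ?_
      have hn' := hD n (Finset.mem_filter.mp hn).1
      rw [← card_ker_eq hn'.1 (dp_odd hn') (dp_cop hn')]
      have : 0 < Nat.card {x // (NP n).mulVec x = 0} := by
        rw [Nat.card_eq_fintype_card]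
        exact Fintype.card_pos_iff.mpr ⟨⟨0, Matrix.mulVec_zero _⟩⟩
      exact_mod_cast this
    · rw [Finset.card_eq_sum_ones]
      push_cast
      rw [Finset.mul_sum]
      refine Finset.sum_le_sum fun n hn => ?_
      have hn' := hD n (Finset.mem_filter.mp hn).1
      rw [← card_ker_eq hn'.1 (dp_odd hn') (dp_cop hn'), mul_one]
      have := card_ker_ge_dp hn' (Finset.mem_filter.mp hn).2
      exact_mod_cast this
  have h5 : (0 : ℝ) ≤ (Dp X).card := Nat.cast_nonneg _
  nlinarith

theorem IsDp_iff {n : ℕ} : IsDp n ↔ Squarefree n ∧ n.Coprime 34 ∧ FM.cl n = (0, 0) := by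
  constructor
  · intro h
    have hc : n.Coprime 34 := by
      rw [show (34 : ℕ) = 2 * 17 from rfl]
      exact Nat.Coprime.mul_right (Nat.coprime_two_right.2 (Nat.odd_iff.2 (dp_odd h))) (dp_cop h)
    refine ⟨h.1, hc, ?_⟩
    unfold FM.cl
    rw [if_neg (by rw [h.2.1]; norm_num), if_neg (by rw [h.2.2]; norm_num)]
  · rintro ⟨h1, h2, h3⟩
    obtain ⟨h4, h5⟩ := FM.cop34.1 h2
    unfold FM.cl at h3
    rw [Prod.ext_iff] at h3
    obtain ⟨h6, h7⟩ := h3
    refine ⟨h1, ?_, ?_⟩
    · by_contra h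
      have h8 : n % 4 = 3 := by omega
      simp only [if_pos h8] at h6
      exact absurd h6 (by decide)
    · rcases FM.j17_cases h5 with h | h
      · exact h
      · simp only [if_pos h] at h7
        exact absurd h7 (by decide)

theorem Fam_Dp (X : ℕ) : FMG.Fam (0, 0) X = Dp X := by
  ext n
  rw [FMG.mem_Fam]
  simp only [Dp, mem_filter, mem_range, ← IsDp_iff]
  constructor
  · rintro ⟨h1, h2⟩; exact ⟨by omega, h2⟩
  · rintro ⟨h1, h2⟩; exact ⟨by omega, h2⟩

end Vale.Agent.P014.H687.DP
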