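import Mathlib

/-!
# FM3: character sums over squarefree numbers with a given number of prime factors

`fm3`: from the Siegel-Walfisz theorem, for a nonprincipal character `f` modulo
`q ≤ (log X)^K`, the sum of `f n` over `n ≤ Y` squarefree, prime to `r`, with exactly `j` prime
factors is at most `Y / (log X)^K`, for `exp ((log X)^η) ≤ Y ≤ X^K`.
-/

open Finset Real

namespace Vale.Agent.P014.H687.FM

/-- Chebyshev function in a residue class -/
noncomputable def psiAP (x : ℝ) (q a : ℕ) : ℝ :=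
  ∑ n ∈ (Icc 1 ⌊x⌋₊).filter (fun n => n ≡ a [MOD q]), ArithmeticFunction.vonMangoldt n

/-- Siegel-Walfisz -/
def SW : Prop := ∀ C : ℝ, 0 < C → ∃ x₀ : ℝ, ∀ x : ℝ, x₀ ≤ x → ∀ q a : ℕ, 1 ≤ q →
  (q : ℝ) ≤ (log x) ^ C → Nat.Coprime a q →
    |psiAP x q a - x / (Nat.totient q : ℝ)| ≤ x / (log x) ^ C

/-- a completely multiplicative periodic function supported on the residues prime to `q`, bounded
by one, with mean value zero -/
structure NPChar (q : ℕ) (f : ℕ → ℂ) : Prop where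
  pos : 1 ≤ q
  mul : ∀ m n, f (m * n) = f m * f n
  per : ∀ n, f (n + q) = f n
  cop : ∀ n, ¬ n.Coprime q → f n = 0
  bd : ∀ n, ‖f n‖ ≤ 1
  sum : ∑ a ∈ range q, f a = 0

theorem char_psi {q : ℕ} {f : ℕ → ℂ} (hf : NPChar q f) {x D : ℝ} (hD : 0 ≤ D)
    (h : ∀ a : ℕ, Nat.Coprime a q → |psiAP x q a - x / (Nat.totient q : ℝ)| ≤ D) :
    ‖∑ n ∈ Icc 1 ⌊x⌋₊, f n * (ArithmeticFunction.vonMangoldt n : ℂ)‖ ≤ q * D := by
  have hper : Function.Periodic f q := fun n => hf.per n
  have e1 : ∑ n ∈ Icc 1 ⌊x⌋₊, f n * (ArithmeticFunction.vonMangoldt n : ℂ) =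
      ∑ a ∈ range q, f a * (psiAP x q a : ℂ) := by
    have hq : 0 < q := hf.pos
    have : ∀ n ∈ Icc 1 ⌊x⌋₊, n % q ∈ range q := fun n _ => mem_range.2 (Nat.mod_lt _ hq)
    rw [← Finset.sum_fiberwise_of_maps_to this]
    refine Finset.sum_congr rfl fun a ha => ?_
    rw [psiAP]
    push_cast
    rw [Finset.mul_sum]
    have ha' : a < q := mem_range.1 ha
    refine Finset.sum_congr ?_ ?_
    · ext n
      simp only [mem_filter, and_congr_right_iff]
      intro _
      rw [Nat.ModEq, Nat.mod_eq_of_lt ha']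
    · intro n hn
      have hn2 : n ≡ a [MOD q] := (mem_filter.1 hn).2
      rw [Nat.ModEq, Nat.mod_eq_of_lt ha'] at hn2
      rw [← hper.map_mod_nat n, hn2]
  have e2 : ∑ a ∈ range q, f a * (psiAP x q a : ℂ) =
      ∑ a ∈ range q, f a * ((psiAP x q a - x / (Nat.totient q : ℝ) : ℝ) : ℂ) := by
    have : ∑ a ∈ range q, f a * ((psiAP x q a - x / (Nat.totient q : ℝ) : ℝ) : ℂ) =
        ∑ a ∈ range q, f a * (psiAP x q a : ℂ) -
          (∑ a ∈ range q, f a) * ((x / (Nat.totient q : ℝ) : ℝ) : ℂ) := by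
      rw [Finset.sum_mul, ← Finset.sum_sub_distrib]
      refine Finset.sum_congr rfl fun a _ => ?_
      push_cast
      ring
    rw [this, hf.sum, zero_mul, sub_zero]
  rw [e1, e2]
  calc ‖∑ a ∈ range q, f a * ((psiAP x q a - x / (Nat.totient q : ℝ) : ℝ) : ℂ)‖
      ≤ ∑ a ∈ range q, ‖f a * ((psiAP x q a - x / (Nat.totient q : ℝ) : ℝ) : ℂ)‖ :=
        norm_sum_le _ _
    _ ≤ ∑ a ∈ range q, D := by
        refine Finset.sum_le_sum fun a _ => ?_
        rw [norm_mul]
        by_cases hc : a.Coprime q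
        · calc ‖f a‖ * ‖((psiAP x q a - x / (Nat.totient q : ℝ) : ℝ) : ℂ)‖
              ≤ 1 * D := by
                refine mul_le_mul (hf.bd a) ?_ (norm_nonneg _) zero_le_one
                rw [Complex.norm_real, Real.norm_eq_abs]
                exact h a hc
            _ = D := one_mul _
        · rw [hf.cop a hc]
          simpa using hD
    _ = q * D := by simp

/-- the weighted sum over primes -/
noncomputable def thf (f : ℕ → ℂ) (N : ℕ) : ℂ :=
  ∑ p ∈ (Icc 1 N).filter Nat.Prime, f p * (log p : ℂ)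

theorem char_theta_aux {q : ℕ} {f : ℕ → ℂ} (hf : NPChar q f) {x D : ℝ} (hx : 1 ≤ x)
    (hD : 0 ≤ D)
    (h : ∀ a : ℕ, Nat.Coprime a q → |psiAP x q a - x / (Nat.totient q : ℝ)| ≤ D) :
    ‖thf f ⌊x⌋₊‖ ≤ q * D + 2 * √x * log x := by
  have h1 := char_psi hf hD h
  have h2 : ∑ n ∈ Icc 1 ⌊x⌋₊, f n * (ArithmeticFunction.vonMangoldt n : ℂ) = thf f ⌊x⌋₊ +
      ∑ n ∈ (Icc 1 ⌊x⌋₊).filter (fun n => ¬ n.Prime),
        f n * (ArithmeticFunction.vonMangoldt n : ℂ) := by
    rw [← Finset.sum_filter_add_sum_filter_not (Icc 1 ⌊x⌋₊) Nat.Prime]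
    congr 1
    rw [thf]
    refine Finset.sum_congr rfl fun p hp => ?_
    rw [ArithmeticFunction.vonMangoldt_apply_prime (mem_filter.1 hp).2]
  have h3 : ‖∑ n ∈ (Icc 1 ⌊x⌋₊).filter (fun n => ¬ n.Prime),
        f n * (ArithmeticFunction.vonMangoldt n : ℂ)‖ ≤ 2 * √x * log x := by
    refine le_trans ?_ (Chebyshev.psi_sub_theta_le hx)
    rw [Chebyshev.psi_sub_theta_eq_sum_not_prime]
    refine (norm_sum_le _ _).trans ?_
    have : (Icc 1 ⌊x⌋₊).filter (fun n => ¬ n.Prime) =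
        (Ioc 0 ⌊x⌋₊).filter (fun n => ¬ n.Prime) := rfl
    rw [this]
    refine Finset.sum_le_sum fun n _ => ?_
    rw [norm_mul, Complex.norm_real, Real.norm_eq_abs,
      abs_of_nonneg ArithmeticFunction.vonMangoldt_nonneg]
    exact mul_le_of_le_one_left ArithmeticFunction.vonMangoldt_nonneg (hf.bd n)
  have h4 : thf f ⌊x⌋₊ = ∑ n ∈ Icc 1 ⌊x⌋₊, f n * (ArithmeticFunction.vonMangoldt n : ℂ) -
      ∑ n ∈ (Icc 1 ⌊x⌋₊).filter (fun n => ¬ n.Prime),
        f n * (ArithmeticFunction.vonMangoldt n : ℂ) := by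
    rw [h2]; ring
  rw [h4]
  exact (norm_sub_le _ _).trans (add_le_add h1 h3)

theorem eventually_log_rpow_le (K C r : ℝ) (hr : 0 < r) :
    ∀ᶠ x : ℝ in Filter.atTop, C * log x ^ K ≤ x ^ r := by
  have h := (isLittleO_log_rpow_rpow_atTop K hr).bound (c := 1 / (|C| + 1)) (by positivity)
  filter_upwards [h, Filter.eventually_gt_atTop 1] with x hx hx1
  have hl : 0 ≤ log x ^ K := by
    have := Real.log_pos hx1
    positivity
  have hxr : 0 ≤ x ^ r := by positivity
  rw [Real.norm_eq_abs, Real.norm_eq_abs, abs_of_nonneg hl, abs_of_nonneg hxr] at hx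
  calc C * log x ^ K ≤ (|C| + 1) * log x ^ K := by
        refine mul_le_mul_of_nonneg_right ?_ hl
        linarith [le_abs_self C]
    _ ≤ (|C| + 1) * (1 / (|C| + 1) * x ^ r) := by
        refine mul_le_mul_of_nonneg_left hx (by positivity)
    _ = x ^ r := by
        field_simp

theorem char_theta (hsw : SW) (K : ℝ) (hK : 1 ≤ K) : ∃ x₀ : ℝ, 1 ≤ x₀ ∧ ∀ x : ℝ, x₀ ≤ x →
    ∀ (q : ℕ) (f : ℕ → ℂ), (q : ℝ) ≤ (log x) ^ K → NPChar q f →
      ‖thf f ⌊x⌋₊‖ ≤ x / (log x) ^ K := by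
  obtain ⟨x₁, hx₁⟩ := hsw (2 * K + 1) (by linarith)
  obtain ⟨x₂, hx₂⟩ := Filter.eventually_atTop.1
    (eventually_log_rpow_le (K + 1) 4 (1 / 2) (by norm_num))
  refine ⟨max (max x₁ x₂) (exp 2), le_trans (by norm_num) ((Real.add_one_le_exp 2).trans
    (le_max_right _ _)), fun x hx q f hq hf => ?_⟩
  have h1 : x₁ ≤ x := (le_max_left _ _).trans ((le_max_left _ _).trans hx)
  have h2 : x₂ ≤ x := (le_max_right _ _).trans ((le_max_left _ _).trans hx)
  have h3 : exp 2 ≤ x := (le_max_right _ _).trans hx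
  have hx0 : 0 < x := (exp_pos 2).trans_le h3
  have hlog : 2 ≤ log x := by rwa [Real.le_log_iff_exp_le hx0]
  have hx1 : 1 ≤ x := le_trans (by linarith [Real.add_one_le_exp 2]) h3
  have hL : 0 < log x := by linarith
  have hLK : 0 < log x ^ K := Real.rpow_pos_of_pos hL K
  have hle : (q : ℝ) ≤ log x ^ (2 * K + 1) :=
    hq.trans (Real.rpow_le_rpow_of_exponent_le (by linarith) (by linarith))
  have hmain := char_theta_aux hf hx1 (D := x / log x ^ (2 * K + 1)) (by positivity)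
    (fun a ha => hx₁ x h1 q a hf.pos hle ha)
  refine hmain.trans ?_
  have hA : (q : ℝ) * (x / log x ^ (2 * K + 1)) ≤ x / log x ^ K / 2 := by
    have e1 : log x ^ (2 * K + 1) = log x ^ K * log x ^ K * log x := by
      rw [← Real.rpow_add hL, ← Real.rpow_add_one hL.ne']
      congr 1
      ring
    rw [e1, div_div, mul_div_assoc', div_le_div_iff₀ (by positivity) (by positivity)]
    calc (q : ℝ) * x * (log x ^ K * 2) ≤ log x ^ K * x * (log x ^ K * log x) := by
          gcongr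
      _ = x * (log x ^ K * log x ^ K * log x) := by ring
  have hB : 2 * √x * log x ≤ x / log x ^ K / 2 := by
    have h4 := hx₂ x h2
    rw [← Real.sqrt_eq_rpow, Real.rpow_add_one hL.ne'] at h4
    rw [div_div, le_div_iff₀ (by positivity)]
    calc 2 * √x * log x * (log x ^ K * 2) = √x * (4 * (log x ^ K * log x)) := by ring
      _ ≤ √x * √x := by gcongr
      _ = x := Real.mul_self_sqrt hx0.le
  linarith

/-- Abel summation with decreasing weights -/
theorem abel_bound (g : ℕ → ℂ) (b : ℕ → ℝ) (M : ℕ) (D : ℝ)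
    (N : ℕ) (hb : ∀ n, M < n → 0 ≤ b n) (hanti : ∀ n, M < n → b (n + 1) ≤ b n)
    (hD : ∀ n, M < n → n ≤ N → ‖∑ i ∈ Ioc M n, g i‖ ≤ D) (hD0 : 0 ≤ D) :
    ‖∑ i ∈ Ioc M N, (b i : ℂ) * g i‖ ≤ D * b (M + 1) := by
  have key : ∀ k : ℕ, M + 1 + k ≤ N →
      ‖∑ i ∈ Ioc M (M + 1 + k), (b i : ℂ) * g i -
        (b (M + 1 + k) : ℂ) * ∑ i ∈ Ioc M (M + 1 + k), g i‖ ≤ D * (b (M + 1) - b (M + 1 + k)) := by
    intro k
    induction k with
    | zero =>
      intro _
      simp
    | succ k ih =>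
      intro hk
      have ih' := ih (by omega)
      have e1 : Ioc M (M + 1 + (k + 1)) = insert (M + 1 + k + 1) (Ioc M (M + 1 + k)) := by
        ext i; simp only [mem_Ioc, mem_insert]; omega
      have hni : M + 1 + k + 1 ∉ Ioc M (M + 1 + k) := by simp
      rw [e1, Finset.sum_insert hni, Finset.sum_insert hni]
      have e2 : (b (M + 1 + k + 1) : ℂ) * g (M + 1 + k + 1) +
            ∑ i ∈ Ioc M (M + 1 + k), (b i : ℂ) * g i -
          (b (M + 1 + (k + 1)) : ℂ) * (g (M + 1 + k + 1) + ∑ i ∈ Ioc M (M + 1 + k), g i) =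
          (∑ i ∈ Ioc M (M + 1 + k), (b i : ℂ) * g i -
            (b (M + 1 + k) : ℂ) * ∑ i ∈ Ioc M (M + 1 + k), g i) +
          ((b (M + 1 + k) - b (M + 1 + k + 1) : ℝ) : ℂ) * ∑ i ∈ Ioc M (M + 1 + k), g i := by
        push_cast
        ring_nf
      rw [e2]
      refine (norm_add_le _ _).trans ?_
      rw [norm_mul, Complex.norm_real, Real.norm_eq_abs, abs_of_nonneg
        (by linarith [hanti (M + 1 + k) (by omega)])]
      have h5 := hD (M + 1 + k) (by omega) (by omega)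
      have h6 : (b (M + 1 + k) - b (M + 1 + k + 1)) * ‖∑ i ∈ Ioc M (M + 1 + k), g i‖ ≤
          (b (M + 1 + k) - b (M + 1 + k + 1)) * D :=
        mul_le_mul_of_nonneg_left h5 (by linarith [hanti (M + 1 + k) (by omega)])
      have h7 : b (M + 1 + (k + 1)) = b (M + 1 + k + 1) := rfl
      rw [h7]
      linarith
  by_cases hN : N ≤ M
  · rw [Ioc_eq_empty (by omega)]
    simp only [sum_empty, norm_zero]
    exact mul_nonneg hD0 (hb _ (by omega))
  · obtain ⟨k, rfl⟩ : ∃ k, N = M + 1 + k := ⟨N - (M + 1), by omega⟩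
    have h1 := key k le_rfl
    have h2 := hD (M + 1 + k) (by omega) le_rfl
    have h3 : ‖(b (M + 1 + k) : ℂ) * ∑ i ∈ Ioc M (M + 1 + k), g i‖ ≤ b (M + 1 + k) * D := by
      rw [norm_mul, Complex.norm_real, Real.norm_eq_abs, abs_of_nonneg (hb _ (by omega))]
      exact mul_le_mul_of_nonneg_left h2 (hb _ (by omega))
    have h4 := norm_le_norm_sub_add (∑ i ∈ Ioc M (M + 1 + k), (b i : ℂ) * g i)
      ((b (M + 1 + k) : ℂ) * ∑ i ∈ Ioc M (M + 1 + k), g i)
    linarith

theorem thf_sub (f : ℕ → ℂ) {M n : ℕ} (h : M ≤ n) :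
    ∑ i ∈ Ioc M n, (if i.Prime then f i * (log i : ℂ) else 0) = thf f n - thf f M := by
  have e : Icc 1 n = Icc 1 M ∪ Ioc M n := by
    ext i; simp only [mem_Icc, mem_union, mem_Ioc]; omega
  have hd : Disjoint (Icc 1 M) (Ioc M n) := by
    rw [Finset.disjoint_left]; intro i hi hi'
    simp only [mem_Icc, mem_Ioc] at hi hi'; omega
  rw [thf, thf, Finset.sum_filter, Finset.sum_filter, e, Finset.sum_union hd]
  ring

theorem char_pi (hsw : SW) (K : ℝ) (hK : 1 ≤ K) : ∃ x₀ : ℝ, 3 ≤ x₀ ∧ ∀ M N : ℕ, x₀ ≤ M → M ≤ N →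
    ∀ (q : ℕ) (f : ℕ → ℂ), (q : ℝ) ≤ (log M) ^ K → NPChar q f →
      ‖∑ p ∈ (Ioc M N).filter Nat.Prime, f p‖ ≤ 2 * N / (log M) ^ K := by
  obtain ⟨x₁, _, hx₁⟩ := char_theta hsw K hK
  refine ⟨max x₁ 3, le_max_right _ _, fun M N hM hMN q f hq hf => ?_⟩
  have hM1 : x₁ ≤ M := (le_max_left _ _).trans hM
  have hM3 : (3 : ℝ) ≤ M := (le_max_right _ _).trans hM
  have hM3' : 3 ≤ M := by exact_mod_cast hM3
  have hlogM : 1 ≤ log M := by
    rw [Real.le_log_iff_exp_le (by linarith)]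
    linarith [Real.exp_one_lt_d9]
  have hbd : ∀ n : ℕ, M ≤ n → n ≤ N → ‖thf f n‖ ≤ N / (log M) ^ K := by
    intro n hn hnN
    have hnM : (M : ℝ) ≤ n := by exact_mod_cast hn
    have hlog : log M ≤ log n := Real.log_le_log (by linarith) hnM
    have h1 := hx₁ n (hM1.trans hnM) q f
      (hq.trans (Real.rpow_le_rpow (by linarith) hlog (by linarith))) hf
    rw [Nat.floor_natCast] at h1
    refine h1.trans ?_
    have hnN' : (n : ℝ) ≤ N := by exact_mod_cast hnN
    gcongr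
  have hpos : 0 < (log M) ^ K := Real.rpow_pos_of_pos (by linarith) K
  have hmain := abel_bound (fun i => if i.Prime then f i * (log i : ℂ) else 0)
    (fun i => 1 / log i) M (2 * N / (log M) ^ K) N ?_ ?_ ?_ ?_
  · have e1 : ∑ p ∈ (Ioc M N).filter Nat.Prime, f p = ∑ i ∈ Ioc M N, ((1 / log i : ℝ) : ℂ) *
        (if i.Prime then f i * (log i : ℂ) else 0) := by
      rw [Finset.sum_filter]
      refine Finset.sum_congr rfl fun i hi => ?_
      have hi2 : M < i := (mem_Ioc.1 hi).1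
      split_ifs with hp
      · have : (log i : ℝ) ≠ 0 := by
          have : (3 : ℝ) < i := by
            have : 3 < i := by omega
            exact_mod_cast this
          exact (Real.log_pos (by linarith)).ne'
        have h' : ((log i : ℝ) : ℂ) ≠ 0 := by exact_mod_cast this
        rw [Complex.ofReal_div, Complex.ofReal_one]
        field_simp
      · simp
    rw [e1]
    refine hmain.trans ?_
    have h1 : 1 / log ((M + 1 : ℕ) : ℝ) ≤ 1 := by
      rw [div_le_one]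
      · refine hlogM.trans (Real.log_le_log (by linarith) ?_)
        push_cast; linarith
      · refine Real.log_pos ?_
        push_cast; linarith
    calc 2 * N / (log M) ^ K * (1 / log ((M + 1 : ℕ) : ℝ)) ≤ 2 * N / (log M) ^ K * 1 := by
          gcongr
      _ = _ := mul_one _
  · intro n hn
    have : (1 : ℝ) ≤ n := by exact_mod_cast (by omega : 1 ≤ n)
    have := Real.log_nonneg this
    positivity
  · intro n hn
    have h1 : (3 : ℝ) < n := by
      have : 3 < n := by omega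
      exact_mod_cast this
    have h2 : 0 < log n := Real.log_pos (by linarith)
    have h3 : log n ≤ log ((n + 1 : ℕ) : ℝ) := Real.log_le_log (by linarith) (by push_cast; linarith)
    exact one_div_le_one_div_of_le h2 h3
  · intro n hn hnN
    rw [thf_sub f hn.le]
    refine (norm_sub_le _ _).trans ?_
    have h1 := hbd n hn.le hnN
    have h2 := hbd M le_rfl hMN
    calc ‖thf f n‖ + ‖thf f M‖ ≤ N / (log M) ^ K + N / (log M) ^ K := add_le_add h1 h2
      _ = _ := by ring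
  · positivity

/-- the largest prime factor (`0` for `n = 0, 1`) -/
def lpf (n : ℕ) : ℕ := n.primeFactors.sup id

theorem lpf_mem {n : ℕ} (hn : n.primeFactors.Nonempty) : lpf n ∈ n.primeFactors := by
  obtain ⟨i, hi, h⟩ := Finset.exists_mem_eq_sup n.primeFactors hn id
  rw [lpf, h]
  exact hi

theorem le_lpf {n p : ℕ} (hp : p ∈ n.primeFactors) : p ≤ lpf n :=
  Finset.le_sup (f := id) hp

theorem not_dvd_of_lpf_lt {m p : ℕ} (hm : m ≠ 0) (hp : p.Prime) (h : lpf m < p) : ¬ p ∣ m := by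
  intro hd
  have : p ∈ m.primeFactors := Nat.mem_primeFactors.2 ⟨hp, hd, hm⟩
  exact absurd (le_lpf this) (by omega)

theorem primeFactors_mul_prime {m p : ℕ} (hm : m ≠ 0) (hp : p.Prime) :
    (m * p).primeFactors = insert p m.primeFactors := by
  rw [Nat.primeFactors_mul hm hp.ne_zero, hp.primeFactors, Finset.union_comm]
  rfl

theorem lpf_mul_prime {m p : ℕ} (hm : m ≠ 0) (hp : p.Prime) (h : lpf m < p) :
    lpf (m * p) = p := by
  rw [lpf, primeFactors_mul_prime hm hp, Finset.sup_insert]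
  exact sup_eq_left.2 h.le

theorem lpf_split {n : ℕ} (hsq : Squarefree n) (hne : n.primeFactors.Nonempty) :
    n / lpf n * lpf n = n ∧ n / lpf n ≠ 0 ∧ (lpf n).Prime ∧ lpf (n / lpf n) < lpf n ∧
      Squarefree (n / lpf n) ∧ (n / lpf n).primeFactors.card + 1 = n.primeFactors.card := by
  have hmem := lpf_mem hne
  have hp : (lpf n).Prime := Nat.prime_of_mem_primeFactors hmem
  have hdvd : lpf n ∣ n := Nat.dvd_of_mem_primeFactors hmem
  have hn0 : n ≠ 0 := hsq.ne_zero
  set p := lpf n with hpdef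
  set m := n / p with hmdef
  have hmn : m * p = n := Nat.div_mul_cancel hdvd
  have hm0 : m ≠ 0 := by rintro h; rw [h, zero_mul] at hmn; exact hn0 hmn.symm
  have hcop : m.Coprime p := Nat.coprime_of_squarefree_mul (hmn ▸ hsq)
  have hpm : ¬ p ∣ m := fun h => by
    have := Nat.dvd_gcd h dvd_rfl
    rw [hcop] at this
    exact hp.one_lt.ne' (Nat.dvd_one.1 this)
  have hpf : n.primeFactors = insert p m.primeFactors := by
    rw [← hmn, primeFactors_mul_prime hm0 hp]
  refine ⟨hmn, hm0, hp, ?_, hsq.squarefree_of_dvd ⟨p, hmn.symm⟩, ?_⟩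
  · rcases m.primeFactors.eq_empty_or_nonempty with h | h
    · rw [lpf, h]; simpa using hp.pos
    · have h1 := lpf_mem h
      have h2 : lpf m ≤ p := by
        rw [hpdef]
        exact le_lpf (hpf ▸ Finset.mem_insert_of_mem h1)
      refine lt_of_le_of_ne h2 fun h3 => hpm ?_
      rw [← h3]
      exact Nat.dvd_of_mem_primeFactors h1
  · rw [hpf, Finset.card_insert_of_notMem]
    intro h
    exact hpm (Nat.dvd_of_mem_primeFactors h)

theorem lpf_join {m p : ℕ} (hm : Squarefree m) (hp : p.Prime) (h : lpf m < p) :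
    Squarefree (m * p) ∧ (m * p).primeFactors.card = m.primeFactors.card + 1 ∧
      m * p / p = m := by
  have hpm := not_dvd_of_lpf_lt hm.ne_zero hp h
  refine ⟨?_, ?_, Nat.mul_div_cancel _ hp.pos⟩
  · rw [Nat.squarefree_mul ((Nat.coprime_comm.1 ((Nat.Prime.coprime_iff_not_dvd hp).2 hpm)))]
    exact ⟨hm, hp.squarefree⟩
  · rw [primeFactors_mul_prime hm.ne_zero hp, Finset.card_insert_of_notMem]
    intro h
    exact hpm (Nat.dvd_of_mem_primeFactors h)

/-- decomposition according to the largest prime factor -/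
theorem decomp (f : ℕ → ℂ) (hmul : ∀ m n, f (m * n) = f m * f n) (N Z r j : ℕ) :
    ∑ n ∈ (Icc 1 N).filter (fun n => (Squarefree n ∧ n.Coprime r ∧ n.primeFactors.card = j + 1) ∧
      Z < lpf n), f n =
    ∑ m ∈ (Icc 1 N).filter (fun n => Squarefree n ∧ n.Coprime r ∧ n.primeFactors.card = j),
      f m * ∑ p ∈ (Ioc (max (lpf m) Z) (N / m)).filter (fun p => p.Prime ∧ ¬ p ∣ r), f p := by
  simp_rw [Finset.mul_sum]
  rw [Finset.sum_sigma']
  refine Finset.sum_bij' (fun n _ => (⟨n / lpf n, lpf n⟩ : (_ : ℕ) × ℕ)) (fun x _ => x.1 * x.2)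
    ?_ ?_ ?_ ?_ ?_
  · intro n hn
    simp only [mem_filter, mem_Icc] at hn
    obtain ⟨⟨hn1, hnN⟩, ⟨hsq, hcop, hcard⟩, hZ⟩ := hn
    have hne : n.primeFactors.Nonempty := Finset.card_pos.1 (by omega)
    obtain ⟨h1, h2, h3, h4, h5, h6⟩ := lpf_split hsq hne
    have hdm : n / lpf n ∣ n := ⟨lpf n, h1.symm⟩
    have hdp : lpf n ∣ n := ⟨n / lpf n, by rw [mul_comm]; exact h1.symm⟩
    simp only [mem_sigma, mem_filter, mem_Icc, mem_Ioc]
    refine ⟨⟨⟨Nat.pos_of_ne_zero h2, (Nat.le_of_dvd (by omega) hdm).trans hnN⟩, h5,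
      Nat.Coprime.coprime_dvd_left hdm hcop, by omega⟩, ⟨max_lt h4 hZ, ?_⟩, h3, ?_⟩
    · rw [Nat.le_div_iff_mul_le (Nat.pos_of_ne_zero h2), mul_comm, h1]
      exact hnN
    · intro h
      have := Nat.dvd_gcd hdp h
      rw [hcop] at this
      exact h3.one_lt.ne' (Nat.dvd_one.1 this)
  · intro x hx
    obtain ⟨m, p⟩ := x
    simp only [mem_sigma, mem_filter, mem_Icc, mem_Ioc] at hx
    obtain ⟨⟨⟨hm1, hmN⟩, hsq, hcop, hcard⟩, ⟨hlt, hle⟩, hp, hpr⟩ := hx
    have hlt1 : lpf m < p := (le_max_left _ _).trans_lt hlt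
    have hlt2 : Z < p := (le_max_right _ _).trans_lt hlt
    obtain ⟨h1, h2, h3⟩ := lpf_join hsq hp hlt1
    simp only [mem_filter, mem_Icc]
    refine ⟨⟨Nat.mul_pos hm1 hp.pos, ?_⟩, ⟨h1, ?_, by omega⟩, ?_⟩
    · rw [Nat.le_div_iff_mul_le hm1, mul_comm] at hle
      exact hle
    · exact Nat.Coprime.mul_left hcop ((Nat.Prime.coprime_iff_not_dvd hp).2 hpr)
    · rw [lpf_mul_prime hsq.ne_zero hp hlt1]
      exact hlt2
  · intro n hn
    simp only [mem_filter, mem_Icc] at hn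
    obtain ⟨⟨hn1, hnN⟩, ⟨hsq, hcop, hcard⟩, hZ⟩ := hn
    have hne : n.primeFactors.Nonempty := Finset.card_pos.1 (by omega)
    exact (lpf_split hsq hne).1
  · intro x hx
    obtain ⟨m, p⟩ := x
    simp only [mem_sigma, mem_filter, mem_Icc, mem_Ioc] at hx
    obtain ⟨⟨⟨hm1, hmN⟩, hsq, hcop, hcard⟩, ⟨hlt, hle⟩, hp, hpr⟩ := hx
    have hlt1 : lpf m < p := (le_max_left _ _).trans_lt hlt
    obtain ⟨h1, h2, h3⟩ := lpf_join hsq hp hlt1
    simp only [lpf_mul_prime hsq.ne_zero hp hlt1, h3]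
  · intro n hn
    simp only [mem_filter, mem_Icc] at hn
    obtain ⟨⟨hn1, hnN⟩, ⟨hsq, hcop, hcard⟩, hZ⟩ := hn
    have hne : n.primeFactors.Nonempty := Finset.card_pos.1 (by omega)
    rw [← hmul, (lpf_split hsq hne).1]

theorem sum_div_le (N : ℕ) : ∑ m ∈ Icc 1 N, ((N / m : ℕ) : ℝ) ≤ N * (1 + log N) := by
  have h1 := harmonic_le_one_add_log N
  rw [harmonic_eq_sum_Icc] at h1
  push_cast at h1
  calc ∑ m ∈ Icc 1 N, ((N / m : ℕ) : ℝ) ≤ ∑ m ∈ Icc 1 N, (N : ℝ) * (m : ℝ)⁻¹ := by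
        refine Finset.sum_le_sum fun m _ => ?_
        rw [← div_eq_mul_inv]
        exact Nat.cast_div_le
    _ = N * ∑ m ∈ Icc 1 N, (m : ℝ)⁻¹ := by rw [Finset.mul_sum]
    _ ≤ N * (1 + log N) := by gcongr

theorem bad_primes_le (N Z r : ℕ) (hr : r ≠ 0) (hZ : 0 < Z) (W : ℕ → ℕ) (hW : ∀ m, Z ≤ W m) :
    ∑ m ∈ Icc 1 N, (((Ioc (W m) (N / m)).filter (fun p => p.Prime ∧ p ∣ r)).card : ℝ) ≤
      N * r.primeFactors.card / Z := by
  have h1 : ∀ m ∈ Icc 1 N, (((Ioc (W m) (N / m)).filter (fun p => p.Prime ∧ p ∣ r)).card : ℝ) ≤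
      ∑ p ∈ r.primeFactors.filter (fun p => Z < p), if m * p ≤ N then (1 : ℝ) else 0 := by
    intro m hm
    rw [← Finset.sum_filter, Finset.sum_const, nsmul_eq_mul, mul_one, Nat.cast_le]
    refine Finset.card_le_card fun p hp => ?_
    simp only [mem_filter, mem_Ioc] at hp
    obtain ⟨⟨h1, h2⟩, h3, h4⟩ := hp
    simp only [mem_filter]
    refine ⟨⟨Nat.mem_primeFactors.2 ⟨h3, h4, hr⟩, (hW m).trans_lt h1⟩, ?_⟩
    rw [Nat.le_div_iff_mul_le (mem_Icc.1 hm).1, mul_comm] at h2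
    exact h2
  refine (Finset.sum_le_sum h1).trans ?_
  rw [Finset.sum_comm]
  have h2 : ∀ p ∈ r.primeFactors.filter (fun p => Z < p),
      ∑ m ∈ Icc 1 N, (if m * p ≤ N then (1 : ℝ) else 0) ≤ N / Z := by
    intro p hp
    have hZp : Z < p := (mem_filter.1 hp).2
    rw [← Finset.sum_filter, Finset.sum_const, nsmul_eq_mul, mul_one]
    have h3 : ((Icc 1 N).filter (fun m => m * p ≤ N)).card ≤ N / p := by
      calc ((Icc 1 N).filter (fun m => m * p ≤ N)).card ≤ (Icc 1 (N / p)).card := by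
            refine Finset.card_le_card fun m hm => ?_
            simp only [mem_filter, mem_Icc] at hm ⊢
            refine ⟨hm.1.1, ?_⟩
            rw [Nat.le_div_iff_mul_le (by omega)]
            exact hm.2
        _ = N / p := by simp
    calc (((Icc 1 N).filter (fun m => m * p ≤ N)).card : ℝ) ≤ ((N / p : ℕ) : ℝ) := by
          exact_mod_cast h3
      _ ≤ (N : ℝ) / p := Nat.cast_div_le
      _ ≤ N / Z := by
          have : (Z : ℝ) ≤ p := by exact_mod_cast hZp.le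
          have : (0 : ℝ) < Z := by exact_mod_cast hZ
          gcongr
  refine (Finset.sum_le_sum h2).trans ?_
  rw [Finset.sum_const, nsmul_eq_mul]
  have h3 : ((r.primeFactors.filter (fun p => Z < p)).card : ℝ) ≤ r.primeFactors.card := by
    exact_mod_cast Finset.card_filter_le _ _
  calc ((r.primeFactors.filter (fun p => Z < p)).card : ℝ) * (N / Z) ≤
        r.primeFactors.card * (N / Z) := by gcongr
    _ = N * r.primeFactors.card / Z := by ring

theorem partI (f : ℕ → ℂ) (hmul : ∀ m n, f (m * n) = f m * f n) (hbd : ∀ n, ‖f n‖ ≤ 1)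
    (N Z r j : ℕ) (hr : r ≠ 0) (hZ : 0 < Z) (E : ℝ) (hE : 0 ≤ E)
    (h : ∀ M N' : ℕ, Z ≤ M → M ≤ N' → ‖∑ p ∈ (Ioc M N').filter Nat.Prime, f p‖ ≤ E * N') :
    ‖∑ n ∈ (Icc 1 N).filter (fun n => (Squarefree n ∧ n.Coprime r ∧
      n.primeFactors.card = j + 1) ∧ Z < lpf n), f n‖ ≤
      E * (N * (1 + log N)) + N * r.primeFactors.card / Z := by
  rw [decomp f hmul]
  have hin : ∀ m, ‖∑ p ∈ (Ioc (max (lpf m) Z) (N / m)).filter (fun p => p.Prime ∧ ¬ p ∣ r),
      f p‖ ≤ E * ((N / m : ℕ) : ℝ) +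
        (((Ioc (max (lpf m) Z) (N / m)).filter (fun p => p.Prime ∧ p ∣ r)).card : ℝ) := by
    intro m
    have e1 : ∑ p ∈ (Ioc (max (lpf m) Z) (N / m)).filter (fun p => p.Prime ∧ ¬ p ∣ r), f p =
        ∑ p ∈ (Ioc (max (lpf m) Z) (N / m)).filter Nat.Prime, f p -
        ∑ p ∈ (Ioc (max (lpf m) Z) (N / m)).filter (fun p => p.Prime ∧ p ∣ r), f p := by
      rw [eq_sub_iff_add_eq, ← Finset.filter_filter, ← Finset.filter_filter, add_comm]
      exact Finset.sum_filter_add_sum_filter_not _ _ _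
    rw [e1]
    refine (norm_sub_le _ _).trans (add_le_add ?_ ?_)
    · by_cases hle : max (lpf m) Z ≤ N / m
      · exact h _ _ (le_max_right _ _) hle
      · rw [Ioc_eq_empty (by omega)]
        simp only [filter_empty, sum_empty, norm_zero]
        positivity
    · refine (norm_sum_le _ _).trans ?_
      refine (Finset.sum_le_sum fun p _ => hbd p).trans ?_
      simp
  refine (norm_sum_le _ _).trans ?_
  calc ∑ m ∈ (Icc 1 N).filter (fun n => Squarefree n ∧ n.Coprime r ∧ n.primeFactors.card = j),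
        ‖f m * ∑ p ∈ (Ioc (max (lpf m) Z) (N / m)).filter (fun p => p.Prime ∧ ¬ p ∣ r), f p‖
      ≤ ∑ m ∈ (Icc 1 N).filter (fun n => Squarefree n ∧ n.Coprime r ∧ n.primeFactors.card = j),
        (E * ((N / m : ℕ) : ℝ) +
        (((Ioc (max (lpf m) Z) (N / m)).filter (fun p => p.Prime ∧ p ∣ r)).card : ℝ)) := by
        refine Finset.sum_le_sum fun m _ => ?_
        rw [norm_mul]
        exact (mul_le_of_le_one_left (norm_nonneg _) (hbd m)).trans (hin m)
    _ ≤ ∑ m ∈ Icc 1 N, (E * ((N / m : ℕ) : ℝ) +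
        (((Ioc (max (lpf m) Z) (N / m)).filter (fun p => p.Prime ∧ p ∣ r)).card : ℝ)) := by
        refine Finset.sum_le_sum_of_subset_of_nonneg (Finset.filter_subset _ _) fun m _ _ => ?_
        positivity
    _ = E * ∑ m ∈ Icc 1 N, ((N / m : ℕ) : ℝ) + ∑ m ∈ Icc 1 N,
        (((Ioc (max (lpf m) Z) (N / m)).filter (fun p => p.Prime ∧ p ∣ r)).card : ℝ) := by
        rw [Finset.sum_add_distrib, Finset.mul_sum]
    _ ≤ _ := by
        refine add_le_add (mul_le_mul_of_nonneg_left (sum_div_le N) hE) ?_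
        exact bad_primes_le N Z r hr hZ (fun m => max (lpf m) Z) (fun m => le_max_right _ _)

theorem le_pow_of_lpf_le {n Z j : ℕ} (hsq : Squarefree n) (h : lpf n ≤ Z)
    (hj : n.primeFactors.card = j) : n ≤ Z ^ j := by
  calc n = ∏ p ∈ n.primeFactors, p := (Nat.prod_primeFactors_of_squarefree hsq).symm
    _ ≤ ∏ p ∈ n.primeFactors, Z := Finset.prod_le_prod' fun p hp => (le_lpf hp).trans h
    _ = Z ^ j := by rw [Finset.prod_const, hj]

theorem core (f : ℕ → ℂ) (hmul : ∀ m n, f (m * n) = f m * f n) (hbd : ∀ n, ‖f n‖ ≤ 1)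
    (N Z r j : ℕ) (hr : r ≠ 0) (hZ : 0 < Z) (E : ℝ) (hE : 0 ≤ E)
    (h : ∀ M N' : ℕ, Z ≤ M → M ≤ N' → ‖∑ p ∈ (Ioc M N').filter Nat.Prime, f p‖ ≤ E * N') :
    ‖∑ n ∈ (Icc 1 N).filter (fun n => Squarefree n ∧ n.Coprime r ∧
      n.primeFactors.card = j), f n‖ ≤
      (Z : ℝ) ^ j + E * (N * (1 + log N)) + N * r.primeFactors.card / Z := by
  have hlogN : 0 ≤ E * (N * (1 + log N)) := by
    have := Real.log_natCast_nonneg N
    positivity
  have hsmall : ‖∑ n ∈ (Icc 1 N).filter (fun n => (Squarefree n ∧ n.Coprime r ∧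
      n.primeFactors.card = j) ∧ ¬ Z < lpf n), f n‖ ≤ (Z : ℝ) ^ j := by
    refine (norm_sum_le _ _).trans ?_
    refine (Finset.sum_le_sum fun p _ => hbd p).trans ?_
    rw [Finset.sum_const, nsmul_eq_mul, mul_one]
    have : ((Icc 1 N).filter (fun n => (Squarefree n ∧ n.Coprime r ∧
      n.primeFactors.card = j) ∧ ¬ Z < lpf n)).card ≤ (Icc 1 (Z ^ j)).card := by
      refine Finset.card_le_card fun n hn => ?_
      simp only [mem_filter, mem_Icc, not_lt] at hn ⊢
      exact ⟨hn.1.1, le_pow_of_lpf_le hn.2.1.1 hn.2.2 hn.2.1.2.2⟩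
    rw [Nat.card_Icc, Nat.add_sub_cancel] at this
    exact_mod_cast this
  have hsplit : ∑ n ∈ (Icc 1 N).filter (fun n => Squarefree n ∧ n.Coprime r ∧
      n.primeFactors.card = j), f n =
      ∑ n ∈ (Icc 1 N).filter (fun n => (Squarefree n ∧ n.Coprime r ∧
        n.primeFactors.card = j) ∧ Z < lpf n), f n +
      ∑ n ∈ (Icc 1 N).filter (fun n => (Squarefree n ∧ n.Coprime r ∧
        n.primeFactors.card = j) ∧ ¬ Z < lpf n), f n := by
    have h := Finset.sum_filter_add_sum_filter_not ((Icc 1 N).filter (fun n => Squarefree n ∧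
      n.Coprime r ∧ n.primeFactors.card = j)) (fun n => Z < lpf n) f
    rw [Finset.filter_filter, Finset.filter_filter] at h
    exact h.symm
  have hbig : ‖∑ n ∈ (Icc 1 N).filter (fun n => (Squarefree n ∧ n.Coprime r ∧
        n.primeFactors.card = j) ∧ Z < lpf n), f n‖ ≤
      E * (N * (1 + log N)) + N * r.primeFactors.card / Z := by
    cases j with
    | zero =>
      have : (Icc 1 N).filter (fun n => (Squarefree n ∧ n.Coprime r ∧
        n.primeFactors.card = 0) ∧ Z < lpf n) = ∅ := by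
        refine Finset.filter_eq_empty_iff.2 fun n _ hn => ?_
        have h1 := Finset.card_eq_zero.1 hn.1.2.2
        have h2 := hn.2
        rw [lpf, h1] at h2
        simp at h2
      rw [this, Finset.sum_empty, norm_zero]
      positivity
    | succ j => exact partI f hmul hbd N Z r j hr hZ E hE h
  rw [hsplit]
  refine (norm_add_le _ _).trans ?_
  linarith

theorem card_primeFactors_le {r : ℕ} (hr : 1 ≤ r) : (r.primeFactors.card : ℝ) ≤ 2 * log r := by
  have h1 : 2 ^ r.primeFactors.card ≤ r := by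
    calc 2 ^ r.primeFactors.card = ∏ p ∈ r.primeFactors, 2 := by rw [Finset.prod_const]
      _ ≤ ∏ p ∈ r.primeFactors, p := Finset.prod_le_prod' fun p hp =>
          (Nat.prime_of_mem_primeFactors hp).two_le
      _ ≤ r := Nat.le_of_dvd hr (Nat.prod_primeFactors_dvd r)
  have h2 : ((2 : ℝ) ^ r.primeFactors.card) ≤ r := by exact_mod_cast h1
  have h3 := Real.log_le_log (by positivity) h2
  rw [Real.log_pow] at h3
  have h4 := Real.log_two_gt_d9
  have h5 : (r.primeFactors.card : ℝ) * (1 / 2) ≤ r.primeFactors.card * log 2 := by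
    gcongr
    linarith
  linarith

/-- the inequalities between `L = log X` and its powers used below -/
theorem asym (K η : ℝ) (hK : 1 ≤ K) (hη : 0 < η) : ∀ᶠ L : ℝ in Filter.atTop,
    1 ≤ L ∧ 1 ≤ L ^ (η / 2) ∧
    (L ^ (η / 2) + 1) * (K * log L) + log 3 + K * log L ≤ L ^ η ∧
    6 * (1 + K * L) ≤ L ^ 2 ∧ 6 * K ^ 2 * L * L ^ K ≤ exp (L ^ (η / 2)) := by
  have h1 := Filter.eventually_ge_atTop (1 : ℝ)
  have h2 : ∀ᶠ L : ℝ in Filter.atTop, (6 * K + 12) ≤ L := Filter.eventually_ge_atTop _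
  have h3 := eventually_log_rpow_le 1 (6 * K) (η / 2) (by linarith)
  have ht : Filter.Tendsto (fun L : ℝ => L ^ (η / 2)) Filter.atTop Filter.atTop :=
    tendsto_rpow_atTop (by linarith)
  have h4 : ∀ᶠ L : ℝ in Filter.atTop, 6 * log 3 ≤ L ^ (η / 2) :=
    ht.eventually_ge_atTop _
  have hexp : Filter.Tendsto (fun L : ℝ => exp (L ^ (η / 2))) Filter.atTop Filter.atTop :=
    Real.tendsto_exp_atTop.comp ht
  have h5 := hexp.eventually (eventually_log_rpow_le ((K + 1) * (2 / η)) (6 * K ^ 2) 1 one_pos)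
  have h6 : ∀ᶠ L : ℝ in Filter.atTop, 1 ≤ L ^ (η / 2) := ht.eventually_ge_atTop _
  filter_upwards [h1, h2, h3, h4, h5, h6] with L h1 h2 h3 h4 h5 h6
  refine ⟨h1, h6, ?_, ?_, ?_⟩
  · rw [Real.rpow_one] at h3
    have e : L ^ η = L ^ (η / 2) * L ^ (η / 2) := by
      rw [← Real.rpow_add (by linarith)]; congr 1; ring
    have hl := Real.log_nonneg h1
    rw [e]
    nlinarith [mul_nonneg (by linarith : (0 : ℝ) ≤ K) hl]
  · nlinarith
  · rw [Real.log_exp, Real.rpow_one, ← Real.rpow_mul (by linarith)] at h5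
    have e : η / 2 * ((K + 1) * (2 / η)) = K + 1 := by field_simp
    rw [e, Real.rpow_add_one (by linarith)] at h5
    linarith

/-- **FM3** -/
theorem fm3 (hsw : SW) (K η : ℝ) (hK : 1 ≤ K) (hη : 0 < η) : ∃ X₀ : ℝ, ∀ X : ℝ, X₀ ≤ X →
    ∀ (q : ℕ) (f : ℕ → ℂ), (q : ℝ) ≤ (log X) ^ K → NPChar q f → ∀ r : ℕ, 1 ≤ r →
      (r : ℝ) ≤ X ^ K → ∀ j : ℕ, (j : ℝ) ≤ K * log (log X) → ∀ Y : ℝ, exp ((log X) ^ η) ≤ Y →
        Y ≤ X ^ K →
        ‖∑ n ∈ (Icc 1 ⌊Y⌋₊).filter (fun n => Squarefree n ∧ n.Coprime r ∧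
          n.primeFactors.card = j), f n‖ ≤ Y / (log X) ^ K := by
  set K₁ : ℝ := 2 * (K + 2) / η + 1 with hK₁
  have hK₁1 : 1 ≤ K₁ := by
    rw [hK₁]
    have : 0 ≤ 2 * (K + 2) / η := by positivity
    linarith
  obtain ⟨x₁, hx₁3, hx₁⟩ := char_pi hsw K₁ hK₁1
  have ht : Filter.Tendsto (fun L : ℝ => exp (L ^ (η / 2))) Filter.atTop Filter.atTop :=
    Real.tendsto_exp_atTop.comp (tendsto_rpow_atTop (by linarith))
  obtain ⟨L₀, hL₀⟩ := Filter.eventually_atTop.1 ((asym K η hK hη).and (ht.eventually_ge_atTop x₁))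
  refine ⟨exp L₀, fun X hX q f hq hf r hr hrX j hj Y hY1 hY2 => ?_⟩
  have hX0 : 0 < X := (exp_pos _).trans_le hX
  set L := log X with hL
  have hLL : L₀ ≤ L := by rw [hL, Real.le_log_iff_exp_le hX0]; exact hX
  obtain ⟨⟨hL1, hLη, hA1, hA2, hA3⟩, hA4⟩ := hL₀ L hLL
  have hL0 : 0 < L := by linarith
  set u := L ^ (η / 2) with hu
  set Z : ℕ := ⌈exp u⌉₊ with hZdef
  have hZ1 : exp u ≤ Z := Nat.le_ceil _
  have hexpu : 1 ≤ exp u := Real.one_le_exp (by linarith)
  have hZ2 : (Z : ℝ) ≤ exp (u + 1) := by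
    have h1 : (Z : ℝ) < exp u + 1 := Nat.ceil_lt_add_one (by positivity)
    have h2 : exp (u + 1) = exp u * exp 1 := Real.exp_add _ _
    have h3 : 2 ≤ exp 1 := by linarith [Real.add_one_le_exp (1 : ℝ)]
    nlinarith
  have hZpos : 0 < Z := by
    have : (0 : ℝ) < Z := by linarith
    exact_mod_cast this
  have hY0 : 0 < Y := (exp_pos _).trans_le hY1
  have hlogZ : u ≤ log Z := by
    rw [Real.le_log_iff_exp_le (by exact_mod_cast hZpos)]
    exact hZ1
  have hLK2 : L ^ (K + 2) ≤ u ^ K₁ := by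
    have e : L ^ (K + 2) = u ^ (2 * (K + 2) / η) := by
      rw [hu, ← Real.rpow_mul (by linarith)]
      congr 1
      field_simp
    rw [e]
    exact Real.rpow_le_rpow_of_exponent_le hLη (by rw [hK₁]; linarith)
  have hLK : 0 < L ^ K := Real.rpow_pos_of_pos hL0 K
  set E : ℝ := 2 / L ^ (K + 2) with hE
  have hE0 : 0 ≤ E := by positivity
  have hchar : ∀ M N' : ℕ, Z ≤ M → M ≤ N' →
      ‖∑ p ∈ (Ioc M N').filter Nat.Prime, f p‖ ≤ E * N' := by
    intro M N' hM hMN
    have hMZ : (Z : ℝ) ≤ M := by exact_mod_cast hM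
    have hlogM : u ≤ log M := hlogZ.trans (Real.log_le_log (by exact_mod_cast hZpos) hMZ)
    have h1 : u ^ K₁ ≤ (log M) ^ K₁ := Real.rpow_le_rpow (by linarith) hlogM (by linarith)
    have h2 : (q : ℝ) ≤ (log M) ^ K₁ := by
      refine hq.trans (le_trans ?_ (hLK2.trans h1))
      exact Real.rpow_le_rpow_of_exponent_le hL1 (by linarith)
    refine (hx₁ M N' (hA4.trans (hZ1.trans hMZ)) hMN q f h2 hf).trans ?_
    have h3 : L ^ (K + 2) ≤ (log M) ^ K₁ := hLK2.trans h1
    rw [hE, div_mul_eq_mul_div]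
    gcongr
  set N := ⌊Y⌋₊ with hN
  have hNY : (N : ℝ) ≤ Y := Nat.floor_le hY0.le
  have hcore := core f hf.mul hf.bd N Z r j (by omega) hZpos E hE0 hchar
  refine hcore.trans ?_
  have hlogY : L ^ η ≤ log Y := by
    rw [Real.le_log_iff_exp_le hY0]; exact hY1
  have hb1 : (Z : ℝ) ^ j ≤ Y / L ^ K / 3 := by
    have h1 : (Z : ℝ) ^ j ≤ exp ((u + 1) * (K * log L)) := by
      calc (Z : ℝ) ^ j ≤ (exp (u + 1)) ^ j := by gcongr
        _ = exp (j * (u + 1)) := by rw [← Real.exp_nat_mul]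
        _ ≤ exp ((u + 1) * (K * log L)) := by
            rw [Real.exp_le_exp, mul_comm (j : ℝ)]
            have : 0 ≤ u + 1 := by linarith
            gcongr
    have h2 : Y / L ^ K / 3 = exp (log Y - K * log L - log 3) := by
      rw [Real.exp_sub, Real.exp_sub, Real.exp_log hY0, Real.exp_log (by norm_num : (0 : ℝ) < 3),
        mul_comm K, ← Real.rpow_def_of_pos hL0]
    rw [h2]
    refine h1.trans (Real.exp_le_exp.2 ?_)
    linarith
  have hlogN : log N ≤ K * L := by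
    rcases Nat.eq_zero_or_pos N with h | h
    · rw [h]; simp; positivity
    · have h1 : (0 : ℝ) < N := by exact_mod_cast h
      have h2 : (N : ℝ) ≤ X ^ K := hNY.trans hY2
      have h3 := Real.log_le_log h1 h2
      rwa [Real.log_rpow hX0] at h3
  have hb2 : E * (N * (1 + log N)) ≤ Y / L ^ K / 3 := by
    calc E * (N * (1 + log N)) ≤ E * (Y * (1 + K * L)) := by
          have := Real.log_natCast_nonneg N
          gcongr
      _ ≤ Y / L ^ K / 3 := by
          have e : L ^ (K + 2) = L ^ K * L ^ 2 := by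
            rw [Real.rpow_add hL0]
            norm_num
          rw [hE, e, div_mul_eq_mul_div, div_div, div_le_div_iff₀ (by positivity) (by positivity)]
          have : 2 * (Y * (1 + K * L)) * (L ^ K * 3) = Y * L ^ K * (6 * (1 + K * L)) := by ring
          rw [this]
          have : Y * (L ^ K * L ^ 2) = Y * L ^ K * L ^ 2 := by ring
          rw [this]
          gcongr
  have hb3 : N * r.primeFactors.card / Z ≤ Y / L ^ K / 3 := by
    have h1 : (r.primeFactors.card : ℝ) ≤ 2 * (K * L) := by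
      refine (card_primeFactors_le hr).trans ?_
      have h2 := Real.log_le_log (by exact_mod_cast hr) hrX
      rw [Real.log_rpow hX0] at h2
      linarith
    calc (N : ℝ) * r.primeFactors.card / Z ≤ Y * (2 * (K * L)) / exp u := by
          gcongr
      _ ≤ Y / L ^ K / 3 := by
          rw [div_div, div_le_div_iff₀ (by positivity) (by positivity)]
          have e1 : Y * (2 * (K * L)) * (L ^ K * 3) = Y * (6 * K * L * L ^ K) := by ring
          rw [e1]
          have : 6 * K * L * L ^ K ≤ 6 * K ^ 2 * L * L ^ K := by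
            have : K ≤ K ^ 2 := by nlinarith
            gcongr
          gcongr
          linarith
  linarith

end Vale.Agent.P014.H687.FM
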