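import Vale.Agent.P013.Bdl.B6
import Vale.Agent.P014.H687.FM3

/-!
# Siegel-Walfisz in the form used by FM3
-/

namespace Vale.Agent.P014.H687.FM

theorem sw : SW := fun C hC => by
  obtain ⟨x₀, h⟩ := Vale.Agent.P013.J.sw C hC
  exact ⟨x₀, h⟩

end Vale.Agent.P014.H687.FM
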