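import Vale.Agent.P014.H687.FM2
import Vale.Agent.P014.H687.FM3
import Vale.Agent.P031.Mertens

/-!
# FM2: corollaries
-/

open Finset Real

namespace Vale.Agent.P014.H687.FM

theorem recip_le {x : ℝ} (hx : 3 ≤ x) :
    ∑ p ∈ (Icc 1 ⌊x⌋₊).filter Nat.Prime, 1 / (p : ℝ) ≤ log (log x) + 21 := by
  have h := (abs_le.1 (Vale.Agent.P031.mertens_explicit x hx)).2
  have e : (Icc 1 ⌊x⌋₊).filter Nat.Prime = (range (⌊x⌋₊ + 1)).filter Nat.Prime := by
    ext p
    simp only [mem_filter, mem_Icc, mem_range]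
    constructor
    · rintro ⟨h1, h2⟩; exact ⟨by omega, h2⟩
    · rintro ⟨h1, h2⟩; exact ⟨⟨h2.pos, by omega⟩, h2⟩
  rw [e]
  linarith

theorem log_ge_one {x : ℝ} (hx : 3 ≤ x) : 1 ≤ log x := by
  rw [Real.le_log_iff_exp_le (by linarith)]
  linarith [Real.exp_one_lt_d9]

/-- general corollary -/
theorem fm2_gen {g : ℕ → ℝ} (h0 : ∀ p, 0 ≤ g p) {K : ℝ} (hg : ∀ p, p.Prime → g p ≤ K)
    (hK : 0 ≤ K) {α B x : ℝ} (hx : 3 ≤ x)
    (h : ∑ p ∈ (Icc 1 ⌊x⌋₊).filter Nat.Prime, g p / p ≤ α * log (log x) + B) :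
    ∑ n ∈ sqf ⌊x⌋₊, mf g n ≤ (2 * K + 1) * exp B * x * log x ^ (α - 1) := by
  have hlog := log_ge_one hx
  have h1 := fm2 h0 hg hK (x := x) (by linarith)
  refine h1.trans ?_
  have h2 : exp (∑ p ∈ (Icc 1 ⌊x⌋₊).filter Nat.Prime, g p / p) ≤ log x ^ α * exp B := by
    calc exp (∑ p ∈ (Icc 1 ⌊x⌋₊).filter Nat.Prime, g p / p) ≤ exp (α * log (log x) + B) :=
          Real.exp_le_exp.2 h
      _ = log x ^ α * exp B := by
          rw [Real.exp_add, Real.rpow_def_of_pos (by linarith), mul_comm α]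
  calc (2 * K + 1) * (x / log x) * exp (∑ p ∈ (Icc 1 ⌊x⌋₊).filter Nat.Prime, g p / p)
      ≤ (2 * K + 1) * (x / log x) * (log x ^ α * exp B) := by
        have : 0 ≤ x / log x := by positivity
        gcongr
    _ = (2 * K + 1) * exp B * x * log x ^ (α - 1) := by
        rw [Real.rpow_sub_one (by linarith)]
        ring

theorem mf_const (κ : ℝ) (n : ℕ) : mf (fun _ => κ) n = κ ^ n.primeFactors.card := by
  rw [mf, Finset.prod_const]

/-- **FM2 (b)** -/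
theorem fm2b (κ : ℝ) (hκ : 0 ≤ κ) : ∃ C : ℝ, 0 < C ∧ ∀ x : ℝ, 3 ≤ x →
    ∑ n ∈ sqf ⌊x⌋₊, κ ^ n.primeFactors.card ≤ C * x * log x ^ (κ - 1) := by
  refine ⟨(2 * κ + 1) * exp (κ * 21), by positivity, fun x hx => ?_⟩
  have h := fm2_gen (g := fun _ => κ) (fun _ => hκ) (K := κ) (fun _ _ => le_rfl) hκ
    (α := κ) (B := κ * 21) hx ?_
  · simpa only [mf_const] using h
  · have h1 := recip_le hx
    have h2 : ∑ p ∈ (Icc 1 ⌊x⌋₊).filter Nat.Prime, κ / (p : ℝ) =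
        κ * ∑ p ∈ (Icc 1 ⌊x⌋₊).filter Nat.Prime, 1 / (p : ℝ) := by
      rw [Finset.mul_sum]
      exact Finset.sum_congr rfl fun p _ => by ring
    rw [h2]
    nlinarith

/-! ### Sums of a character over the reciprocals of the primes -/

/-- partial sums of `f p / p` -/
noncomputable def rec (f : ℕ → ℂ) (M N : ℕ) : ℂ :=
  ∑ p ∈ (Ioc M N).filter Nat.Prime, f p / p

theorem rec_add (f : ℕ → ℂ) {M N R : ℕ} (h1 : M ≤ N) (h2 : N ≤ R) :
    rec f M R = rec f M N + rec f N R := by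
  have e : Ioc M R = Ioc M N ∪ Ioc N R := by
    ext i; simp only [mem_union, mem_Ioc]; omega
  have hd : Disjoint (Ioc M N) (Ioc N R) := by
    rw [Finset.disjoint_left]; intro i hi hi'
    simp only [mem_Ioc] at hi hi'; omega
  rw [rec, rec, rec, e, Finset.filter_union, Finset.sum_union]
  exact Finset.disjoint_filter_filter hd

theorem rec_block (f : ℕ → ℂ) {M N : ℕ} (hM : 1 ≤ M) {D : ℝ} (hD0 : 0 ≤ D)
    (hD : ∀ n, M < n → n ≤ N → ‖∑ p ∈ (Ioc M n).filter Nat.Prime, f p‖ ≤ D) :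
    ‖rec f M N‖ ≤ D / M := by
  have h := abel_bound (fun i => if i.Prime then f i else 0) (fun i => 1 / (i : ℝ)) M D N
    (fun n _ => by positivity) ?_ ?_ hD0
  · have e : rec f M N = ∑ i ∈ Ioc M N, ((1 / (i : ℝ) : ℝ) : ℂ) * (if i.Prime then f i else 0) := by
      rw [rec, Finset.sum_filter]
      refine Finset.sum_congr rfl fun i _ => ?_
      split_ifs
      · push_cast; ring
      · simp
    rw [e]
    refine h.trans ?_
    have hM0 : (0 : ℝ) < M := by exact_mod_cast hM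
    rw [mul_one_div]
    have : (M : ℝ) ≤ ((M + 1 : ℕ) : ℝ) := by push_cast; linarith
    gcongr
  · intro n hn
    have : (0 : ℝ) < n := by exact_mod_cast (by omega : 0 < n)
    have h2 : (n : ℝ) ≤ ((n + 1 : ℕ) : ℝ) := by push_cast; linarith
    exact one_div_le_one_div_of_le this h2
  · intro n h1 h2
    have := hD n h1 h2
    rwa [Finset.sum_filter] at this

theorem rec_bounded (hsw : SW) {q : ℕ} {f : ℕ → ℂ} (hf : NPChar q f) :
    ∃ C : ℝ, ∀ N : ℕ, ‖rec f 0 N‖ ≤ C := by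
  obtain ⟨x₀, hx₀3, hx₀⟩ := char_pi hsw 2 (by norm_num)
  obtain ⟨i₀, hi₀⟩ : ∃ i₀ : ℕ, 2 ≤ i₀ ∧ x₀ ≤ (2 : ℝ) ^ i₀ ∧ (4 * q : ℝ) ≤ (i₀ : ℝ) ^ 2 := by
    obtain ⟨a, ha⟩ := pow_unbounded_of_one_lt x₀ (by norm_num : (1 : ℝ) < 2)
    refine ⟨max (max a 2) (4 * q), le_trans (le_max_right _ _) (le_max_left _ _), ?_, ?_⟩
    · refine ha.le.trans (pow_le_pow_right₀ (by norm_num) ?_)
      exact (le_max_left _ _).trans (le_max_left _ _)
    · have h1 : (4 * q : ℝ) ≤ ((max (max a 2) (4 * q) : ℕ) : ℝ) := by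
        exact_mod_cast le_max_right _ _
      have h2 : (1 : ℝ) ≤ ((max (max a 2) (4 * q) : ℕ) : ℝ) := by
        have : 1 ≤ max (max a 2) (4 * q) := by
          have := le_max_right a 2
          have := le_max_left (max a 2) (4 * q)
          omega
        exact_mod_cast this
      nlinarith
  obtain ⟨hi2, hix, hiq⟩ := hi₀
  have hlog2 : 1 / 2 ≤ log 2 := by linarith [Real.log_two_gt_d9]
  have hblock : ∀ i : ℕ, i₀ ≤ i → ∀ N : ℕ, 2 ^ i ≤ N → N ≤ 2 ^ (i + 1) →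
      ‖rec f (2 ^ i) N‖ ≤ 16 / (i : ℝ) ^ 2 := by
    intro i hi N hN1 hN2
    have hi0 : (0 : ℝ) < i := by exact_mod_cast (by omega : 0 < i)
    have hii : (i₀ : ℝ) ≤ i := by exact_mod_cast hi
    have hlog : (i : ℝ) / 2 ≤ log ((2 ^ i : ℕ) : ℝ) := by
      push_cast
      rw [Real.log_pow]
      nlinarith
    have hlog2' : (i : ℝ) ^ 2 / 4 ≤ log ((2 ^ i : ℕ) : ℝ) ^ (2 : ℝ) := by
      rw [Real.rpow_two]
      nlinarith
    have hx : x₀ ≤ ((2 ^ i : ℕ) : ℝ) := by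
      push_cast
      exact hix.trans (pow_le_pow_right₀ (by norm_num) hi)
    have hq : (q : ℝ) ≤ log ((2 ^ i : ℕ) : ℝ) ^ (2 : ℝ) := by
      nlinarith
    have h := rec_block f (M := 2 ^ i) (N := N) Nat.one_le_two_pow
      (D := 16 * 2 ^ i / (i : ℝ) ^ 2) (by positivity) ?_
    · refine h.trans (le_of_eq ?_)
      push_cast
      field_simp
    · intro n hn1 hn2
      refine (hx₀ (2 ^ i) n hx hn1.le q f hq hf).trans ?_
      have h3 : (n : ℝ) ≤ 2 * 2 ^ i := by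
        have : n ≤ 2 * 2 ^ i := by rw [← pow_succ']; omega
        exact_mod_cast this
      have hlpos : 0 < log ((2 ^ i : ℕ) : ℝ) := by linarith [hlog, hi0]
      rw [div_le_div_iff₀ (Real.rpow_pos_of_pos hlpos 2) (by positivity)]
      calc 2 * (n : ℝ) * (i : ℝ) ^ 2 ≤ 2 * (2 * 2 ^ i) * (i : ℝ) ^ 2 := by gcongr
        _ = 16 * 2 ^ i * ((i : ℝ) ^ 2 / 4) := by ring
        _ ≤ 16 * 2 ^ i * log ((2 ^ i : ℕ) : ℝ) ^ (2 : ℝ) := by gcongr
  have hind : ∀ k : ℕ, ∀ N : ℕ, 2 ^ i₀ ≤ N → N ≤ 2 ^ (i₀ + k) →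
      ‖rec f (2 ^ i₀) N‖ ≤ 16 * (1 / ((i₀ : ℝ) - 1) - 1 / ((i₀ : ℝ) + k - 1)) := by
    intro k
    induction k with
    | zero =>
      intro N h1 h2
      have : N = 2 ^ i₀ := le_antisymm h2 h1
      rw [this, rec, Ioc_self]
      simp
    | succ k ih =>
      intro N h1 h2
      have hi0 : (2 : ℝ) ≤ i₀ := by exact_mod_cast hi2
      have hk0 : (0 : ℝ) ≤ k := by positivity
      have hstep : 1 / ((i₀ : ℝ) + k) ^ 2 ≤ 1 / ((i₀ : ℝ) + k - 1) - 1 / ((i₀ : ℝ) + k) := by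
        rw [div_sub_div _ _ (by linarith) (by linarith), div_le_div_iff₀ (by positivity)
          (by nlinarith)]
        nlinarith
      have hpush : ((k + 1 : ℕ) : ℝ) = k + 1 := by push_cast; ring
      rw [hpush]
      have e1 : (i₀ : ℝ) + (k + 1) - 1 = i₀ + k := by ring
      rw [e1]
      by_cases hN : N ≤ 2 ^ (i₀ + k)
      · refine (ih N h1 hN).trans ?_
        have : 0 ≤ 1 / ((i₀ : ℝ) + k) ^ 2 := by positivity
        linarith
      · push Not at hN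
        have h3 : 2 ^ i₀ ≤ 2 ^ (i₀ + k) := Nat.pow_le_pow_right (by norm_num) (by omega)
        rw [rec_add f h3 hN.le]
        refine (norm_add_le _ _).trans ?_
        have h4 := ih (2 ^ (i₀ + k)) h3 le_rfl
        have h5 := hblock (i₀ + k) (by omega) N hN.le h2
        push_cast at h5
        have h6 : (16 : ℝ) / ((i₀ : ℝ) + k) ^ 2 = 16 * (1 / ((i₀ : ℝ) + k) ^ 2) := by ring
        rw [h6] at h5
        linarith
  have htriv : ∀ N : ℕ, ‖rec f 0 N‖ ≤ N := by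
    intro N
    rw [rec]
    refine (norm_sum_le _ _).trans ?_
    calc ∑ p ∈ (Ioc 0 N).filter Nat.Prime, ‖f p / p‖ ≤ ∑ p ∈ (Ioc 0 N).filter Nat.Prime, 1 := by
          refine Finset.sum_le_sum fun p hp => ?_
          have hp1 : (1 : ℝ) ≤ p := by exact_mod_cast (mem_filter.1 hp).2.pos
          rw [norm_div, Complex.norm_natCast]
          rw [div_le_one (by linarith)]
          exact (hf.bd p).trans hp1
      _ ≤ ∑ p ∈ Ioc 0 N, (1 : ℝ) := by
          refine Finset.sum_le_sum_of_subset_of_nonneg (Finset.filter_subset _ _) ?_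
          intros; norm_num
      _ = N := by simp
  refine ⟨((2 ^ i₀ : ℕ) : ℝ) + 16, fun N => ?_⟩
  by_cases hN : N ≤ 2 ^ i₀
  · refine (htriv N).trans ?_
    have : (N : ℝ) ≤ ((2 ^ i₀ : ℕ) : ℝ) := by exact_mod_cast hN
    linarith
  · push Not at hN
    rw [rec_add f (Nat.zero_le _) hN.le]
    refine (norm_add_le _ _).trans (add_le_add (htriv _) ?_)
    have h1 := hind N N hN.le ((Nat.lt_two_pow_self).le.trans
      (Nat.pow_le_pow_right (by norm_num) (by omega)))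
    refine h1.trans ?_
    have hi0 : (2 : ℝ) ≤ i₀ := by exact_mod_cast hi2
    have hN0 : (0 : ℝ) ≤ N := by positivity
    have h2 : 1 / ((i₀ : ℝ) - 1) ≤ 1 := by
      rw [div_le_one (by linarith)]; linarith
    have h3 : 0 ≤ 1 / ((i₀ : ℝ) + N - 1) := by
      apply div_nonneg zero_le_one; linarith
    linarith

/-- **FM2 (c)** -/
theorem fm2c (hsw : SW) {q : ℕ} {ψ : ℕ → ℝ} (hψ : NPChar q (fun n => (ψ n : ℂ)))
    (hval : ∀ n, ψ n = 1 ∨ ψ n = -1 ∨ (ψ n = 0 ∧ ¬ n.Coprime q)) :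
    ∃ C : ℝ, 0 < C ∧ ∀ x : ℝ, 3 ≤ x → ∀ g : ℕ → ℝ, (∀ p, 0 ≤ g p) →
      (∀ p, p.Prime → g p ≤ 1) → (∀ p, p.Prime → ψ p = -1 → g p ≤ 1 / 2) →
        ∑ n ∈ sqf ⌊x⌋₊, mf g n ≤ C * x * log x ^ (-(1 / 4 : ℝ)) := by
  obtain ⟨C, hC⟩ := rec_bounded hsw hψ
  refine ⟨3 * exp (3 / 4 * 21 + C / 4 + q), by positivity, fun x hx g h0 h1 h2 => ?_⟩
  have hq1 := hψ.pos
  have hmain : ∑ p ∈ (Icc 1 ⌊x⌋₊).filter Nat.Prime, g p / p ≤
      3 / 4 * log (log x) + (3 / 4 * 21 + C / 4 + q) := by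
    have e1 : ∀ p ∈ (Icc 1 ⌊x⌋₊).filter Nat.Prime, g p / p ≤
        3 / 4 * (1 / (p : ℝ)) + 1 / 4 * (ψ p / p) + (if p ∣ q then 1 else 0) := by
      intro p hp
      have hpp := (mem_filter.1 hp).2
      have hp0 : (0 : ℝ) < p := by exact_mod_cast hpp.pos
      rcases hval p with h | h | ⟨h, hc⟩
      · have : g p / p ≤ 3 / 4 * (1 / (p : ℝ)) + 1 / 4 * (ψ p / p) := by
          rw [h]
          have := h1 p hpp
          rw [show 3 / 4 * (1 / (p : ℝ)) + 1 / 4 * (1 / p) = 1 / p by ring]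
          gcongr
        split_ifs <;> linarith
      · have : g p / p ≤ 3 / 4 * (1 / (p : ℝ)) + 1 / 4 * (ψ p / p) := by
          rw [h]
          have := h2 p hpp h
          rw [show 3 / 4 * (1 / (p : ℝ)) + 1 / 4 * (-1 / p) = (1 / 2) / p by ring]
          gcongr
        split_ifs <;> linarith
      · have hd : p ∣ q := by
          by_contra hnd
          exact hc ((Nat.Prime.coprime_iff_not_dvd hpp).2 hnd)
        rw [if_pos hd, h]
        have h3 := h1 p hpp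
        have hp1 : (1 : ℝ) ≤ p := by exact_mod_cast hpp.pos
        have : g p / p ≤ 1 := by rw [div_le_one hp0]; linarith
        have : 0 ≤ 3 / 4 * (1 / (p : ℝ)) := by positivity
        simp only [zero_div, mul_zero]
        linarith
    refine (Finset.sum_le_sum e1).trans ?_
    rw [Finset.sum_add_distrib, Finset.sum_add_distrib, ← Finset.mul_sum, ← Finset.mul_sum]
    have h3 := recip_le hx
    have h4 : ∑ p ∈ (Icc 1 ⌊x⌋₊).filter Nat.Prime, ψ p / (p : ℝ) ≤ C := by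
      have h5 := hC ⌊x⌋₊
      have h6 : rec (fun n => (ψ n : ℂ)) 0 ⌊x⌋₊ =
          ((∑ p ∈ (Icc 1 ⌊x⌋₊).filter Nat.Prime, ψ p / (p : ℝ) : ℝ) : ℂ) := by
        rw [rec]
        push_cast
        rfl
      rw [h6, Complex.norm_real, Real.norm_eq_abs] at h5
      exact (le_abs_self _).trans h5
    have h7 : ∑ p ∈ (Icc 1 ⌊x⌋₊).filter Nat.Prime, (if p ∣ q then (1 : ℝ) else 0) ≤ q := by
      rw [← Finset.sum_filter, Finset.sum_const, nsmul_eq_mul, mul_one]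
      have : (((Icc 1 ⌊x⌋₊).filter Nat.Prime).filter (fun p => p ∣ q)).card ≤ (Icc 1 q).card := by
        refine Finset.card_le_card fun p hp => ?_
        simp only [mem_filter, mem_Icc] at hp ⊢
        exact ⟨hp.1.1.1, Nat.le_of_dvd hq1 hp.2⟩
      rw [Nat.card_Icc, Nat.add_sub_cancel] at this
      exact_mod_cast this
    linarith
  have h := fm2_gen h0 h1 zero_le_one hx hmain
  have e : (3 / 4 - 1 : ℝ) = -(1 / 4 : ℝ) := by norm_num
  rw [e] at h
  linarith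

end Vale.Agent.P014.H687.FM
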