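import Vale.Agent.P014.H580.FMDefs
import Vale.Agent.P014.H687.FM3

/-!
# The real characters used in the first moment, as `NPChar`
-/

namespace Vale.Agent.P014.H687.FM

open Finset Vale.Agent.P014.FM

theorem NPChar.of_ne_one {q : ℕ} {f : ℕ → ℂ} (pos : 1 ≤ q) (mul : ∀ m n, f (m * n) = f m * f n)
    (per : ∀ n, f (n + q) = f n) (cop : ∀ n, ¬ n.Coprime q → f n = 0) (bd : ∀ n, ‖f n‖ ≤ 1)
    {b : ℕ} (hb : f b ≠ 1) (hbc : b.Coprime q) : NPChar q f := by
  refine ⟨pos, mul, per, cop, bd, ?_⟩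
  have hper : Function.Periodic f q := fun n => per n
  have hinj : Set.InjOn (fun a => b * a % q) (range q : Set ℕ) := by
    intro x hx y hy hxy
    have hx' := mem_range.1 (Finset.mem_coe.1 hx)
    have hy' := mem_range.1 (Finset.mem_coe.1 hy)
    have h1 : b * x ≡ b * y [MOD q] := hxy
    have h2 : x ≡ y [MOD q] := Nat.ModEq.cancel_left_of_coprime (by
      rw [Nat.coprime_comm] at hbc; exact hbc) h1
    rw [Nat.ModEq, Nat.mod_eq_of_lt hx', Nat.mod_eq_of_lt hy'] at h2
    exact h2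
  have himg : (range q).image (fun a => b * a % q) = range q := by
    refine Finset.eq_of_subset_of_card_le ?_ ?_
    · intro z hz
      obtain ⟨a, -, rfl⟩ := mem_image.1 hz
      exact mem_range.2 (Nat.mod_lt _ pos)
    · rw [Finset.card_image_of_injOn hinj]
  have h1 : f b * ∑ a ∈ range q, f a = ∑ a ∈ range q, f a := by
    conv_rhs => rw [← himg]
    rw [Finset.sum_image hinj, Finset.mul_sum]
    refine Finset.sum_congr rfl fun a _ => ?_
    rw [hper.map_mod_nat, mul]
  have h2 : (f b - 1) * ∑ a ∈ range q, f a = 0 := by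
    rw [sub_mul, h1, one_mul, sub_self]
  exact (mul_eq_zero.1 h2).resolve_left (sub_ne_zero.2 hb)

theorem chi4_mul (m n : ℕ) : chi4 (m * n) = chi4 m * chi4 n := by
  unfold chi4
  have h : m * n % 4 = (m % 4) * (n % 4) % 4 := Nat.mul_mod m n 4
  have hm : m % 4 < 4 := Nat.mod_lt _ (by norm_num)
  have hn : n % 4 < 4 := Nat.mod_lt _ (by norm_num)
  rw [h]
  generalize m % 4 = a at hm ⊢
  generalize n % 4 = b at hn ⊢
  interval_cases a <;> interval_cases b <;> norm_num

theorem chi4_per (n k : ℕ) : chi4 (n + 4 * k) = chi4 n := by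
  unfold chi4
  rw [Nat.add_mul_mod_self_left]

theorem chi4_even {n : ℕ} (h : n % 2 = 0) : chi4 n = 0 := by
  unfold chi4
  rw [if_neg (by omega), if_neg (by omega)]

theorem chi4_abs (n : ℕ) : |chi4 n| ≤ 1 := by
  unfold chi4
  split_ifs <;> simp

theorem J_per (n k Q : ℕ) : J (n + k * Q) Q = J n Q := by
  unfold Vale.Agent.P014.H580.J
  have : jacobiSym ((n + k * Q : ℕ) : ℤ) Q = jacobiSym (n : ℤ) Q := by
    rw [jacobiSym.mod_left, jacobiSym.mod_left (n : ℤ)]
    congr 1
    push_cast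
    exact Int.add_mul_emod_self_right _ _ _
  rw [this]

theorem J_zero {n Q : ℕ} (hQ : Q ≠ 0) (h : ¬ n.Coprime Q) : J n Q = 0 := by
  unfold Vale.Agent.P014.H580.J
  have : NeZero Q := ⟨hQ⟩
  have h1 : jacobiSym (n : ℤ) Q = 0 := by
    rw [jacobiSym.eq_zero_iff_not_coprime]
    simpa using h
  rw [h1]
  simp

theorem npchar_J {Q : ℕ} (hQ : Odd Q) (hs : ¬ IsSquare Q) {a : ℕ} (ha : 1 ≤ a) :
    NPChar (4 * Q) (fun m => ((chi4 m ^ a * J m Q : ℝ) : ℂ)) := by
  have hQ0 : Q ≠ 0 := by rintro rfl; exact absurd hQ (by decide)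
  obtain ⟨n, hn⟩ := Vale.Agent.P014.H580.exists_neg hQ hs
  have hcop : Nat.Coprime Q 4 := by
    have : Nat.Coprime Q 2 := Nat.coprime_two_right.2 hQ
    exact Nat.Coprime.pow_right 2 this
  obtain ⟨b, hb1, hb2⟩ := Nat.chineseRemainder hcop n 1
  have hJb : J b Q = -1 := by
    unfold Vale.Agent.P014.H580.J
    have h1 : jacobiSym (b : ℤ) Q = jacobiSym (n : ℤ) Q := by
      rw [jacobiSym.mod_left, jacobiSym.mod_left (n : ℤ)]
      congr 1
      exact_mod_cast hb1
    rw [h1, hn]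
    simp
  have hcb : chi4 b = 1 := by
    have h1 : b % 4 = 1 := hb2
    unfold chi4
    rw [if_pos h1]
  refine NPChar.of_ne_one (b := b) (by omega) ?_ ?_ ?_ ?_ ?_ ?_
  · intro m k
    rw [chi4_mul, Vale.Agent.P014.H580.J_mul_left]
    push_cast
    ring
  · intro m
    have h1 : m + 4 * Q = m + 4 * Q := rfl
    rw [chi4_per, J_per m 4 Q]
  · intro m hm
    rcases Nat.mod_two_eq_zero_or_one m with h | h
    · rw [chi4_even h, zero_pow (by omega)]
      simp
    · have : ¬ m.Coprime Q := by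
        intro hc
        refine hm (Nat.Coprime.mul_right ?_ hc)
        exact Nat.Coprime.pow_right 2 (Nat.coprime_two_right.2 (Nat.odd_iff.2 h))
      rw [J_zero hQ0 this]
      simp
  · intro m
    rw [Complex.norm_real, Real.norm_eq_abs, abs_mul, abs_pow]
    exact mul_le_one₀ (pow_le_one₀ (abs_nonneg _) (chi4_abs m)) (abs_nonneg _)
      (Vale.Agent.P014.H580.J_abs m Q)
  · rw [hJb, hcb]
    norm_num
  · refine Nat.Coprime.mul_right ?_ ?_
    · refine Nat.Coprime.pow_right 2 (Nat.coprime_two_right.2 (Nat.odd_iff.2 ?_))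
      have : b % 4 = 1 := hb2
      omega
    · by_contra h
      have := J_zero hQ0 h
      rw [this] at hJb
      norm_num at hJb

end Vale.Agent.P014.H687.FM
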