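import Vale.Agent.P014.H687.Inst

/-!
# P014 (H687): all coefficients of a form in `M_2(Γ₀(17))` in terms of the first two
-/

open Complex
open UpperHalfPlane hiding I
open CongruenceSubgroup ModularForm Filter Asymptotics Manifold
open Matrix.SpecialLinearGroup (mapGL)
open scoped Real MatrixGroups ModularForm ArithmeticFunction.sigma Topology

namespace Vale.Agent.P014.H687

open Vale.Agent.P014.H70 (Th3 r3)

section

variable {Θ : ℂ → ℂ} {r : ℕ → ℤ} (T : TD Θ r)

include T

theorem M2_coeff (g : ModularForm Gm 2) (n : ℕ) :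
    (qExpansion 1 g).coeff n = (qExpansion 1 g).coeff 0 / 2 * (cE n : ℂ) +
      ((qExpansion 1 g).coeff 1 - 3 * ((qExpansion 1 g).coeff 0 / 2)) * (an r n : ℂ) := by
  have h1 : (1 : ℝ) ∈ Gm.strictPeriods := by simp
  set b0 : ℂ := (qExpansion 1 g).coeff 0 with hb0
  set b1 : ℂ := (qExpansion 1 g).coeff 1 with hb1
  set u : ℂ := b0 / 2 with hu
  set v : ℂ := b1 - 3 * u with hv
  set h : ModularForm Gm 2 := g - (u • ec_form.mf + v • (F_form' T).mf) with hh
  have e1 : qExpansion 1 h = qExpansion 1 g -
      (u • qExpansion 1 ec_form.mf + v • qExpansion 1 (F_form' T).mf) := by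
    have e2 := ModularForm.qExpansion_sub (Γ := Gm) one_pos h1 g
      (u • ec_form.mf + v • (F_form' T).mf)
    have e3 := ModularForm.qExpansion_add (Γ := Gm) one_pos h1 (u • ec_form.mf)
      (v • (F_form' T).mf)
    have e4 := ModularForm.qExpansion_smul (Γ := Gm) one_pos h1 u ec_form.mf
    have e5 := ModularForm.qExpansion_smul (Γ := Gm) one_pos h1 v (F_form' T).mf
    rw [← e4, ← e5]
    exact e2.trans (congrArg _ e3)
  have hc : ∀ n, (qExpansion 1 h).coeff n = (qExpansion 1 g).coeff n -
      (u * (cE n : ℂ) + v * (an r n : ℂ)) := by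
    intro n
    rw [e1, map_sub, map_add, PowerSeries.coeff_smul, PowerSeries.coeff_smul, ec_form.coeff,
      (F_form' T).coeff, smul_eq_mul, smul_eq_mul]
  have c0 : cE 0 = 2 := by decide
  have c1 : cE 1 = 3 := by decide
  have h0 : (qExpansion 1 h).coeff 0 = 0 := by
    rw [hc, an_zero T, c0, ← hb0, hu]
    push_cast
    ring
  have h1' : (qExpansion 1 h).coeff 1 = 0 := by
    rw [hc, an_one T, c1, ← hb1, hv]
    push_cast
    ring
  have hz := M2_zero h h0 h1'
  have h2 := hc n
  have h3 : (qExpansion 1 (0 : ModularForm Gm 2)).coeff n = 0 := by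
    have : qExpansion 1 (0 : ModularForm Gm 2) = 0 := UpperHalfPlane.qExpansion_zero 1
    rw [this]
    simp
  rw [hz, h3] at h2
  linear_combination (-1 : ℂ) * h2

theorem an_nine : an r 9 = -3 := by
  have := (hk T).T 3 Nat.prime_three (by norm_num) 3
  norm_num [an_three T, an_one T] at this
  omega

end

/-- the third coefficient -/
theorem M2_rel3 (g : ModularForm Gm 2) :
    (qExpansion 1 g).coeff 3 = 6 * (qExpansion 1 g).coeff 0 := by
  have c3 : cE 3 = 12 := by decide
  rw [M2_coeff T3 g 3, c3, an_three T3]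
  push_cast
  ring

/-- the ninth coefficient -/
theorem M2_rel9 (g : ModularForm Gm 2) :
    (qExpansion 1 g).coeff 9 = 24 * (qExpansion 1 g).coeff 0 - 3 * (qExpansion 1 g).coeff 1 := by
  have c9 : cE 9 = 39 := by decide
  rw [M2_coeff T3 g 9, c9, an_nine T3]
  push_cast
  ring

end Vale.Agent.P014.H687
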