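import Vale.Agent.P014.H70.Fam3
import Vale.Agent.P014.H687.M2c

/-!
# P014 (H687): the numbers of elements of norm `3` and `9`
-/

namespace Vale.Agent.P014.H687

open Vale.Agent.P014.H70 Vale.Agent.P017.H185

theorem rn3 (A : Vale.Agent.P014.H70.Lat) : A.rn 3 = 6 := by
  have h1 := M2_rel3 A.mf
  rw [← A.rn_eq, ← A.rn_eq, A.rn_zero] at h1
  have h2 : ((A.rn 3 : ℕ) : ℂ) = ((6 : ℕ) : ℂ) := by
    rw [h1]
    push_cast
    ring
  exact_mod_cast h2

theorem rn9 (A : Vale.Agent.P014.H70.Lat) : A.rn 9 + 3 * A.rn 1 = 24 := by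
  have h1 := M2_rel9 A.mf
  rw [← A.rn_eq, ← A.rn_eq, ← A.rn_eq, A.rn_zero] at h1
  have h2 : ((A.rn 9 + 3 * A.rn 1 : ℕ) : ℂ) = ((24 : ℕ) : ℂ) := by
    push_cast
    rw [h1]
    push_cast
    ring
  exact_mod_cast h2

variable {K : Type*} [Field K] [NumberField K] {n : ℕ} {q : QF K n} {J : Type*} (F : Fam q J)

theorem rep3 (h : Fam.Rel17) (a b : J) : (F.sys h).rep a b 3 = 6 := by
  have e : (F.sys h).rep a b 3 = Nat.card ((F.E a b).RN 3) := F.card' a b 3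
  rw [e, ← Dat.lat_rn]
  exact rn3 _

theorem rep9 (h : Fam.Rel17) (a b : J) :
    (F.sys h).rep a b 9 + 3 * (F.sys h).rep a b 1 = 24 := by
  have e : ∀ m : ℕ, (F.sys h).rep a b m = Nat.card ((F.E a b).RN m) := fun m => F.card' a b m
  rw [e, e, ← Dat.lat_rn, ← Dat.lat_rn]
  exact rn9 _

end Vale.Agent.P014.H687
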