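import Mathlib

/-!
# P014 (H687): character sums of the curves `17a1` and `17a2`
-/

open Finset

namespace Vale.Agent.P014.H687

section

variable {p : ℕ} [hp : Fact p.Prime]

theorem ringChar_ne (hp2 : p ≠ 2) : ringChar (ZMod p) ≠ 2 := by
  rw [ZMod.ringChar_zmod_n]; exact hp2

theorem natCast_ne {n : ℕ} (h : ¬ p ∣ n) : (n : ZMod p) ≠ 0 := by
  rwa [Ne, ZMod.natCast_eq_zero_iff]

theorem two_ne (hp2 : p ≠ 2) : (2 : ZMod p) ≠ 0 := by
  have := natCast_ne (p := p) (n := 2) (fun h =>
    hp2 ((Nat.prime_dvd_prime_iff_eq hp.out Nat.prime_two).1 h))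
  exact_mod_cast this

theorem seventeen_ne (h17 : p ≠ 17) : (17 : ZMod p) ≠ 0 := by
  have := natCast_ne (p := p) (n := 17) (fun h =>
    h17 ((Nat.prime_dvd_prime_iff_eq hp.out (by norm_num)).1 h))
  exact_mod_cast this

/-- the number of `x ≠ 0` with `x + b / x = w` -/
theorem card_fib (hp2 : p ≠ 2) {b : ZMod p} (hb : b ≠ 0) (w : ZMod p) :
    ((univ.filter fun x : ZMod p => x ≠ 0 ∧ x + b / x = w).card : ℤ) =
      quadraticChar (ZMod p) (w ^ 2 - 4 * b) + 1 := by
  rw [← quadraticChar_card_sqrts (ringChar_ne hp2)]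
  have h2 := two_ne hp2
  congr 1
  refine Finset.card_bij (fun x _ => 2 * x - w) ?_ ?_ ?_
  · intro x hx
    rw [mem_filter] at hx
    obtain ⟨-, hx0, hx⟩ := hx
    rw [Set.mem_toFinset, Set.mem_ofPred_eq]
    field_simp at hx
    linear_combination 4 * hx
  · intro x _ y _ h
    exact mul_left_cancel₀ h2 (by linear_combination h)
  · intro y hy
    rw [Set.mem_toFinset, Set.mem_ofPred_eq] at hy
    refine ⟨(y + w) / 2, ?_, by field_simp; ring⟩
    have h0 : (y + w) / 2 ≠ 0 := by
      intro h
      have h3 : y = -w := by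
        field_simp at h
        linear_combination h
      apply hb
      have h4 : (2 : ZMod p) * (2 * b) = 0 := by
        rw [h3] at hy
        linear_combination hy
      have h5 := (mul_eq_zero.1 h4).resolve_left h2
      exact (mul_eq_zero.1 h5).resolve_left h2
    rw [mem_filter]
    refine ⟨mem_univ _, h0, ?_⟩
    field_simp
    have h4 : y + w ≠ 0 := fun h => h0 (by rw [h, zero_div])
    field_simp
    linear_combination hy

theorem sum_shift (hp2 : p ≠ 2) (a : ZMod p) : ∑ w : ZMod p, quadraticChar (ZMod p) (w + a) = 0 := by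
  rw [← quadraticChar_sum_zero (ringChar_ne hp2)]
  exact Fintype.sum_equiv (Equiv.addRight a) _ _ fun x => rfl

/-- **the two-isogeny formula** -/
theorem iso (hp2 : p ≠ 2) (a : ZMod p) {b : ZMod p} (hb : b ≠ 0) :
    ∑ x : ZMod p, quadraticChar (ZMod p) (x * (x ^ 2 + a * x + b)) =
      ∑ s : ZMod p, quadraticChar (ZMod p) (s * (s ^ 2 - 2 * a * s + (a ^ 2 - 4 * b))) := by
  have e1 : ∑ x : ZMod p, quadraticChar (ZMod p) (x * (x ^ 2 + a * x + b)) =
      ∑ x ∈ univ.filter (fun x : ZMod p => x ≠ 0),
        quadraticChar (ZMod p) ((x + b / x) + a) := by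
    rw [← sum_filter_add_sum_filter_not univ (fun x : ZMod p => x ≠ 0)]
    rw [add_eq_left.2, sum_congr rfl]
    · intro x hx
      have hx0 : x ≠ 0 := (mem_filter.1 hx).2
      have : x * (x ^ 2 + a * x + b) = x ^ 2 * (x + b / x + a) := by
        field_simp
        ring
      rw [this, map_mul, quadraticChar_sq_one' hx0, one_mul]
    · refine sum_eq_zero fun x hx => ?_
      have hx0 : x = 0 := by
        have := (mem_filter.1 hx).2
        push Not at this
        exact this
      rw [hx0, zero_mul, quadraticChar_zero]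
  have e2 : ∑ x ∈ univ.filter (fun x : ZMod p => x ≠ 0),
        quadraticChar (ZMod p) ((x + b / x) + a) =
      ∑ w : ZMod p, (quadraticChar (ZMod p) (w ^ 2 - 4 * b) + 1) *
        quadraticChar (ZMod p) (w + a) := by
    rw [← sum_fiberwise (univ.filter (fun x : ZMod p => x ≠ 0)) (fun x => x + b / x)]
    refine sum_congr rfl fun w _ => ?_
    rw [filter_filter, ← card_fib hp2 hb w]
    rw [sum_congr rfl (g := fun _ => quadraticChar (ZMod p) (w + a)), sum_const, nsmul_eq_mul]
    intro x hx
    rw [(mem_filter.1 hx).2.2]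
  rw [e1, e2]
  have e3 : ∑ w : ZMod p, (quadraticChar (ZMod p) (w ^ 2 - 4 * b) + 1) *
        quadraticChar (ZMod p) (w + a) =
      ∑ w : ZMod p, quadraticChar (ZMod p) ((w + a) * (w ^ 2 - 4 * b)) := by
    have h := sum_shift hp2 a
    calc _ = ∑ w : ZMod p, (quadraticChar (ZMod p) ((w + a) * (w ^ 2 - 4 * b)) +
          quadraticChar (ZMod p) (w + a)) := by
          refine sum_congr rfl fun w _ => ?_
          rw [map_mul]; ring
      _ = _ := by rw [sum_add_distrib, h, add_zero]
  rw [e3]
  refine Fintype.sum_equiv (Equiv.addRight a) _ _ fun w => ?_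
  congr 1
  simp only [Equiv.coe_addRight]
  ring

variable (p) in
/-- the character sum of `17a2` -/
noncomputable def s2 : ℤ := ∑ w : ZMod p, quadraticChar (ZMod p) (w * (w - 1) * (w - 17))

/-- the curves `17a1` and `17a2` are isogenous -/
theorem csum_eq (hp2 : p ≠ 2) (h17 : p ≠ 17) :
    ∑ t : ZMod p, quadraticChar (ZMod p) (4 * t ^ 3 - 3 * t ^ 2 - 2 * t - 55) = s2 p := by
  have h2 := two_ne hp2
  have h4 : (4 : ZMod p) ≠ 0 := by
    have : (4 : ZMod p) = 2 ^ 2 := by norm_num
    rw [this]; exact pow_ne_zero _ h2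
  have hb : (289 : ZMod p) ≠ 0 := by
    have : (289 : ZMod p) = 17 ^ 2 := by norm_num
    rw [this]; exact pow_ne_zero _ (seventeen_ne h17)
  have e1 : ∑ t : ZMod p, quadraticChar (ZMod p) (4 * t ^ 3 - 3 * t ^ 2 - 2 * t - 55) =
      ∑ x : ZMod p, quadraticChar (ZMod p) (x * (x ^ 2 + 30 * x + 289)) := by
    let e : ZMod p ≃ ZMod p :=
      { toFun := fun t => 4 * t - 11
        invFun := fun x => (x + 11) / 4
        left_inv := fun t => by field_simp; ring
        right_inv := fun x => by field_simp; ring }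
    refine Fintype.sum_equiv e _ _ fun t => ?_
    have : (e t) * ((e t) ^ 2 + 30 * (e t) + 289) = 4 ^ 2 * (4 * t ^ 3 - 3 * t ^ 2 - 2 * t - 55) := by
      change (4 * t - 11) * ((4 * t - 11) ^ 2 + 30 * (4 * t - 11) + 289) = _
      ring
    rw [this, map_mul, quadraticChar_sq_one' h4, one_mul]
  rw [e1, iso hp2 30 hb, s2]
  symm
  let e : ZMod p ≃ ZMod p :=
    { toFun := fun w => 4 * w - 4
      invFun := fun x => (x + 4) / 4
      left_inv := fun t => by field_simp; ring
      right_inv := fun x => by field_simp; ring }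
  refine Fintype.sum_equiv e _ _ fun w => ?_
  have h8 : (8 : ZMod p) ≠ 0 := by
    have : (8 : ZMod p) = 2 ^ 3 := by norm_num
    rw [this]; exact pow_ne_zero _ h2
  have : (e w) * ((e w) ^ 2 - 2 * 30 * (e w) + (30 ^ 2 - 4 * 289)) =
      8 ^ 2 * (w * (w - 1) * (w - 17)) := by
    change (4 * w - 4) * ((4 * w - 4) ^ 2 - 2 * 30 * (4 * w - 4) + (30 ^ 2 - 4 * 289)) = _
    ring
  rw [this, map_mul _ (8 ^ 2), quadraticChar_sq_one' h8, one_mul]

theorem qc_cases (a : ZMod p) : quadraticChar (ZMod p) a = 0 ∨ quadraticChar (ZMod p) a = 1 ∨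
    quadraticChar (ZMod p) a = -1 := by
  by_cases h : a = 0
  · left; rw [h, quadraticChar_zero]
  · right; exact quadraticChar_dichotomy h

/-- the trivial bound -/
theorem s2_bound : |s2 p| ≤ p := by
  unfold s2
  refine (abs_sum_le_sum_abs _ _).trans ?_
  have h : ∀ w : ZMod p, |quadraticChar (ZMod p) (w * (w - 1) * (w - 17))| ≤ 1 := by
    intro w
    rcases qc_cases (w * (w - 1) * (w - 17)) with h | h | h <;> rw [h] <;> norm_num
  calc _ ≤ ∑ _w : ZMod p, (1 : ℤ) := sum_le_sum fun w _ => h w
    _ = p := by simp [ZMod.card]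

/-! ### the value modulo four -/

/-- the set of `t` at which the cubic is a nonzero square -/
noncomputable def PS (p : ℕ) [Fact p.Prime] : Finset (ZMod p) :=
  univ.filter fun t => quadraticChar (ZMod p) (t * (t - 1) * (t - 17)) = 1

theorem mem_PS {t : ZMod p} :
    t ∈ PS p ↔ quadraticChar (ZMod p) (t * (t - 1) * (t - 17)) = 1 := by
  simp [PS]

theorem PS_ne {t : ZMod p} (h : t ∈ PS p) : t ≠ 0 ∧ t * (t - 1) * (t - 17) ≠ 0 := by
  rw [mem_PS] at h
  refine ⟨?_, ?_⟩
  · rintro rfl
    rw [zero_mul, zero_mul, quadraticChar_zero] at h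
    exact zero_ne_one h
  · intro h0
    rw [h0, quadraticChar_zero] at h
    exact zero_ne_one h

theorem even_PS (hp2 : p ≠ 2) (h17 : p ≠ 17) : Even (PS p).card := by
  have h2 := two_ne hp2
  have h17' := seventeen_ne h17
  have h16 : (16 : ZMod p) ≠ 0 := by
    have : (16 : ZMod p) = 2 ^ 4 := by norm_num
    rw [this]; exact pow_ne_zero _ h2
  have h : ∑ _t ∈ PS p, (1 : ZMod 2) = 0 := by
    refine sum_involution (fun t _ => if t ^ 2 = 17 then -t else 17 / t) ?_ ?_ ?_ ?_
    · intro t _; decide
    · intro t ht _ he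
      obtain ⟨ht0, -⟩ := PS_ne ht
      split_ifs at he with h
      · exact ht0 (mul_left_cancel₀ h2 (by linear_combination (-1 : ZMod p) * he))
      · apply h
        field_simp at he
        exact he.symm
    · intro t ht
      obtain ⟨ht0, ht1⟩ := PS_ne ht
      rw [mem_PS] at ht ⊢
      split_ifs with h
      · have e : (-t * (-t - 1) * (-t - 17)) * (t * (t - 1) * (t - 17)) = (17 * 16) ^ 2 := by
          linear_combination (-t ^ 4 + 273 * t ^ 2 + 4352) * h
        have h5 := congrArg (quadraticChar (ZMod p)) e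
        rw [map_mul, ht, mul_one, quadraticChar_sq_one' (mul_ne_zero h17' h16)] at h5
        exact h5
      · have e : (17 / t * (17 / t - 1) * (17 / t - 17)) =
            (17 / t ^ 2) ^ 2 * (t * (t - 1) * (t - 17)) := by
          field_simp
          ring
        rw [e, map_mul _ ((17 / t ^ 2) ^ 2), ht, mul_one, quadraticChar_sq_one']
        exact div_ne_zero h17' (pow_ne_zero _ ht0)
    · intro t ht
      obtain ⟨ht0, -⟩ := PS_ne ht
      by_cases h : t ^ 2 = 17
      · simp [h]
      · have h' : ¬ (17 / t) ^ 2 = 17 := by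
          intro h1
          apply h
          field_simp at h1
          exact h1.symm
        rw [if_neg h, if_neg h']
        field_simp
  rw [sum_const, nsmul_eq_mul, mul_one, ZMod.natCast_eq_zero_iff] at h
  exact even_iff_two_dvd.2 h

theorem s2_mod_four (hp2 : p ≠ 2) (h17 : p ≠ 17) : (4 : ℤ) ∣ s2 p + (p + 1) := by
  have h2 := two_ne hp2
  have h17' := seventeen_ne h17
  have h16 : (16 : ZMod p) ≠ 0 := by
    have : (16 : ZMod p) = 2 ^ 4 := by norm_num
    rw [this]; exact pow_ne_zero _ h2
  -- `s2 = 2 A + 3 - p`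
  have h1 : ∀ w : ZMod p, quadraticChar (ZMod p) (w * (w - 1) * (w - 17)) =
      2 * (if w ∈ PS p then 1 else 0) + (if w ∈ ({0, 1, 17} : Finset (ZMod p)) then 1 else 0) -
        1 := by
    intro w
    by_cases h0 : w * (w - 1) * (w - 17) = 0
    · have hw : w ∈ ({0, 1, 17} : Finset (ZMod p)) := by
        simp only [mem_insert, mem_singleton]
        rcases mul_eq_zero.1 h0 with h | h
        · rcases mul_eq_zero.1 h with h | h
          · exact Or.inl h
          · exact Or.inr (Or.inl (sub_eq_zero.1 h))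
        · exact Or.inr (Or.inr (sub_eq_zero.1 h))
      have hw' : w ∉ PS p := fun h => (PS_ne h).2 h0
      rw [if_pos hw, if_neg hw', h0, quadraticChar_zero]
      norm_num
    · have hw : w ∉ ({0, 1, 17} : Finset (ZMod p)) := by
        simp only [mem_insert, mem_singleton, not_or]
        refine ⟨?_, ?_, ?_⟩ <;> · rintro rfl; apply h0; ring
      rw [if_neg hw]
      rcases quadraticChar_dichotomy h0 with h | h
      · rw [if_pos (mem_PS.2 h), h]; norm_num
      · have hw' : w ∉ PS p := fun h' => by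
          rw [mem_PS, h] at h'
          norm_num at h'
        rw [if_neg hw', h]; norm_num
  have h3 : s2 p = 2 * (PS p).card + 3 - p := by
    unfold s2
    rw [sum_congr rfl fun w _ => h1 w, sum_sub_distrib, sum_add_distrib, ← mul_sum,
      sum_ite_mem, sum_ite_mem, univ_inter, univ_inter, sum_const, sum_const, sum_const,
      card_univ, ZMod.card]
    have hc : ({0, 1, 17} : Finset (ZMod p)).card = 3 := by
      rw [card_insert_of_notMem, card_insert_of_notMem, card_singleton]
      · rw [mem_singleton]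
        intro h
        exact h16 (by linear_combination (-1 : ZMod p) * h)
      · rw [mem_insert, mem_singleton, not_or]
        exact ⟨zero_ne_one, fun h => h17' h.symm⟩
    rw [hc]
    simp
  obtain ⟨m, hm⟩ := even_PS hp2 h17
  rw [h3, hm]
  refine ⟨m + 1, ?_⟩
  push_cast
  ring

end

end Vale.Agent.P014.H687
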