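import Vale.Agent.P014.H687.SqfCount
import Vale.Agent.P014.H687.Dp
import Vale.Agent.P004.Defs

/-!
# The density of the two families among the fundamental discriminants
-/

open Filter Finset
open scoped ArithmeticFunction.Moebius

namespace Vale.Agent.P014.H687.Sqf

open Vale.Agent.P014.FM (IsDm Dm)
open Vale.Agent.P014.H687.DP (IsDp Dp)
open P004 (IsFund Fam)

/-- the classes of the first family -/
def Am : Finset ℕ := {3, 7, 11, 23, 27, 31, 39, 63}

/-- the classes of the second family -/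
def Ap : Finset ℕ := {1, 9, 13, 21, 25, 33, 49, 53}

/-- the reduced classes -/
def A32 : Finset ℕ := (range 68).filter (fun a => a.Coprime 68)

theorem card_A32 : A32.card = 32 := by decide

theorem Am_ok : ∀ a ∈ Am, a < 68 ∧ a.Coprime 68 := by decide

theorem Ap_ok : ∀ a ∈ Ap, a < 68 ∧ a.Coprime 68 := by decide

/-- the quadratic residues modulo `17` -/
theorem jac17 (n : ℕ) : jacobiSym (n : ℤ) 17 =
    if n % 17 = 0 then 0 else if n % 17 ∈ ({1, 2, 4, 8, 9, 13, 15, 16} : Finset ℕ) then 1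
      else -1 := by
  have h : n % 17 < 17 := Nat.mod_lt _ (by norm_num)
  have e : jacobiSym (n : ℤ) 17 = jacobiSym ((n % 17 : ℕ) : ℤ) 17 := by
    rw [jacobiSym.mod_left]
    congr 1
  rw [e]
  generalize n % 17 = m at h
  interval_cases m <;> norm_num

theorem isDm_iff (n : ℕ) : IsDm n ↔ Squarefree n ∧ n % 68 ∈ Am := by
  unfold IsDm
  refine and_congr_right fun _ => ?_
  rw [jac17]
  have h4 : n % 4 = (n % 68) % 4 := by omega
  have h17 : n % 17 = (n % 68) % 17 := by omega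
  rw [h4, h17]
  have h : n % 68 < 68 := Nat.mod_lt _ (by norm_num)
  generalize n % 68 = m at h
  revert m
  decide

theorem isDp_iff (n : ℕ) : IsDp n ↔ Squarefree n ∧ n % 68 ∈ Ap := by
  unfold IsDp
  refine and_congr_right fun _ => ?_
  rw [jac17]
  have h4 : n % 4 = (n % 68) % 4 := by omega
  have h17 : n % 17 = (n % 68) % 17 := by omega
  rw [h4, h17]
  have h : n % 68 < 68 := Nat.mod_lt _ (by norm_num)
  generalize n % 68 = m at h
  revert m
  decide

open Classical in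
/-- the count of squarefree numbers in a set of classes -/
noncomputable def SA (A : Finset ℕ) (X : ℕ) : ℕ :=
  ((Icc 1 X).filter fun n => Squarefree n ∧ n % 68 ∈ A).card

theorem SA_eq (A : Finset ℕ) (X : ℕ) : SA A X = ∑ a ∈ A, S a X := by
  classical
  unfold SA S
  have h : (Icc 1 X).filter (fun n => Squarefree n ∧ n % 68 ∈ A) =
      A.biUnion fun a => (Icc 1 X).filter fun n => Squarefree n ∧ n % 68 = a := by
    ext n
    simp only [mem_filter, mem_biUnion]
    constructor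
    · rintro ⟨h1, h2, h3⟩
      exact ⟨_, h3, h1, h2, rfl⟩
    · rintro ⟨a, ha, h1, h2, h3⟩
      exact ⟨h1, h2, h3 ▸ ha⟩
  rw [h, Finset.card_biUnion]
  intro a _ b _ hab
  rw [Function.onFun, Finset.disjoint_left]
  intro n hn hn'
  rw [mem_filter] at hn hn'
  exact hab (hn.2.2.symm.trans hn'.2.2)

/-- the error term -/
noncomputable def er (X : ℕ) : ℝ := 4 * (Nat.sqrt X : ℝ) + 1

theorem er_mono {X Y : ℕ} (h : X ≤ Y) : er X ≤ er Y := by
  unfold er
  have : (Nat.sqrt X : ℝ) ≤ Nat.sqrt Y := by exact_mod_cast Nat.sqrt_le_sqrt h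
  linarith

theorem er_pos (X : ℕ) : 1 ≤ er X := by
  unfold er
  have : (0 : ℝ) ≤ Nat.sqrt X := by positivity
  linarith

theorem SA_asym {A : Finset ℕ} (hA : ∀ a ∈ A, a < 68 ∧ a.Coprime 68) (X : ℕ) :
    |(SA A X : ℝ) - A.card * (C / 68 * X)| ≤ A.card * er X := by
  rw [SA_eq]
  push_cast
  have h1 : ∑ a ∈ A, (S a X : ℝ) - A.card * (C / 68 * X) = ∑ a ∈ A, ((S a X : ℝ) - C / 68 * X) := by
    rw [Finset.sum_sub_distrib, Finset.sum_const, nsmul_eq_mul]
  rw [h1]
  refine (Finset.abs_sum_le_sum_abs _ _).trans ?_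
  calc ∑ a ∈ A, |(S a X : ℝ) - C / 68 * X| ≤ ∑ a ∈ A, er X := by
        refine Finset.sum_le_sum fun a ha => ?_
        exact S_asym (hA a ha).2 (hA a ha).1 X
    _ = A.card * er X := by rw [Finset.sum_const, nsmul_eq_mul]

theorem Dm_eq (X : ℕ) : (Dm X).card = SA Am X := by
  classical
  unfold SA
  congr 1
  ext n
  rw [FM.mem_Dm, isDm_iff, mem_filter, mem_Icc]
  constructor
  · rintro ⟨h1, h2, h3⟩
    exact ⟨⟨Nat.pos_of_ne_zero h2.ne_zero, h1⟩, h2, h3⟩
  · rintro ⟨⟨h0, h1⟩, h2, h3⟩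
    exact ⟨h1, h2, h3⟩

theorem Dp_eq (X : ℕ) : (Dp X).card = SA Ap X := by
  classical
  unfold SA
  congr 1
  ext n
  unfold Dp
  rw [mem_filter, isDp_iff, mem_filter, mem_Icc, mem_range]
  constructor
  · rintro ⟨h1, h2, h3⟩
    exact ⟨⟨Nat.pos_of_ne_zero h2.ne_zero, by omega⟩, h2, h3⟩
  · rintro ⟨⟨h0, h1⟩, h2, h3⟩
    exact ⟨by omega, h2, h3⟩

open Classical in
/-- odd squarefree numbers -/
noncomputable def Qset (X : ℕ) : Finset ℕ := (Icc 1 X).filter fun n => Squarefree n ∧ n % 2 = 1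

theorem mem_Qset {X n : ℕ} : n ∈ Qset X ↔ (1 ≤ n ∧ n ≤ X) ∧ Squarefree n ∧ n % 2 = 1 := by
  classical
  simp only [Qset, mem_filter, mem_Icc]

theorem Qset_card_le (X : ℕ) : (Qset X).card ≤ SA A32 X + SA A32 (X / 17) := by
  classical
  have h : Qset X ⊆ ((Icc 1 X).filter fun n => Squarefree n ∧ n % 68 ∈ A32) ∪
      ((Icc 1 (X / 17)).filter fun n => Squarefree n ∧ n % 68 ∈ A32).image (fun m => 17 * m) := by
    intro n hn
    obtain ⟨⟨h1, h2⟩, h3, h4⟩ := mem_Qset.1 hn
    have hcop : ∀ m : ℕ, m % 2 = 1 → ¬ 17 ∣ m → m % 68 ∈ A32 := by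
      intro m hm hm'
      rw [A32, mem_filter, mem_range]
      refine ⟨Nat.mod_lt _ (by norm_num), ?_⟩
      have h5 : m.Coprime 68 := by
        rw [show (68 : ℕ) = 2 ^ 2 * 17 from rfl]
        refine Nat.Coprime.mul_right (Nat.Coprime.pow_right 2 ?_) ?_
        · rw [Nat.coprime_two_right, Nat.odd_iff]; exact hm
        · rw [Nat.coprime_comm, Nat.Prime.coprime_iff_not_dvd (by norm_num)]
          exact hm'
      have h6 : Nat.gcd m 68 = Nat.gcd (m % 68) 68 := by
        rw [Nat.gcd_comm, Nat.gcd_rec]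
      rw [Nat.Coprime, ← h6]
      exact h5
    rw [mem_union]
    by_cases h17 : 17 ∣ n
    · right
      obtain ⟨m, rfl⟩ := h17
      rw [mem_image]
      refine ⟨m, ?_, rfl⟩
      rw [mem_filter, mem_Icc]
      have hsq : Squarefree m := h3.squarefree_of_dvd (dvd_mul_left m 17)
      refine ⟨⟨Nat.pos_of_ne_zero hsq.ne_zero, ?_⟩, hsq, hcop m (by omega) ?_⟩
      · omega
      · intro h
        have := Nat.coprime_of_squarefree_mul h3
        have h5 : 17 ∣ Nat.gcd 17 m := Nat.dvd_gcd dvd_rfl h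
        rw [this] at h5
        norm_num at h5
    · left
      rw [mem_filter, mem_Icc]
      exact ⟨⟨h1, h2⟩, h3, hcop n h4 h17⟩
  unfold SA
  refine (Finset.card_le_card h).trans ((Finset.card_union_le _ _).trans ?_)
  exact Nat.add_le_add_left Finset.card_image_le _

theorem C_le : |C| ≤ 2 := by
  have h := C_tail 0
  simp only [Nat.cast_zero, zero_add, div_one] at h
  have h1 : ∑ d ∈ Icc 1 0, cf d = 0 := by simp
  rwa [h1, sub_zero] at h

theorem A32_ok : ∀ a ∈ A32, a < 68 ∧ a.Coprime 68 := by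
  intro a ha
  rw [A32, mem_filter, mem_range] at ha
  exact ha

/-- upper bound for the number of odd squarefree numbers -/
theorem Q_le (X Y : ℕ) (k : ℝ) (hk : 0 ≤ k) (hXY : X ≤ Y) (hk1 : (X : ℝ) ≤ k * Y)
    (hk2 : k * Y - 1 ≤ X) :
    ((Qset X).card : ℝ) ≤ 144 / 289 * C * (k * Y) + 64 * er Y + 4 := by
  have h1 : ((Qset X).card : ℝ) ≤ SA A32 X + SA A32 (X / 17) := by exact_mod_cast Qset_card_le X
  have h2 := (abs_le.1 (SA_asym A32_ok X)).2
  have h3 := (abs_le.1 (SA_asym A32_ok (X / 17))).2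
  rw [card_A32] at h2 h3
  have h4 := er_mono hXY
  have h5 := er_mono ((Nat.div_le_self X 17).trans hXY)
  have h6 : |((X / 17 : ℕ) : ℝ) - X / 17| ≤ 1 := by
    have h7 : (X : ℝ) = 17 * ((X / 17 : ℕ) : ℝ) + ((X % 17 : ℕ) : ℝ) := by
      exact_mod_cast (Nat.div_add_mod X 17).symm
    have h8 : ((X % 17 : ℕ) : ℝ) < 17 := by exact_mod_cast Nat.mod_lt X (by norm_num)
    have h9 : (0 : ℝ) ≤ ((X % 17 : ℕ) : ℝ) := by positivity
    rw [abs_le]
    constructor <;> linarith
  have h7 : |(X : ℝ) - k * Y| ≤ 1 := by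
    rw [abs_le]; constructor <;> linarith
  have hC := C_le
  -- replace `X / 17` by its real value, and `X` by `k Y`
  have h8 : C * ((X / 17 : ℕ) : ℝ) ≤ C * (X / 17) + 2 := by
    have : C * (((X / 17 : ℕ) : ℝ) - X / 17) ≤ 2 := by
      calc C * (((X / 17 : ℕ) : ℝ) - X / 17) ≤ |C * (((X / 17 : ℕ) : ℝ) - X / 17)| := le_abs_self _
        _ = |C| * |((X / 17 : ℕ) : ℝ) - X / 17| := abs_mul _ _
        _ ≤ 2 * 1 := mul_le_mul hC h6 (abs_nonneg _) (by norm_num)
        _ = 2 := by norm_num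
    linarith
  have h9 : C * (X : ℝ) ≤ C * (k * Y) + 2 := by
    have : C * ((X : ℝ) - k * Y) ≤ 2 := by
      calc C * ((X : ℝ) - k * Y) ≤ |C * ((X : ℝ) - k * Y)| := le_abs_self _
        _ = |C| * |(X : ℝ) - k * Y| := abs_mul _ _
        _ ≤ 2 * 1 := mul_le_mul hC h7 (abs_nonneg _) (by norm_num)
        _ = 2 := by norm_num
    linarith
  push_cast at h2 h3
  linarith

/-- the fundamental discriminants -/
theorem Fam_card_le (X : ℕ) : (Fam X).card ≤ (Qset X).card + (Qset (X / 4)).card +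
    2 * (Qset (X / 8)).card := by
  classical
  have h : Fam X ⊆ (((Qset X).image (fun n : ℕ => if n % 4 = 1 then (n : ℤ) else -(n : ℤ))) ∪
      ((Qset (X / 4)).image (fun n : ℕ => if n % 4 = 3 then 4 * (n : ℤ) else -(4 * (n : ℤ))))) ∪
      (((Qset (X / 8)).image (fun n : ℕ => 8 * (n : ℤ))) ∪
        ((Qset (X / 8)).image (fun n : ℕ => -(8 * (n : ℤ))))) := by
    intro D hD
    have hD' : D ∈ Finset.Icc (-(X : ℤ)) X ∧ IsFund D := by
      unfold Fam at hD
      exact Finset.mem_filter.1 hD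
    obtain ⟨hD1, hD2⟩ := hD'
    rw [Finset.mem_Icc] at hD1
    rw [mem_union, mem_union, mem_union]
    obtain ⟨-, h | ⟨d, rfl, hd, hsq⟩⟩ := hD2
    · obtain ⟨h4, hsq⟩ := h
      left; left
      rw [mem_image]
      refine ⟨D.natAbs, ?_, ?_⟩
      · rw [mem_Qset]
        refine ⟨⟨?_, ?_⟩, Int.squarefree_natAbs.2 hsq, ?_⟩ <;> omega
      · split_ifs <;> omega
    · have hsqn : Squarefree d.natAbs := Int.squarefree_natAbs.2 hsq
      rcases hd with hd | hd
      · -- `d = 2 mod 4`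
        obtain ⟨m, hm⟩ : (2 : ℤ) ∣ d := by omega
        have hm2 : Squarefree m.natAbs := by
          refine hsqn.squarefree_of_dvd ?_
          rw [hm, Int.natAbs_mul]
          exact dvd_mul_left _ _
        right
        rcases le_or_gt 0 m with h0 | h0
        · left
          rw [mem_image]
          refine ⟨m.natAbs, ?_, by omega⟩
          rw [mem_Qset]
          refine ⟨⟨?_, ?_⟩, hm2, ?_⟩ <;> omega
        · right
          rw [mem_image]
          refine ⟨m.natAbs, ?_, by omega⟩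
          rw [mem_Qset]
          refine ⟨⟨?_, ?_⟩, hm2, ?_⟩ <;> omega
      · left; right
        rw [mem_image]
        refine ⟨d.natAbs, ?_, ?_⟩
        · rw [mem_Qset]
          refine ⟨⟨?_, ?_⟩, hsqn, ?_⟩ <;> omega
        · split_ifs <;> omega
  refine (Finset.card_le_card h).trans ?_
  refine (Finset.card_union_le _ _).trans ?_
  have h1 := Finset.card_union_le ((Qset X).image (fun n : ℕ => if n % 4 = 1 then (n : ℤ) else -(n : ℤ)))
    ((Qset (X / 4)).image (fun n : ℕ => if n % 4 = 3 then 4 * (n : ℤ) else -(4 * (n : ℤ))))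
  have h2 := Finset.card_union_le ((Qset (X / 8)).image (fun n : ℕ => 8 * (n : ℤ)))
    ((Qset (X / 8)).image (fun n : ℕ => -(8 * (n : ℤ))))
  have h3 := Finset.card_image_le (s := Qset X) (f := fun n : ℕ => if n % 4 = 1 then (n : ℤ) else -(n : ℤ))
  have h4 := Finset.card_image_le (s := Qset (X / 4))
    (f := fun n : ℕ => if n % 4 = 3 then 4 * (n : ℤ) else -(4 * (n : ℤ)))
  have h5 := Finset.card_image_le (s := Qset (X / 8)) (f := fun n : ℕ => 8 * (n : ℤ))
  have h6 := Finset.card_image_le (s := Qset (X / 8)) (f := fun n : ℕ => -(8 * (n : ℤ)))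
  omega

theorem div_near (X k : ℕ) (hk : 0 < k) : (((X / k : ℕ) : ℝ) ≤ 1 / k * X) ∧
    (1 / (k : ℝ) * X - 1 ≤ ((X / k : ℕ) : ℝ)) := by
  have hk' : (0 : ℝ) < k := by exact_mod_cast hk
  have h7 : (X : ℝ) = k * ((X / k : ℕ) : ℝ) + ((X % k : ℕ) : ℝ) := by
    exact_mod_cast (Nat.div_add_mod X k).symm
  have h8 : ((X % k : ℕ) : ℝ) < k := by exact_mod_cast Nat.mod_lt X hk
  have h9 : (0 : ℝ) ≤ ((X % k : ℕ) : ℝ) := by positivity
  constructor
  · rw [h7]
    have : 1 / (k : ℝ) * (k * ((X / k : ℕ) : ℝ) + ((X % k : ℕ) : ℝ)) =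
        ((X / k : ℕ) : ℝ) + ((X % k : ℕ) : ℝ) / k := by field_simp
    rw [this]
    have : 0 ≤ ((X % k : ℕ) : ℝ) / k := by positivity
    linarith
  · have : 1 / (k : ℝ) * X = ((X / k : ℕ) : ℝ) + ((X % k : ℕ) : ℝ) / k := by
      rw [h7]; field_simp
    rw [this]
    have : ((X % k : ℕ) : ℝ) / k ≤ 1 := by rw [div_le_one hk']; exact h8.le
    linarith

theorem Fam_le (X : ℕ) : ((Fam X).card : ℝ) ≤ 216 / 289 * C * X + 256 * er X + 16 := by
  have h := Fam_card_le X
  have h' : ((Fam X).card : ℝ) ≤ (Qset X).card + (Qset (X / 4)).card +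
    2 * (Qset (X / 8)).card := by exact_mod_cast h
  have h1 := Q_le X X 1 (by norm_num) le_rfl (by linarith) (by linarith)
  have h2 := Q_le (X / 4) X (1 / 4) (by norm_num) (Nat.div_le_self _ _)
    (by have := (div_near X 4 (by norm_num)).1; push_cast at this; exact this)
    (by have := (div_near X 4 (by norm_num)).2; push_cast at this; exact this)
  have h3 := Q_le (X / 8) X (1 / 8) (by norm_num) (Nat.div_le_self _ _)
    (by have := (div_near X 8 (by norm_num)).1; push_cast at this; exact this)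
    (by have := (div_near X 8 (by norm_num)).2; push_cast at this; exact this)
  linarith

theorem card_Am : Am.card = 8 := by decide
theorem card_Ap : Ap.card = 8 := by decide

theorem Dm_ge (X : ℕ) : 17 / 108 * ((Fam X).card : ℝ) - (50 * er X + 3) ≤ (Dm X).card := by
  have h1 := (abs_le.1 (SA_asym Am_ok X)).1
  rw [card_Am, ← Dm_eq] at h1
  have h2 := Fam_le X
  have h3 := er_pos X
  push_cast at h1
  linarith

theorem Dp_ge (X : ℕ) : 17 / 108 * ((Fam X).card : ℝ) - (50 * er X + 3) ≤ (Dp X).card := by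
  have h1 := (abs_le.1 (SA_asym Ap_ok X)).1
  rw [card_Ap, ← Dp_eq] at h1
  have h2 := Fam_le X
  have h3 := er_pos X
  push_cast at h1
  linarith

end Vale.Agent.P014.H687.Sqf
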