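import Vale.Agent.P004H.H833.Dim1

/-!
# P014 (H687): holomorphic functions on `Γ₀(17) \ ℍ`

Level `17` version of `P004H/H833/Dim1`.
-/

open UpperHalfPlane hiding I
open Complex Real MatrixGroups ModularForm CongruenceSubgroup Filter Asymptotics Manifold
open Matrix.SpecialLinearGroup (mapGL)
open scoped Topology

namespace Vale.Agent.P014.H687

open Vale.Agent.P004H.H833 (T_zpow_ten slash_zero mdiff_div bdd_div slash_T_zpow_apply periodic_of
  STS_ten eta_lower)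

/-- Every element of `SL(2,ℤ)` lies in `Γ₀(17)` or in some `Γ₀(17) S T^j`. -/
theorem cases17 (g : SL(2, ℤ)) : g ∈ Gamma0 17 ∨
    ∃ g0 ∈ Gamma0 17, ∃ j : ℤ, g = g0 * (ModularGroup.S * ModularGroup.T ^ j) := by
  by_cases h : g ∈ Gamma0 17
  · exact Or.inl h
  · right
    rw [Gamma0_mem] at h
    have : Fact (Nat.Prime 17) := ⟨by norm_num⟩
    obtain ⟨j, hj⟩ : ∃ j : ℤ, ((g 1 0 * j - g 1 1 : ℤ) : ZMod 17) = 0 := by
      refine ⟨((((g 1 1 : ℤ) : ZMod 17) * ((g 1 0 : ℤ) : ZMod 17)⁻¹).val : ℤ), ?_⟩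
      push_cast
      rw [ZMod.natCast_zmod_val]
      field_simp
      ring
    refine ⟨g * (ModularGroup.S * ModularGroup.T ^ j)⁻¹, ?_, j, by group⟩
    rw [Gamma0_mem, ← hj]
    congr 1
    simp [Matrix.mul_apply, Fin.sum_univ_two, ModularGroup.coe_T_zpow, ModularGroup.coe_S,
      Matrix.adjugate_fin_two, sub_eq_add_neg]

theorem bdd_slash {k : ℤ} {G : ℍ → ℂ} (hG : ∀ g ∈ Gamma0 17, G ∣[k] g = G)
    (hinf : IsBoundedAtImInfty G) (h0 : IsBoundedAtImInfty (G ∣[k] ModularGroup.S))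
    (g : SL(2, ℤ)) : IsBoundedAtImInfty (G ∣[k] g) := by
  rcases cases17 g with h | ⟨g0, h0', j, rfl⟩
  · rwa [hG g h]
  · rw [SlashAction.slash_mul, hG g0 h0', SlashAction.slash_mul]
    rw [ModularForm.SL_slash]
    exact h0.slash _ (T_zpow_ten j)

theorem zero_slash {k : ℤ} {G : ℍ → ℂ} (hG : ∀ g ∈ Gamma0 17, G ∣[k] g = G)
    (hinf : IsZeroAtImInfty G) (h0 : IsZeroAtImInfty (G ∣[k] ModularGroup.S))
    (g : SL(2, ℤ)) : IsZeroAtImInfty (G ∣[k] g) := by
  rcases cases17 g with h | ⟨g0, h0', j, rfl⟩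
  · rwa [hG g h]
  · rw [SlashAction.slash_mul, hG g0 h0', SlashAction.slash_mul]
    rw [ModularForm.SL_slash]
    exact h0.slash _ (T_zpow_ten j)

/-- A holomorphic `Γ₀(17)`-invariant function bounded at both cusps is constant. -/
theorem zero_of (G : ℍ → ℂ) (hG : MDiff G)
    (hinv : ∀ g ∈ Gamma0 17, ∀ z : ℍ, G (g • z) = G z)
    (hinf : IsBoundedAtImInfty G)
    (h0 : IsBoundedAtImInfty fun z : ℍ => G (ModularGroup.S • z)) :
    ∃ c, ∀ z, G z = c := by
  have hs : ∀ g ∈ Gamma0 17, G ∣[(0 : ℤ)] g = G := by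
    intro g hg
    rw [slash_zero]
    exact funext (hinv g hg)
  have hb := bdd_slash hs hinf (by rw [slash_zero]; exact h0)
  let f : ModularForm ((Gamma0 17).map (mapGL ℝ)) 0 :=
    { toFun := G
      slash_action_eq' := by
        rintro _ ⟨g, hg, rfl⟩
        exact hs g hg
      holo' := hG
      bdd_at_cusps' := by
        intro c hc
        rw [Subgroup.IsArithmetic.isCusp_iff_isCusp_SL2Z] at hc
        rw [OnePoint.isBoundedAt_iff_forall_SL2Z hc]
        intro g _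
        exact hb g }
  obtain ⟨c, hc⟩ := ModularForm.eq_const_of_weight_zero f
  exact ⟨c, fun z => congrFun hc z⟩

theorem T_mem17 : ModularGroup.T ∈ Gamma0 17 := by
  rw [Gamma0_mem]
  simp [ModularGroup.T]

theorem per_one {f : ℍ → ℂ} {k : ℤ} (hf : ∀ g ∈ Gamma0 17, f ∣[k] g = f) (z : ℍ) :
    f ((1 : ℝ) +ᵥ z) = f z := by
  have h1 : ModularGroup.T ^ (1 : ℤ) ∈ Gamma0 17 := by
    rw [Gamma0_mem, ModularGroup.coe_T_zpow]; simp
  have := slash_T_zpow_apply f k 1 z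
  rw [hf _ h1] at this
  simpa using this.symm

theorem per_sev {f : ℍ → ℂ} {k : ℤ} (hf : ∀ g ∈ Gamma0 17, f ∣[k] g = f) (z : ℍ) :
    (f ∣[k] ModularGroup.S) ((17 : ℝ) +ᵥ z) = (f ∣[k] ModularGroup.S) z := by
  have h1 : ModularGroup.S * ModularGroup.T ^ (17 : ℤ) * ModularGroup.S⁻¹ ∈ Gamma0 17 := by
    rw [Gamma0_mem, STS_ten]
    decide
  have h2 : (f ∣[k] ModularGroup.S) ∣[k] (ModularGroup.T ^ (17 : ℤ)) = f ∣[k] ModularGroup.S := by
    rw [← SlashAction.slash_mul]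
    conv_rhs => rw [← hf _ h1]
    rw [← SlashAction.slash_mul]
    congr 1
    group
  have := slash_T_zpow_apply (f ∣[k] ModularGroup.S) k 17 z
  rw [h2] at this
  simpa using this.symm

/-- General form: if `h` is `Γ₀(17)`-invariant of weight `k`, holomorphic and `O(g)` at both cusps
where `g` is a nonvanishing holomorphic invariant function of weight `k`, then `h = c g`. -/
theorem eq_smul_of {k : ℤ} {h g : ℍ → ℂ} (hh : MDiff h) (hg : MDiff g) (g0 : ∀ z, g z ≠ 0)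
    (hi : ∀ γ ∈ Gamma0 17, h ∣[k] γ = h) (gi : ∀ γ ∈ Gamma0 17, g ∣[k] γ = g)
    (hO : h =O[atImInfty] g)
    (hOS : (h ∣[k] ModularGroup.S) =O[atImInfty] (g ∣[k] ModularGroup.S)) :
    ∃ c : ℂ, ∀ z : ℍ, h z = c * g z := by
  have key : ∀ (γ : SL(2, ℤ)) (z : ℍ), h (γ • z) / g (γ • z)
      = (h ∣[k] γ) z / (g ∣[k] γ) z := by
    intro γ z
    rw [SL_slash_apply, SL_slash_apply]
    have hd : (denom γ z) ^ (-k) ≠ 0 := zpow_ne_zero _ (denom_ne_zero γ z)
    exact (mul_div_mul_right _ _ hd).symm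
  have gS : ∀ z, (g ∣[k] ModularGroup.S) z ≠ 0 := by
    intro z
    rw [SL_slash_apply]
    exact mul_ne_zero (g0 _) (zpow_ne_zero _ (denom_ne_zero _ z))
  obtain ⟨c, hc⟩ := zero_of (fun z => h z / g z) (mdiff_div hh hg g0)
    (fun γ hγ z => by
      show h (γ • z) / g (γ • z) = h z / g z
      rw [key, hi γ hγ, gi γ hγ])
    (bdd_div hO g0)
    (by
      have := bdd_div hOS gS
      refine this.congr_left ?_
      intro z
      exact (key ModularGroup.S z).symm)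
  exact ⟨c, fun z => by rw [← hc z, div_mul_cancel₀ _ (g0 z)]⟩

/-! ### The discriminant -/

/-- `Δ` as a function on `ℂ` -/
noncomputable def Dc (z : ℂ) : ℂ := ModularForm.eta z ^ 24

theorem Dc_eq (z : ℍ) : Dc z = ModularForm.discriminant z := rfl

theorem Dc_ne {z : ℂ} (hz : 0 < z.im) : Dc z ≠ 0 := pow_ne_zero _ (ModularForm.eta_ne_zero hz)

theorem Dc_diff {z : ℂ} (hz : 0 < z.im) : DifferentiableAt ℂ Dc z :=
  (ModularForm.differentiableAt_eta_of_mem_upperHalfPlaneSet hz).pow 24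

theorem Dc_slash (γ : SL(2, ℤ)) : ModularForm.discriminant ∣[(12 : ℤ)] γ =
    ModularForm.discriminant :=
  SlashInvariantForm.slash_action_generators_SL2Z discriminant_S_invariant discriminant_T_invariant γ

theorem den_ne {a b c d : ℤ} (h : a * d - b * c = 1) {z : ℂ} (hz : 0 < z.im) :
    (c : ℂ) * z + d ≠ 0 := Vale.Agent.P004H.H792.den_ne' h hz

theorem exists_sl {a b c d : ℤ} (h : a * d - b * c = 1) :
    ∃ g : SL(2, ℤ), g 0 0 = a ∧ g 0 1 = b ∧ g 1 0 = c ∧ g 1 1 = d :=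
  ⟨⟨!![a, b; c, d], by rw [Matrix.det_fin_two_of]; exact h⟩, by simp, by simp, by simp, by simp⟩

theorem Dc_mob {a b c d : ℤ} (h : a * d - b * c = 1) {z : ℂ} (hz : 0 < z.im) :
    Dc ((a * z + b) / (c * z + d)) = (c * z + d) ^ 12 * Dc z := by
  obtain ⟨g, g00, g01, g10, g11⟩ := exists_sl h
  have h0 := den_ne h hz
  have h1 := congrFun (Dc_slash g) ⟨z, hz⟩
  rw [ModularForm.SL_slash_apply] at h1
  have h2 : ((g • (⟨z, hz⟩ : ℍ) : ℍ) : ℂ) = (a * z + b) / (c * z + d) := by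
    rw [UpperHalfPlane.specialLinearGroup_apply]
    simp [g00, g01, g10, g11]
  have h3 : UpperHalfPlane.denom g (⟨z, hz⟩ : ℍ) = c * z + d := by
    simp [UpperHalfPlane.denom, g10, g11]
  rw [h3, ← Dc_eq, ← Dc_eq, h2, zpow_neg, ← div_eq_mul_inv,
    div_eq_iff (zpow_ne_zero _ h0)] at h1
  rw [h1, mul_comm]
  norm_cast

theorem im17 {z : ℂ} (hz : 0 < z.im) : 0 < (17 * z).im := by
  have h : (17 * z).im = 17 * z.im := by simp
  rw [h]
  positivity

theorem im_div17 {z : ℂ} (hz : 0 < z.im) : 0 < (z / 17).im := by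
  have h : (z / 17).im = z.im / 17 := by
    rw [show z / 17 = ((1 / 17 : ℝ) : ℂ) * z by push_cast; ring, im_ofReal_mul]
    ring
  rw [h]
  positivity

/-- `Δ(z)^m Δ(17 z)^n` -/
noncomputable def GG (m n : ℕ) (z : ℂ) : ℂ := Dc z ^ m * Dc (17 * z) ^ n

theorem GG_ne (m n : ℕ) {z : ℂ} (hz : 0 < z.im) : GG m n z ≠ 0 :=
  mul_ne_zero (pow_ne_zero _ (Dc_ne hz)) (pow_ne_zero _ (Dc_ne (im17 hz)))

theorem GG_diff (m n : ℕ) {z : ℂ} (hz : 0 < z.im) : DifferentiableAt ℂ (GG m n) z := by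
  have h2 : DifferentiableAt ℂ (fun w : ℂ => Dc (17 * w)) z :=
    DifferentiableAt.comp z (Dc_diff (im17 hz)) (by fun_prop)
  exact ((Dc_diff hz).pow m).mul (h2.pow n)

theorem GG_mob (m n : ℕ) {a b c d : ℤ} (h : a * d - b * (17 * c) = 1) {z : ℂ} (hz : 0 < z.im) :
    GG m n ((a * z + b) / ((17 * c : ℤ) * z + d)) =
      ((17 * c : ℤ) * z + d) ^ (12 * (m + n)) * GG m n z := by
  have h1 := Dc_mob h hz
  have h2 := Dc_mob (a := a) (b := 17 * b) (c := c) (d := d) (by linarith) (im17 hz)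
  have h3 := den_ne h hz
  have h4 := den_ne (a := a) (b := 17 * b) (c := c) (d := d) (by linarith) (im17 hz)
  unfold GG
  rw [show 17 * ((a * z + b) / (((17 * c : ℤ) : ℂ) * z + d)) =
    (a * (17 * z) + ((17 * b : ℤ) : ℂ)) / (c * (17 * z) + d) by
      rw [mul_div_assoc', div_eq_div_iff h3 h4]
      push_cast
      ring]
  rw [h1, h2]
  have h7 : (c : ℂ) * (17 * z) + d = ((17 * c : ℤ) : ℂ) * z + d := by push_cast; ring
  rw [h7]
  generalize ((17 * c : ℤ) : ℂ) * z + d = j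
  rw [mul_pow, mul_pow, ← pow_mul, ← pow_mul, mul_add, pow_add]
  ring

/-- the value at `-1/z` -/
theorem GG_S (m n : ℕ) {z : ℂ} (hz : 0 < z.im) :
    GG m n (-1 / z) = (1 / 17) ^ (12 * n) * z ^ (12 * (m + n)) * (Dc z ^ m * Dc (z / 17) ^ n) := by
  have h1 := Dc_mob (a := 0) (b := -1) (c := 1) (d := 0) (by norm_num) hz
  have h2 := Dc_mob (a := 0) (b := -1) (c := 1) (d := 0) (by norm_num) (im_div17 hz)
  simp only [Int.cast_zero, Int.cast_neg, Int.cast_one, zero_mul, zero_add, one_mul, add_zero]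
    at h1 h2
  have hz0 : z ≠ 0 := by
    rintro rfl
    simp at hz
  unfold GG
  rw [h1, show 17 * (-1 / z) = -1 / (z / 17) by field_simp, h2, div_eq_mul_one_div z,
    ← div_eq_mul_one_div]
  rw [mul_pow, mul_pow, div_pow, div_pow, one_div, inv_pow, ← pow_mul, ← pow_mul, ← pow_mul, mul_add,
    pow_add]
  ring

end Vale.Agent.P014.H687
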