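import Vale.Agent.P014.H687.Dim0
import Vale.Agent.P004H.H204.Quart

/-!
# P014 (H687): `S_2(Γ₀(17))` has dimension at most one
-/

open UpperHalfPlane hiding I
open Complex Real MatrixGroups ModularForm CongruenceSubgroup Filter Asymptotics Manifold
open Matrix.SpecialLinearGroup (mapGL)
open scoped Topology

namespace Vale.Agent.P014.H687

open Vale.Agent.P004H.H833 (T_zpow_ten slash_zero mdiff_div bdd_div slash_T_zpow_apply periodic_of
  STS_ten eta_lower)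

/-- the group `Γ₀(17)` in `GL(2, ℝ)` -/
abbrev Gm : Subgroup (GL (Fin 2) ℝ) := (Gamma0 17).map (mapGL ℝ)

/-- `GG` on the upper half plane -/
noncomputable def GH (m n : ℕ) (z : ℍ) : ℂ := GG m n z

theorem GH_mdiff (m n : ℕ) : MDiff (GH m n) := by
  rw [UpperHalfPlane.mdifferentiable_iff]
  intro z hz
  have hz' : 0 < z.im := hz
  refine (DifferentiableAt.congr_of_eventuallyEq (GG_diff m n hz') ?_).differentiableWithinAt
  filter_upwards [isOpen_upperHalfPlaneSet.mem_nhds hz] with w hw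
  have hw' : 0 < w.im := hw
  simp [GH, ofComplex_apply_of_im_pos hw']

theorem smul_coe (g : SL(2, ℤ)) (z : ℍ) : ((g • z : ℍ) : ℂ) =
    ((g 0 0 : ℤ) * z + (g 0 1 : ℤ)) / ((g 1 0 : ℤ) * z + (g 1 1 : ℤ)) := by
  rw [UpperHalfPlane.specialLinearGroup_apply]
  simp

theorem denom_coe (g : SL(2, ℤ)) (z : ℍ) : UpperHalfPlane.denom g z =
    ((g 1 0 : ℤ) * z + (g 1 1 : ℤ)) := by
  simp [UpperHalfPlane.denom]

theorem det_eq (g : SL(2, ℤ)) : g 0 0 * g 1 1 - g 0 1 * g 1 0 = 1 :=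
  Vale.Agent.P004H.H792.det_eq g

/-- a function with the transformation law of explicit entries is invariant -/
theorem slash_of_mob {k : ℕ} {G : ℂ → ℂ}
    (hG : ∀ (a b c d : ℤ), a * d - b * (17 * c) = 1 → ∀ z : ℂ, 0 < z.im →
      G ((a * z + b) / ((17 * c : ℤ) * z + d)) = ((17 * c : ℤ) * z + d) ^ k * G z)
    (g : SL(2, ℤ)) (hg : g ∈ Gamma0 17) :
    (fun z : ℍ => G z) ∣[(k : ℤ)] g = fun z : ℍ => G z := by
  ext z
  rw [Gamma0_mem] at hg
  obtain ⟨c, hc⟩ := (ZMod.intCast_zmod_eq_zero_iff_dvd (g 1 0) 17).1 hg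
  have h := det_eq g
  have hc' : g 1 0 = 17 * c := by rw [hc]; norm_num
  rw [hc'] at h
  have h3 := den_ne h z.2
  rw [ModularForm.SL_slash_apply, smul_coe, denom_coe, hc', hG _ _ _ _ h z z.2, zpow_neg,
    zpow_natCast]
  field_simp

theorem GH_slash (m n : ℕ) (g : SL(2, ℤ)) (hg : g ∈ Gamma0 17) :
    GH m n ∣[((12 * (m + n) : ℕ) : ℤ)] g = GH m n :=
  slash_of_mob (fun _ _ _ _ h _ hz => GG_mob m n h hz) g hg

theorem slash_S_apply' {k : ℕ} (G : ℂ → ℂ) (z : ℍ) :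
    ((fun z : ℍ => G z) ∣[(k : ℤ)] ModularGroup.S) z = ((z : ℂ) ^ k)⁻¹ * G (-1 / z) := by
  rw [ModularForm.SL_slash_apply, smul_coe, denom_coe, zpow_neg, zpow_natCast, mul_comm]
  simp [ModularGroup.S]

theorem GH_S (m n : ℕ) (z : ℍ) : (GH m n ∣[((12 * (m + n) : ℕ) : ℤ)] ModularGroup.S) z =
    (1 / 17) ^ (12 * n) * (Dc z ^ m * Dc (z / 17) ^ n) := by
  have h := slash_S_apply' (k := 12 * (m + n)) (GG m n) z
  have h0 : (z : ℂ) ≠ 0 := z.ne_zero
  rw [GG_S m n z.2] at h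
  rw [show GH m n = fun z : ℍ => GG m n z from rfl, h]
  field_simp

theorem Dc_lower : ∃ C > 0, ∃ A > 0, ∀ z : ℂ, A ≤ z.im →
    Real.exp (-2 * π * z.im) ≤ C * ‖Dc z‖ := by
  obtain ⟨C, hC, A, hA, h⟩ := eta_lower
  refine ⟨C, hC, A, hA, fun z hz => ?_⟩
  rw [Dc, norm_pow]
  exact h z hz

theorem im_17 (z : ℂ) : (17 * z).im = 17 * z.im := by simp

theorem im_d17 (z : ℂ) : (z / 17).im = z.im / 17 := by
  rw [show z / 17 = ((1 / 17 : ℝ) : ℂ) * z by push_cast; ring, im_ofReal_mul]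
  ring

theorem two_pow_le {x y C X Y : ℝ} (h1 : x ≤ C * X) (h2 : y ≤ C * Y) (hx : 0 ≤ x) (hy : 0 ≤ y)
    (m n : ℕ) : x ^ m * y ^ n ≤ C ^ m * C ^ n * (X ^ m * Y ^ n) := by
  have h3 : x ^ m ≤ (C * X) ^ m := pow_le_pow_left₀ hx h1 m
  have h4 : y ^ n ≤ (C * Y) ^ n := pow_le_pow_left₀ hy h2 n
  calc x ^ m * y ^ n ≤ (C * X) ^ m * (C * Y) ^ n :=
        mul_le_mul h3 h4 (pow_nonneg hy n) (pow_nonneg (hx.trans h1) m)
    _ = _ := by rw [mul_pow, mul_pow]; ring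

/-- lower bound at `i∞` -/
theorem GH_lower (m n : ℕ) :
    (fun τ : ℍ => Real.exp (-2 * π * ((m + 17 * n : ℕ) : ℝ) * τ.im)) =O[atImInfty] GH m n := by
  obtain ⟨C, hC, A, hA0, hA⟩ := Dc_lower
  refine IsBigO.of_bound (C ^ m * C ^ n) ?_
  rw [UpperHalfPlane.atImInfty_basis.eventually_iff]
  refine ⟨A, trivial, fun τ hτ => ?_⟩
  have hτ' : A ≤ (τ : ℂ).im := hτ
  rw [Real.norm_eq_abs, abs_of_pos (Real.exp_pos _)]
  have h1 := hA τ hτ'
  have h2 := hA (17 * τ) (by rw [im_17]; linarith)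
  rw [im_17] at h2
  have e : Real.exp (-2 * π * ((m + 17 * n : ℕ) : ℝ) * τ.im) =
      Real.exp (-2 * π * (τ : ℂ).im) ^ m * Real.exp (-2 * π * (17 * (τ : ℂ).im)) ^ n := by
    rw [← Real.exp_nat_mul, ← Real.exp_nat_mul, ← Real.exp_add]
    congr 1
    push_cast
    rw [UpperHalfPlane.coe_im]
    ring
  rw [e, GH, GG, norm_mul, norm_pow, norm_pow]
  exact two_pow_le h1 h2 (Real.exp_pos _).le (Real.exp_pos _).le m n

/-- lower bound at the cusp `0` -/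
theorem GHS_lower (m n : ℕ) :
    (fun τ : ℍ => Real.exp (-2 * π * (17 * m + n : ℕ) * τ.im / 17)) =O[atImInfty]
      (GH m n ∣[((12 * (m + n) : ℕ) : ℤ)] ModularGroup.S) := by
  obtain ⟨C, hC, A, hA0, hA⟩ := Dc_lower
  refine IsBigO.of_bound (17 ^ (12 * n) * (C ^ m * C ^ n)) ?_
  rw [UpperHalfPlane.atImInfty_basis.eventually_iff]
  refine ⟨17 * A, trivial, fun τ hτ => ?_⟩
  have hτ' : 17 * A ≤ (τ : ℂ).im := hτ
  rw [Real.norm_eq_abs, abs_of_pos (Real.exp_pos _)]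
  have h1 := hA τ (by linarith)
  have h2 := hA (τ / 17) (by rw [im_d17]; linarith)
  rw [im_d17] at h2
  have e : Real.exp (-2 * π * (17 * m + n : ℕ) * τ.im / 17) =
      Real.exp (-2 * π * (τ : ℂ).im) ^ m * Real.exp (-2 * π * ((τ : ℂ).im / 17)) ^ n := by
    rw [← Real.exp_nat_mul, ← Real.exp_nat_mul, ← Real.exp_add]
    congr 1
    push_cast
    rw [UpperHalfPlane.coe_im]
    ring
  have h17 : ‖((1 / 17 : ℂ)) ^ (12 * n)‖ = ((17 : ℝ) ^ (12 * n))⁻¹ := by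
    rw [norm_pow, norm_div, norm_one, one_div, inv_pow]
    norm_num
  rw [e, GH_S, norm_mul, norm_mul, norm_pow (Dc τ), norm_pow (Dc _), h17]
  have h5 : (17 : ℝ) ^ (12 * n) ≠ 0 := by positivity
  have h3 : (17 : ℝ) ^ (12 * n) * (C ^ m * C ^ n) * (((17 : ℝ) ^ (12 * n))⁻¹ *
      (‖Dc τ‖ ^ m * ‖Dc (τ / 17)‖ ^ n)) = C ^ m * C ^ n * (‖Dc τ‖ ^ m * ‖Dc (τ / 17)‖ ^ n) := by
    generalize (17 : ℝ) ^ (12 * n) = w at h5
    field_simp
  rw [h3]
  exact two_pow_le h1 h2 (Real.exp_pos _).le (Real.exp_pos _).le m n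

theorem pow_slash {h : ℍ → ℂ} {k : ℤ} (n : ℕ) (γ : SL(2, ℤ)) :
    (fun z => h z ^ n) ∣[(n * k : ℤ)] γ = fun z => (h ∣[k] γ) z ^ n := by
  ext z
  rw [ModularForm.SL_slash_apply, ModularForm.SL_slash_apply, mul_pow, ← zpow_natCast (_ ^ (-k)),
    ← zpow_mul]
  congr 2
  ring

theorem mdiff_pow {h : ℍ → ℂ} (hh : MDiff h) (n : ℕ) : MDiff (fun z => h z ^ n) := by
  rw [UpperHalfPlane.mdifferentiable_iff] at hh ⊢
  exact hh.pow n

/-- the elliptic point `(4 + i) / 17` -/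
noncomputable def z0 : ℍ := ⟨(4 + I) / 17, by
  rw [im_d17]
  simp⟩

theorem z0_coe : (z0 : ℂ) = (4 + I) / 17 := rfl

/-- invariant functions of weight two vanish at the elliptic points -/
theorem elliptic_zero {h : ℍ → ℂ} (hi : ∀ γ ∈ Gamma0 17, h ∣[(2 : ℤ)] γ = h) : h z0 = 0 := by
  obtain ⟨g, g00, g01, g10, g11⟩ := exists_sl (a := 4) (b := -1) (c := 17) (d := -4) (by norm_num)
  have hg : g ∈ Gamma0 17 := by
    rw [Gamma0_mem, g10]
    decide
  have h1 := congrFun (hi g hg) z0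
  have hd : ((17 : ℤ) : ℂ) * ((4 + I) / 17) + ((-4 : ℤ) : ℂ) = I := by
    push_cast
    ring
  have h2 : g • z0 = z0 := by
    apply UpperHalfPlane.ext
    rw [smul_coe, z0_coe, g00, g01, g10, g11, hd, div_eq_iff I_ne_zero]
    push_cast
    linear_combination (-1 / 17) * I_sq
  rw [ModularForm.SL_slash_apply, h2, denom_coe, z0_coe, g10, g11, hd, zpow_neg, zpow_ofNat,
    I_sq] at h1
  have h3 : h z0 * (-1) = h z0 := by
    nth_rewrite 2 [← h1]
    norm_num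
  linear_combination (-1 / 2) * h3

/-- **main vanishing lemma** -/
theorem zero_of_decay {h : ℍ → ℂ} (hh : MDiff h) (hi : ∀ γ ∈ Gamma0 17, h ∣[(2 : ℤ)] γ = h)
    (h1 : h =O[atImInfty] fun τ => Real.exp (-2 * π * 2 * τ.im))
    (h2 : (h ∣[(2 : ℤ)] ModularGroup.S) =O[atImInfty] fun τ => Real.exp (-2 * π * τ.im / 17))
    (z : ℍ) : h z = 0 := by
  have hk : ((96 : ℕ) * 2 : ℤ) = ((12 * (5 + 11) : ℕ) : ℤ) := by norm_num
  obtain ⟨c, hc⟩ := eq_smul_of (k := ((12 * (5 + 11) : ℕ) : ℤ)) (h := fun z => h z ^ 96)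
    (g := GH 5 11) (mdiff_pow hh 96) (GH_mdiff 5 11) (fun z => GG_ne 5 11 z.2)
    (fun γ hγ => by
      rw [← hk, pow_slash, hi γ hγ]) (GH_slash 5 11)
    (by
      refine (h1.pow 96).trans ((isBigO_refl _ _).congr_left ?_ |>.trans (GH_lower 5 11))
      intro τ
      rw [← Real.exp_nat_mul]
      congr 1
      push_cast
      ring)
    (by
      rw [← hk, pow_slash]
      rw [hk]
      refine (h2.pow 96).trans ((isBigO_refl _ _).congr_left ?_ |>.trans (GHS_lower 5 11))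
      intro τ
      rw [← Real.exp_nat_mul]
      congr 1
      push_cast
      ring)
  have h3 : h z0 ^ 96 = c * GH 5 11 z0 := hc z0
  rw [elliptic_zero hi, zero_pow (by norm_num)] at h3
  have hc0 : c = 0 := by
    rcases mul_eq_zero.1 h3.symm with h | h
    · exact h
    · exact absurd h (GG_ne 5 11 z0.2)
  have h4 : h z ^ 96 = c * GH 5 11 z := hc z
  rw [hc0, zero_mul] at h4
  exact pow_eq_zero_iff (by norm_num) |>.1 h4

end Vale.Agent.P014.H687
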