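import Vale.Agent.P014.H687.Dim1
import Vale.Agent.P004H.H204.Fin
import Vale.Agent.P004H.H181.Mult

/-!
# P014 (H687): a form of weight two on `Γ₀(17)` with `a_0 = a_1 = 0` vanishes
-/

open UpperHalfPlane hiding I
open Complex Real MatrixGroups ModularForm CongruenceSubgroup Filter Asymptotics Manifold
open Matrix.SpecialLinearGroup (mapGL)
open scoped Topology

namespace Vale.Agent.P014.H687

open Vale.Agent.P004H.H833 (T_zpow_ten slash_zero mdiff_div bdd_div slash_T_zpow_apply periodic_of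
  STS_ten eta_lower)
open Vale.Agent.P004H.H204 (Conv ev conv_of qq norm_qq norm_qq_lt tendsto_qq)

/-! ### decay from the coefficients -/

theorem qParam_one (z : ℂ) : Function.Periodic.qParam 1 z = qq z := by
  unfold Function.Periodic.qParam qq
  congr 1
  push_cast
  ring

theorem decay_of_coeff {f : ℍ → ℂ} {c : ℕ → ℂ}
    (hf : ∀ τ : ℍ, HasSum (fun n => c n * qq τ ^ n) (f τ)) (m : ℕ) (h0 : ∀ k < m, c k = 0) :
    f =O[atImInfty] fun τ => Real.exp (-2 * π * m * τ.im) := by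
  set p : PowerSeries ℂ := PowerSeries.mk c with hp
  have hpc : ∀ n, PowerSeries.coeff n p = c n := fun n => PowerSeries.coeff_mk n c
  have hconv : Conv p := conv_of fun z hz => by
    simpa [hpc] using (hf ⟨z, hz⟩).summable
  obtain ⟨r, hr⟩ : (PowerSeries.X : PowerSeries ℂ) ^ m ∣ p :=
    PowerSeries.X_pow_dvd_iff.2 fun k hk => by rw [hpc, h0 k hk]
  have hcr : Conv r := Conv.of_X_pow_mul (m := m) (by rw [← hr]; exact hconv)
  obtain ⟨B, hB0, hB⟩ := hcr.bound
  have heq : ∀ τ : ℍ, f τ = qq τ ^ m * ev r (qq τ) := by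
    intro τ
    have h1 : f τ = ev p (qq τ) := by
      rw [ev]
      simp only [hpc]
      exact (hf τ).tsum_eq.symm
    have hn := norm_qq_lt τ.2
    have hX : ev (PowerSeries.X ^ m : PowerSeries ℂ) (qq τ) = qq τ ^ m := by
      have := (Vale.Agent.P004H.H204.evH (qq τ) hn).map_pow
        ⟨PowerSeries.X, Vale.Agent.P004H.H204.conv_X⟩ m
      rw [Vale.Agent.P004H.H204.evH_apply, Vale.Agent.P004H.H204.evH_apply,
        Vale.Agent.P004H.H204.ev_X] at this
      exact this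
    have hXc : Conv (PowerSeries.X ^ m : PowerSeries ℂ) :=
      Vale.Agent.P004H.H204.CR.pow_mem Vale.Agent.P004H.H204.conv_X m
    rw [h1, hr, Vale.Agent.P004H.H204.ev_mul hXc hcr hn, hX]
  refine IsBigO.of_bound B ?_
  have h2 : ∀ᶠ τ : ℍ in atImInfty, ‖qq (τ : ℂ)‖ ≤ 1 / 2 := by
    have h3 := tendsto_qq.norm
    rw [norm_zero] at h3
    exact h3.eventually_le_const (by norm_num)
  filter_upwards [h2] with τ hτ
  rw [heq, norm_mul, norm_pow, norm_qq, Real.norm_eq_abs, abs_of_pos (Real.exp_pos _),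
    ← Real.exp_nat_mul, mul_comm]
  have e : (m : ℝ) * -(2 * π * (τ : ℂ).im) = -2 * π * m * τ.im := by
    rw [UpperHalfPlane.coe_im]; ring
  rw [e]
  exact mul_le_mul_of_nonneg_right (hB _ hτ) (Real.exp_pos _).le

/-! ### values at the cusps -/

theorem tendsto_valueAtInfty {f : ℍ → ℂ} {h : ℝ} (hh : 0 < h) (hper : ∀ z : ℍ, f (h +ᵥ z) = f z)
    (hol : MDiff f) (hb : IsBoundedAtImInfty f) : Tendsto f atImInfty (𝓝 (valueAtInfty f)) := by
  have h1 := exp_decay_sub_atImInfty hh (periodic_of hper) hol hb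
  have h2 : Tendsto (fun τ : ℍ => Real.exp (-2 * π * τ.im / h)) atImInfty (𝓝 0) := by
    have h3 : Tendsto (fun τ : ℍ => 2 * π / h * τ.im) atImInfty atTop := by
      have h4 : Tendsto (fun τ : ℍ => τ.im) atImInfty atTop := tendsto_comap
      exact h4.const_mul_atTop (by positivity)
    refine (Real.tendsto_exp_neg_atTop_nhds_zero.comp h3).congr fun τ => ?_
    simp only [Function.comp_apply]
    congr 1
    field_simp
  have h5 := h1.trans_tendsto h2
  have h6 := h5.add_const (valueAtInfty f)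
  simpa using h6

section forms

variable (g : ModularForm Gm 2)

theorem slash_of_form (γ : SL(2, ℤ)) (hγ : γ ∈ Gamma0 17) : (g : ℍ → ℂ) ∣[(2 : ℤ)] γ = g :=
  SlashInvariantFormClass.slash_action_eq g _ ⟨γ, hγ, rfl⟩

theorem bdd_slash_form (γ : SL(2, ℤ)) : IsBoundedAtImInfty ((g : ℍ → ℂ) ∣[(2 : ℤ)] γ) :=
  ModularFormClass.bdd_at_infty_slash g γ

theorem mdiff_form : MDiff (g : ℍ → ℂ) := g.holo'

theorem mdiff_slash_form (γ : SL(2, ℤ)) : MDiff ((g : ℍ → ℂ) ∣[(2 : ℤ)] γ) := by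
  rw [ModularForm.SL_slash]
  exact (mdiff_form g).slash 2 _

/-- the value at the cusp `∞` -/
noncomputable def v0 : ℂ := valueAtInfty (g : ℍ → ℂ)

/-- the value at the cusp `0` -/
noncomputable def v1 : ℂ := valueAtInfty ((g : ℍ → ℂ) ∣[(2 : ℤ)] ModularGroup.S)

theorem tendsto_inf : Tendsto (g : ℍ → ℂ) atImInfty (𝓝 (v0 g)) := by
  refine tendsto_valueAtInfty one_pos (per_one (slash_of_form g)) (mdiff_form g) ?_
  have := bdd_slash_form g 1
  rwa [SlashAction.slash_one] at this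

theorem tendsto_S : Tendsto ((g : ℍ → ℂ) ∣[(2 : ℤ)] ModularGroup.S) atImInfty (𝓝 (v1 g)) :=
  tendsto_valueAtInfty (h := 17) (by norm_num) (per_sev (slash_of_form g))
    (mdiff_slash_form g _) (bdd_slash_form g _)

theorem tendsto_vadd (j : ℝ) : Tendsto (fun z : ℍ => j +ᵥ z) atImInfty atImInfty := by
  rw [atImInfty, tendsto_comap_iff]
  have : UpperHalfPlane.im ∘ (fun z : ℍ => j +ᵥ z) = UpperHalfPlane.im := by
    ext z
    simp
  rw [this]
  exact tendsto_comap

theorem tendsto_slash (γ : SL(2, ℤ)) :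
    Tendsto ((g : ℍ → ℂ) ∣[(2 : ℤ)] γ) atImInfty (𝓝 (v0 g)) ∨
      Tendsto ((g : ℍ → ℂ) ∣[(2 : ℤ)] γ) atImInfty (𝓝 (v1 g)) := by
  rcases cases17 γ with h | ⟨g0, hg0, j, rfl⟩
  · left
    rw [slash_of_form g γ h]
    exact tendsto_inf g
  · right
    rw [SlashAction.slash_mul, slash_of_form g g0 hg0, SlashAction.slash_mul]
    have h1 := (tendsto_S g).comp (tendsto_vadd (j : ℝ))
    refine h1.congr fun z => ?_
    rw [slash_T_zpow_apply]
    rfl

theorem trace_zero : (ModularForm.trace 𝒮ℒ g : ModularForm 𝒮ℒ 2) = 0 :=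
  rank_zero_iff_forall_zero.1 ModularForm.levelOne_weight_two_rank_zero _

theorem quot_eq (γ : SL(2, ℤ)) (hγ : mapGL ℝ γ ∈ (𝒮ℒ : Subgroup (GL (Fin 2) ℝ))) :
    SlashInvariantForm.quotientFunc g (⟦⟨mapGL ℝ γ, hγ⟩⟧ : 𝒮ℒ ⧸ (Gm.subgroupOf 𝒮ℒ)) =
          (g : ℍ → ℂ) ∣[(2 : ℤ)] (γ⁻¹ : SL(2, ℤ)) := by
  have h1 : (g : ℍ → ℂ) ∣[(2 : ℤ)] (mapGL ℝ γ)⁻¹ = (g : ℍ → ℂ) ∣[(2 : ℤ)] (γ⁻¹ : SL(2, ℤ)) := by
    rw [← map_inv]
    rfl
  exact h1

/-- the residue theorem -/
theorem v1_eq_zero (h0 : v0 g = 0) : v1 g = 0 := by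
  classical
  by_contra hne
  set Q := 𝒮ℒ ⧸ (Gm.subgroupOf 𝒮ℒ) with hQ
  have hfin : Finite Q := inferInstance
  let _ : Fintype Q := Fintype.ofFinite Q
  have htr : ∀ z : ℍ, ∑ q : Q, SlashInvariantForm.quotientFunc g q z = 0 := by
    intro z
    have h1 := congrArg (fun f : ModularForm 𝒮ℒ 2 => f z) (trace_zero g)
    simp only [ModularForm.coe_trace, Finset.sum_apply, _root_.zero_apply] at h1
    exact h1
  have hlim : ∀ q : Q, ∃ l : ℂ, (l = 0 ∨ l = v1 g) ∧
      Tendsto (SlashInvariantForm.quotientFunc g q) atImInfty (𝓝 l) := by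
    intro q
    induction q using Quotient.inductionOn with
    | h r =>
      obtain ⟨r, γ, rfl⟩ := r
      have h1 : SlashInvariantForm.quotientFunc g (⟦⟨mapGL ℝ γ, ⟨γ, rfl⟩⟩⟧ : Q) =
          (g : ℍ → ℂ) ∣[(2 : ℤ)] (γ⁻¹ : SL(2, ℤ)) := quot_eq g γ _
      rw [h1]
      rcases tendsto_slash g γ⁻¹ with h | h
      · exact ⟨0, Or.inl rfl, by rwa [h0] at h⟩
      · exact ⟨v1 g, Or.inr rfl, h⟩
  choose L hL1 hL2 using hlim
  have hsum : Tendsto (fun z : ℍ => ∑ q : Q, SlashInvariantForm.quotientFunc g q z) atImInfty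
      (𝓝 (∑ q : Q, L q)) := tendsto_finsetSum _ fun q _ => hL2 q
  have h2 : ∑ q : Q, L q = 0 := by
    have h3 : Tendsto (fun z : ℍ => ∑ q : Q, SlashInvariantForm.quotientFunc g q z) atImInfty
        (𝓝 0) := by
      simp only [htr]
      exact tendsto_const_nhds
    have : (atImInfty : Filter ℍ).NeBot := inferInstance
    exact tendsto_nhds_unique hsum h3
  have h4 : ∑ q : Q, L q = ((Finset.univ.filter fun q : Q => L q = v1 g).card : ℂ) * v1 g := by
    rw [← Finset.sum_filter_add_sum_filter_not Finset.univ (fun q : Q => L q = v1 g)]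
    rw [Finset.sum_congr rfl (g := fun _ => v1 g) (fun q hq => (Finset.mem_filter.1 hq).2),
      Finset.sum_const, nsmul_eq_mul, add_eq_left]
    refine Finset.sum_eq_zero fun q hq => ?_
    rcases hL1 q with h | h
    · exact h
    · exact absurd h (Finset.mem_filter.1 hq).2
  rw [h4] at h2
  have h5 : (Finset.univ.filter fun q : Q => L q = v1 g).card = 0 := by
    rcases mul_eq_zero.1 h2 with h | h
    · exact_mod_cast h
    · exact absurd h hne
  rw [Finset.card_eq_zero] at h5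
  set q0 : Q := ⟦⟨mapGL ℝ (ModularGroup.S⁻¹), ⟨ModularGroup.S⁻¹, rfl⟩⟩⟧ with hq0
  have h6 : L q0 = v1 g := by
    have h7 := hL2 q0
    have h8 : SlashInvariantForm.quotientFunc g q0 =
        (g : ℍ → ℂ) ∣[(2 : ℤ)] (ModularGroup.S : SL(2, ℤ)) := by
      have h9 := quot_eq g ModularGroup.S⁻¹ ⟨ModularGroup.S⁻¹, rfl⟩
      rw [inv_inv] at h9
      exact h9
    rw [h8] at h7
    have : (atImInfty : Filter ℍ).NeBot := inferInstance
    exact tendsto_nhds_unique h7 (tendsto_S g)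
  have h9 : q0 ∈ Finset.univ.filter fun q : Q => L q = v1 g :=
    Finset.mem_filter.2 ⟨Finset.mem_univ _, h6⟩
  rw [h5] at h9
  exact absurd h9 (Finset.notMem_empty _)

theorem hasSum_form (τ : ℍ) : HasSum (fun n => (qExpansion 1 g).coeff n * qq τ ^ n) (g τ) := by
  have h1 : (1 : ℝ) ∈ Gm.strictPeriods := by simp
  have : Fact (IsCusp OnePoint.infty Gm) := ⟨Gm.isCusp_of_mem_strictPeriods one_pos h1⟩
  have h2 := ModularForm.hasSum_qExpansion (f := g) one_pos h1 τ
  rw [qParam_one] at h2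
  exact h2

theorem coeff_zero_eq : (qExpansion 1 g).coeff 0 = v0 g := by
  have h1 : (1 : ℝ) ∈ Gm.strictPeriods := by simp
  exact UpperHalfPlane.qExpansion_coeff_zero one_pos
    (ModularFormClass.analyticAt_cuspFunction_zero g one_pos h1)
    (SlashInvariantFormClass.periodic_comp_ofComplex g h1)

/-- **`a_0 = a_1 = 0` implies `g = 0`** -/
theorem M2_zero (h0 : (qExpansion 1 g).coeff 0 = 0) (h1 : (qExpansion 1 g).coeff 1 = 0) :
    g = 0 := by
  have hv : v0 g = 0 := by rw [← coeff_zero_eq, h0]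
  have hv1 := v1_eq_zero g hv
  ext z
  rw [_root_.zero_apply]
  refine zero_of_decay (mdiff_form g) (slash_of_form g) ?_ ?_ z
  · have h2 := decay_of_coeff (hasSum_form g) 2 (fun k hk => by
      interval_cases k
      · exact h0
      · exact h1)
    refine h2.congr_right fun τ => ?_
    push_cast
    rfl
  · have hz : IsZeroAtImInfty ((g : ℍ → ℂ) ∣[(2 : ℤ)] ModularGroup.S) := by
      have := tendsto_S g
      rw [hv1] at this
      exact this
    exact UpperHalfPlane.IsZeroAtImInfty.exp_decay_atImInfty (h := 17) hz (by norm_num)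
      (periodic_of (per_sev (slash_of_form g))) (mdiff_slash_form g _) (bdd_slash_form g _)

end forms

end Vale.Agent.P014.H687
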