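import Vale.Agent.P014.H687.Dim2

/-!
# P014 (H687): the Eisenstein series `(17 E2(17 z) - E2(z)) / 8 = 2 + 3 ∑ σ'(n) q^n`
-/

open Complex
open UpperHalfPlane hiding I
open CongruenceSubgroup ModularForm Filter Asymptotics Manifold
open Matrix.SpecialLinearGroup (mapGL)
open scoped Real MatrixGroups ModularForm ArithmeticFunction.sigma Topology

namespace Vale.Agent.P014.H687

open Vale.Agent.P004H.H204 (Conv ev conv_of qq norm_qq norm_qq_lt tendsto_qq E2c E2c_eq E2c_mob
  hasSum_E2)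
open Vale.Agent.P004H.H833 (periodic_of)

/-- `2 + 3 ∑ (σ(n) - 17 σ(n/17)) q^n` -/
noncomputable def ec (z : ℂ) : ℂ := (17 * E2c (17 * z) - E2c z) / 8

theorem ne_of_im {z : ℂ} (hz : 0 < z.im) : z ≠ 0 := by
  rintro rfl
  simp at hz

theorem ec_mob {a b c d : ℤ} (h : a * d - b * (17 * c) = 1) {z : ℂ} (hz : 0 < z.im) :
    ec ((a * z + b) / ((17 * c : ℤ) * z + d)) = ((17 * c : ℤ) * z + d) ^ 2 * ec z := by
  have h1 := E2c_mob h hz
  have h2 := E2c_mob (a := a) (b := 17 * b) (c := c) (d := d) (by linarith) (im17 hz)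
  have h3 := den_ne h hz
  have h4 := den_ne (a := a) (b := 17 * b) (c := c) (d := d) (by linarith) (im17 hz)
  unfold ec
  rw [show 17 * ((a * z + b) / (((17 * c : ℤ) : ℂ) * z + d)) =
    (a * (17 * z) + ((17 * b : ℤ) : ℂ)) / (c * (17 * z) + d) by
      rw [mul_div_assoc', div_eq_div_iff h3 h4]
      push_cast
      ring]
  rw [h1, h2]
  push_cast
  ring

theorem ec_W {z : ℂ} (hz : 0 < z.im) : ec (-1 / (17 * z)) = -17 * z ^ 2 * ec z := by
  have h0 := ne_of_im hz
  have h1 := E2c_mob (a := 0) (b := -1) (c := 1) (d := 0) (by norm_num) hz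
  have h2 := E2c_mob (a := 0) (b := -1) (c := 1) (d := 0) (by norm_num) (im17 hz)
  simp only [Int.cast_zero, Int.cast_neg, Int.cast_one, zero_mul, zero_add, one_mul, add_zero,
    mul_one] at h1 h2
  unfold ec
  rw [show 17 * (-1 / (17 * z)) = -1 / z by field_simp, h1, h2]
  ring

/-- the coefficients -/
def sg (n : ℕ) : ℤ := (σ 1 n : ℤ) - 17 * (if 17 ∣ n then (σ 1 (n / 17) : ℤ) else 0)

theorem qq17 (z : ℂ) : qq (17 * z) = qq z ^ 17 := by
  unfold qq
  rw [← Complex.exp_nat_mul]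
  congr 1
  push_cast
  ring

/-- the coefficients of `ec` -/
def cE (n : ℕ) : ℤ := if n = 0 then 2 else 3 * sg n

theorem hasSum_ec {z : ℂ} (hz : 0 < z.im) :
    HasSum (fun n : ℕ => (cE n : ℂ) * qq z ^ n) (ec z) := by
  have h1 := hasSum_E2 hz
  have h2 := hasSum_E2 (im17 hz)
  rw [qq17] at h2
  have h3 : HasSum (fun n : ℕ => (if 17 ∣ n then (if n = 0 then 1 else
      -24 * (σ 1 (n / 17) : ℂ)) else 0) * qq z ^ n) (E2c (17 * z)) := by
    have hinj : Function.Injective (fun m : ℕ => 17 * m) := fun x y hxy => by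
      simp only at hxy; omega
    rw [← hinj.hasSum_iff]
    · refine h2.congr_fun ?_
      intro n
      simp only [Function.comp_apply]
      rw [if_pos (Dvd.intro n rfl), ← pow_mul, Nat.mul_div_cancel_left n (by norm_num)]
      by_cases hn : n = 0
      · simp [hn]
      · rw [if_neg hn, if_neg (by omega)]
    · intro n hn
      rw [if_neg, zero_mul]
      rintro ⟨m, rfl⟩
      exact hn ⟨m, rfl⟩
  have h4 := ((h3.mul_left 17).sub h1).div_const 8
  refine h4.congr_fun ?_
  intro n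
  unfold cE sg
  by_cases hn : n = 0
  · subst hn
    norm_num
  · rw [if_neg hn, if_neg hn]
    by_cases h17 : 17 ∣ n
    · rw [if_pos h17, if_pos h17, if_neg hn]
      push_cast
      ring
    · rw [if_neg h17, if_neg h17, if_neg hn]
      push_cast
      ring

/-! ### Forms with a Fricke law -/

/-- `G = ∑ c_n q^n` has weight two for `Γ₀(17)` and `G(-1/(17 z)) = s z² G(z)` -/
structure WForm (G : ℂ → ℂ) (c : ℕ → ℂ) (s : ℂ) : Prop where
  mob : ∀ a b c d : ℤ, a * d - b * (17 * c) = 1 → ∀ z : ℂ, 0 < z.im →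
    G ((a * z + b) / ((17 * c : ℤ) * z + d)) = ((17 * c : ℤ) * z + d) ^ 2 * G z
  W : ∀ z : ℂ, 0 < z.im → G (-1 / (17 * z)) = s * z ^ 2 * G z
  sum : ∀ z : ℂ, 0 < z.im → HasSum (fun n => c n * qq z ^ n) (G z)

namespace WForm

variable {G : ℂ → ℂ} {c : ℕ → ℂ} {s : ℂ} (w : WForm G c s)

include w

theorem conv : Conv (PowerSeries.mk c) :=
  conv_of fun z hz => by simpa using (w.sum z hz).summable

theorem eq_ev {z : ℂ} (hz : 0 < z.im) : G z = ev (PowerSeries.mk c) (qq z) := by
  unfold ev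
  simp only [PowerSeries.coeff_mk]
  exact (w.sum z hz).tsum_eq.symm

theorem hasDerivAt {z : ℂ} (hz : 0 < z.im) :
    HasDerivAt G (2 * π * I * ev (Vale.Agent.P004H.H204.th (PowerSeries.mk c)) (qq z)) z :=
  (w.conv.hasDerivAt hz).congr_of_eventuallyEq
    ((Vale.Agent.P004H.H204.eventually_im hz).mono fun _ hw => w.eq_ev hw)

theorem mdiff : MDiff (fun z : ℍ => G z) := by
  rw [UpperHalfPlane.mdifferentiable_iff]
  intro z hz
  have h6 : DifferentiableAt ℂ G z := (w.hasDerivAt hz).differentiableAt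
  refine (h6.congr_of_eventuallyEq ?_).differentiableWithinAt
  filter_upwards [Vale.Agent.P004H.H204.eventually_im hz] with w hw
  simp only [Function.comp_apply]
  rw [ofComplex_apply_of_im_pos hw]

theorem slash (g : SL(2, ℤ)) (hg : g ∈ Gamma0 17) :
    (fun z : ℍ => G z) ∣[(2 : ℤ)] g = fun z : ℍ => G z :=
  slash_of_mob (k := 2) w.mob g hg

theorem tendsto : Tendsto (fun z : ℍ => G z) atImInfty (𝓝 (c 0)) := by
  have h1 := w.conv.tendsto.comp tendsto_qq
  have h2 : PowerSeries.constantCoeff (PowerSeries.mk c) = c 0 := by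
    rw [← PowerSeries.coeff_zero_eq_constantCoeff_apply, PowerSeries.coeff_mk]
  rw [h2] at h1
  exact h1.congr fun z => (w.eq_ev z.2).symm

theorem slash_S (z : ℍ) : ((fun z : ℍ => G z) ∣[(2 : ℤ)] ModularGroup.S) z =
    s / 289 * G (z / 17) := by
  have h := slash_S_apply' (k := 2) G z
  have h0 : (z : ℂ) ≠ 0 := z.ne_zero
  have h1 := w.W ((z : ℂ) / 17) (im_div17 z.2)
  rw [show 17 * ((z : ℂ) / 17) = z by field_simp] at h1
  rw [h1] at h
  have h' : ((fun z : ℍ => G z) ∣[(2 : ℤ)] ModularGroup.S) z =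
    ((z : ℂ) ^ 2)⁻¹ * (s * ((z : ℂ) / 17) ^ 2 * G ((z : ℂ) / 17)) := h
  rw [h']
  field_simp
  ring

theorem tendsto_S : Tendsto ((fun z : ℍ => G z) ∣[(2 : ℤ)] ModularGroup.S) atImInfty
    (𝓝 (s / 289 * c 0)) := by
  have h8 : Tendsto (fun z : ℍ => (⟨(z : ℂ) / 17, im_div17 z.2⟩ : ℍ)) atImInfty atImInfty := by
    rw [atImInfty, tendsto_comap_iff]
    have h9 : Tendsto (fun z : ℍ => z.im / 17) (comap UpperHalfPlane.im atTop) atTop :=
      tendsto_comap.atTop_div_const (by norm_num)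
    refine h9.congr fun z => ?_
    simp only [Function.comp_apply]
    rw [← UpperHalfPlane.coe_im, ← UpperHalfPlane.coe_im]
    show (z : ℂ).im / 17 = ((z : ℂ) / 17).im
    rw [im_d17]
  refine ((w.tendsto.comp h8).const_mul (s / 289)).congr fun z => ?_
  rw [w.slash_S]
  rfl

/-- the modular form -/
noncomputable def mf : ModularForm Gm 2 where
  toFun := fun z : ℍ => G z
  slash_action_eq' := by
    rintro _ ⟨g, hg, rfl⟩
    exact w.slash g hg
  holo' := w.mdiff
  bdd_at_cusps' := by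
    intro c hc
    rw [Subgroup.IsArithmetic.isCusp_iff_isCusp_SL2Z] at hc
    rw [OnePoint.isBoundedAt_iff_forall_SL2Z hc]
    intro g _
    exact bdd_slash w.slash (w.tendsto.isBigO_one ℝ) (w.tendsto_S.isBigO_one ℝ) g

theorem mf_apply (z : ℍ) : w.mf z = G z := rfl

theorem coeff (n : ℕ) : (qExpansion 1 w.mf).coeff n = c n := by
  have h1 : (1 : ℝ) ∈ Gm.strictPeriods := by simp
  refine (ModularFormClass.qExpansion_coeff_unique (Γ := Gm) (k := 2) one_pos h1 (f := w.mf)
    (c := c) ?_ n).symm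
  intro τ
  have := w.sum τ τ.2
  rw [← qParam_one] at this
  rw [w.mf_apply]
  simpa using this

/-- the cusp form -/
noncomputable def cf (h0 : c 0 = 0) : CuspForm Gm 2 where
  toFun := fun z : ℍ => G z
  slash_action_eq' := by
    rintro _ ⟨g, hg, rfl⟩
    exact w.slash g hg
  holo' := w.mdiff
  zero_at_cusps' := by
    intro c hc
    rw [Subgroup.IsArithmetic.isCusp_iff_isCusp_SL2Z] at hc
    rw [OnePoint.isZeroAt_iff_forall_SL2Z hc]
    intro g _
    refine zero_slash w.slash ?_ ?_ g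
    · have := w.tendsto
      rwa [h0] at this
    · have := w.tendsto_S
      rwa [h0, mul_zero] at this

end WForm

theorem ec_form : WForm ec (fun n => (cE n : ℂ)) (-17) where
  mob _ _ _ _ h _ hz := ec_mob h hz
  W _ hz := ec_W hz
  sum _ hz := hasSum_ec hz

end Vale.Agent.P014.H687
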