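import Mathlib

/-!
# FM2: upper bounds for sums of nonnegative multiplicative functions over squarefree numbers

`fm2`: if `0 ≤ g p ≤ K` for all primes `p`, then
`∑_{n ≤ x squarefree} ∏_{p ∣ n} g p ≤ (2 K + 1) x / log x * exp (∑_{p ≤ x} g p / p)`.
-/

open Finset Real

namespace Vale.Agent.P014.H687.FM

/-- the multiplicative function with values `g p` at the primes (on squarefree numbers) -/
noncomputable def mf (g : ℕ → ℝ) (n : ℕ) : ℝ := ∏ p ∈ n.primeFactors, g p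

/-- squarefree numbers up to `N` -/
def sqf (N : ℕ) : Finset ℕ := (Icc 1 N).filter Squarefree

theorem mem_sqf {N n : ℕ} : n ∈ sqf N ↔ (1 ≤ n ∧ n ≤ N) ∧ Squarefree n := by
  rw [sqf, mem_filter, mem_Icc]

theorem mf_nonneg {g : ℕ → ℝ} (h0 : ∀ p, 0 ≤ g p) (n : ℕ) : 0 ≤ mf g n :=
  Finset.prod_nonneg fun p _ => h0 p

theorem log_sqf {n : ℕ} (hn : Squarefree n) : log n = ∑ p ∈ n.primeFactors, log p := by
  conv_lhs => rw [← Nat.prod_primeFactors_of_squarefree hn]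
  push_cast
  rw [Real.log_prod]
  intro p hp
  exact_mod_cast (Nat.prime_of_mem_primeFactors hp).ne_zero

theorem mf_div {g : ℕ → ℝ} {n p : ℕ} (hn : Squarefree n) (hp : p ∈ n.primeFactors) :
    mf g n = g p * mf g (n / p) ∧ Squarefree (n / p) ∧ n / p ≠ 0 ∧ n / p * p = n := by
  have hpp : p.Prime := Nat.prime_of_mem_primeFactors hp
  have hdvd : p ∣ n := Nat.dvd_of_mem_primeFactors hp
  have hmn : n / p * p = n := Nat.div_mul_cancel hdvd
  have hn0 := hn.ne_zero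
  have hm0 : n / p ≠ 0 := by rintro h; rw [h, zero_mul] at hmn; exact hn0 hmn.symm
  have hcop : (n / p).Coprime p := Nat.coprime_of_squarefree_mul (hmn.symm ▸ hn)
  have hpm : p ∉ (n / p).primeFactors := fun h => by
    have := Nat.dvd_gcd (Nat.dvd_of_mem_primeFactors h) (dvd_refl p)
    rw [hcop] at this
    exact hpp.one_lt.ne' (Nat.dvd_one.1 this)
  refine ⟨?_, hn.squarefree_of_dvd ⟨p, hmn.symm⟩, hm0, hmn⟩
  have : n.primeFactors = insert p (n / p).primeFactors := by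
    conv_lhs => rw [← hmn]
    rw [Nat.primeFactors_mul hm0 hpp.ne_zero, hpp.primeFactors, Finset.union_comm]
    rfl
  rw [mf, this, Finset.prod_insert hpm]
  rfl

theorem theta_bound {y : ℝ} (hy : 0 ≤ y) :
    ∑ p ∈ (Icc 1 ⌊y⌋₊).filter Nat.Prime, log p ≤ log 4 * y := by
  refine le_trans (le_of_eq ?_) (Chebyshev.theta_le_log4_mul_x hy)
  rw [Chebyshev.theta_eq_sum_Icc]
  refine Finset.sum_subset ?_ ?_
  · intro p hp
    simp only [mem_filter, mem_Icc] at hp ⊢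
    exact ⟨⟨by omega, hp.1.2⟩, hp.2⟩
  · intro p hp hp'
    simp only [mem_filter, mem_Icc] at hp hp'
    have := hp.2.pos
    exact absurd ⟨⟨this, hp.1.2⟩, hp.2⟩ hp'

theorem sum_mf_log_le {g : ℕ → ℝ} (h0 : ∀ p, 0 ≤ g p) {K : ℝ} (hg : ∀ p, p.Prime → g p ≤ K)
    (hK : 0 ≤ K) {x : ℝ} (hx : 0 ≤ x) :
    ∑ n ∈ sqf ⌊x⌋₊, mf g n * log n ≤ K * log 4 * x * ∑ m ∈ sqf ⌊x⌋₊, mf g m / m := by
  have h1 : ∑ n ∈ sqf ⌊x⌋₊, mf g n * log n =
      ∑ y ∈ (sqf ⌊x⌋₊).sigma (fun n => n.primeFactors), mf g y.1 * log y.2 := by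
    rw [Finset.sum_sigma]
    refine Finset.sum_congr rfl fun n hn => ?_
    rw [log_sqf (mem_sqf.1 hn).2, Finset.mul_sum]
  have h2 : ∀ y ∈ (sqf ⌊x⌋₊).sigma (fun n => n.primeFactors),
      mf g y.1 * log y.2 ≤ K * mf g (y.1 / y.2) * log y.2 := by
    intro y hy
    rw [mem_sigma] at hy
    have h3 := (mf_div (g := g) (mem_sqf.1 hy.1).2 hy.2).1
    rw [h3]
    have h4 : 0 ≤ log (y.2 : ℝ) := Real.log_natCast_nonneg _
    have h5 := mf_nonneg h0 (y.1 / y.2)
    have h6 := hg y.2 (Nat.prime_of_mem_primeFactors hy.2)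
    gcongr
  have hinj : Set.InjOn (fun y : (_ : ℕ) × ℕ => (⟨y.1 / y.2, y.2⟩ : (_ : ℕ) × ℕ))
      ((sqf ⌊x⌋₊).sigma (fun n => n.primeFactors) : Finset _) := by
    rintro ⟨a, b⟩ ha ⟨c, d⟩ hc h
    simp only [Finset.mem_coe, mem_sigma] at ha hc
    simp only [Sigma.mk.injEq, heq_eq_eq] at h
    obtain ⟨h1, rfl⟩ := h
    have h3 := (mf_div (g := g) (mem_sqf.1 ha.1).2 ha.2).2.2.2
    have h4 := (mf_div (g := g) (mem_sqf.1 hc.1).2 hc.2).2.2.2
    rw [h1] at h3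
    have h5 : a = c := by rw [← h3, h4]
    rw [h5]
  have h3 : ∑ y ∈ (sqf ⌊x⌋₊).sigma (fun n => n.primeFactors),
      K * mf g (y.1 / y.2) * log y.2 ≤
      ∑ z ∈ (sqf ⌊x⌋₊).sigma (fun m => (Icc 1 ⌊x / m⌋₊).filter Nat.Prime),
        K * mf g z.1 * log z.2 := by
    have e := Finset.sum_image (f := fun z : (_ : ℕ) × ℕ => K * mf g z.1 * log z.2) hinj
    rw [← e]
    refine Finset.sum_le_sum_of_subset_of_nonneg ?_ ?_
    · intro z hz
      rw [mem_image] at hz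
      obtain ⟨⟨a, b⟩, hy, rfl⟩ := hz
      rw [mem_sigma] at hy
      simp only at hy
      obtain ⟨-, hs, h0', hab⟩ := mf_div (g := g) (mem_sqf.1 hy.1).2 hy.2
      have hb := Nat.prime_of_mem_primeFactors hy.2
      have ha := (mem_sqf.1 hy.1).1
      rw [mem_sigma]
      refine ⟨mem_sqf.2 ⟨⟨Nat.pos_of_ne_zero h0', (Nat.div_le_self _ _).trans ha.2⟩, hs⟩, ?_⟩
      simp only [mem_filter, mem_Icc]
      refine ⟨⟨hb.pos, ?_⟩, hb⟩
      have hapos : (0 : ℝ) < ((a / b : ℕ) : ℝ) := by exact_mod_cast Nat.pos_of_ne_zero h0'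
      refine Nat.le_floor ?_
      rw [le_div_iff₀ hapos]
      have h5 : ((b * (a / b) : ℕ) : ℝ) = a := by
        have : b * (a / b) = a := by rw [mul_comm]; exact hab
        exact_mod_cast this
      push_cast at h5
      rw [h5]
      exact (Nat.le_floor_iff hx).1 ha.2
    · intro z _ _
      have h4 : 0 ≤ log (z.2 : ℝ) := Real.log_natCast_nonneg _
      have h5 := mf_nonneg h0 z.1
      positivity
  rw [h1]
  refine (Finset.sum_le_sum h2).trans (h3.trans ?_)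
  rw [Finset.sum_sigma, Finset.mul_sum]
  refine Finset.sum_le_sum fun m hm => ?_
  simp only
  rw [← Finset.mul_sum]
  have hm0 : (0 : ℝ) < m := by exact_mod_cast (mem_sqf.1 hm).1.1
  have h4 := theta_bound (y := x / m) (by positivity)
  have h5 := mf_nonneg h0 m
  calc K * mf g m * ∑ p ∈ (Icc 1 ⌊x / m⌋₊).filter Nat.Prime, log p
      ≤ K * mf g m * (log 4 * (x / m)) := by gcongr
    _ = K * log 4 * x * (mf g m / m) := by ring

theorem sum_mf_div_le {g : ℕ → ℝ} (h0 : ∀ p, 0 ≤ g p) (N : ℕ) :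
    ∑ m ∈ sqf N, mf g m / m ≤ exp (∑ p ∈ (Icc 1 N).filter Nat.Prime, g p / p) := by
  have h1 : ∏ p ∈ (Icc 1 N).filter Nat.Prime, (1 + g p / p) ≤
      exp (∑ p ∈ (Icc 1 N).filter Nat.Prime, g p / p) := by
    rw [Real.exp_sum]
    refine Finset.prod_le_prod (fun p _ => ?_) (fun p _ => ?_)
    · have := h0 p
      positivity
    · rw [add_comm]
      exact Real.add_one_le_exp _
  refine le_trans ?_ h1
  rw [Finset.prod_one_add]
  have hinj : Set.InjOn (fun m : ℕ => m.primeFactors) (sqf N : Set ℕ) := by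
    intro a ha b hb h
    have ha' := (mem_sqf.1 (Finset.mem_coe.1 ha)).2
    have hb' := (mem_sqf.1 (Finset.mem_coe.1 hb)).2
    simp only at h
    rw [← Nat.prod_primeFactors_of_squarefree ha', ← Nat.prod_primeFactors_of_squarefree hb', h]
  have e : ∑ m ∈ sqf N, mf g m / m = ∑ m ∈ sqf N, ∏ p ∈ m.primeFactors, g p / p := by
    refine Finset.sum_congr rfl fun m hm => ?_
    rw [Finset.prod_div_distrib, mf]
    congr 1
    conv_lhs => rw [← Nat.prod_primeFactors_of_squarefree (mem_sqf.1 hm).2]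
    push_cast
    rfl
  rw [e]
  have e2 := Finset.sum_image (f := fun T : Finset ℕ => ∏ p ∈ T, g p / p) hinj
  rw [← e2]
  refine Finset.sum_le_sum_of_subset_of_nonneg ?_ ?_
  · intro T hT
    rw [mem_image] at hT
    obtain ⟨m, hm, rfl⟩ := hT
    rw [mem_powerset]
    intro p hp
    rw [mem_filter, mem_Icc]
    have hpp := Nat.prime_of_mem_primeFactors hp
    have hm' := (mem_sqf.1 hm).1
    exact ⟨⟨hpp.pos, (Nat.le_of_dvd hm'.1 (Nat.dvd_of_mem_primeFactors hp)).trans hm'.2⟩, hpp⟩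
  · intro T _ _
    refine Finset.prod_nonneg fun p _ => ?_
    have := h0 p
    positivity

/-- **FM2** -/
theorem fm2 {g : ℕ → ℝ} (h0 : ∀ p, 0 ≤ g p) {K : ℝ} (hg : ∀ p, p.Prime → g p ≤ K)
    (hK : 0 ≤ K) {x : ℝ} (hx : 1 < x) :
    ∑ n ∈ sqf ⌊x⌋₊, mf g n ≤
      (2 * K + 1) * (x / log x) * exp (∑ p ∈ (Icc 1 ⌊x⌋₊).filter Nat.Prime, g p / p) := by
  have hx0 : 0 < x := by linarith
  have hlog : 0 < log x := Real.log_pos hx
  have h1 := sum_mf_log_le h0 hg hK hx0.le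
  have h2 : ∑ n ∈ sqf ⌊x⌋₊, mf g n * (log x - log n) ≤ x * ∑ m ∈ sqf ⌊x⌋₊, mf g m / m := by
    rw [Finset.mul_sum]
    refine Finset.sum_le_sum fun n hn => ?_
    have hn0 : (0 : ℝ) < n := by exact_mod_cast (mem_sqf.1 hn).1.1
    rw [← Real.log_div hx0.ne' hn0.ne']
    have h5 := mf_nonneg h0 n
    calc mf g n * log (x / n) ≤ mf g n * (x / n) := by
          gcongr
          exact Real.log_le_self (by positivity)
      _ = x * (mf g n / n) := by ring
  have h3 : log x * ∑ n ∈ sqf ⌊x⌋₊, mf g n =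
      ∑ n ∈ sqf ⌊x⌋₊, mf g n * (log x - log n) + ∑ n ∈ sqf ⌊x⌋₊, mf g n * log n := by
    rw [← Finset.sum_add_distrib, Finset.mul_sum]
    refine Finset.sum_congr rfl fun n _ => ?_
    ring
  have h4 := sum_mf_div_le h0 ⌊x⌋₊
  set S := ∑ m ∈ sqf ⌊x⌋₊, mf g m / m with hS
  set T := exp (∑ p ∈ (Icc 1 ⌊x⌋₊).filter Nat.Prime, g p / p) with hT
  have hS0 : 0 ≤ S := by
    refine Finset.sum_nonneg fun m _ => ?_
    have := mf_nonneg h0 m
    positivity
  have hlog4 : log 4 ≤ 2 := by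
    have : log 4 = 2 * log 2 := by
      rw [← Real.log_rpow (by norm_num)]; norm_num
    rw [this]
    linarith [Real.log_two_lt_d9]
  have h5 : log x * ∑ n ∈ sqf ⌊x⌋₊, mf g n ≤ (2 * K + 1) * x * T := by
    rw [h3]
    calc _ ≤ x * S + K * log 4 * x * S := add_le_add h2 h1
      _ ≤ x * S + K * 2 * x * S := by gcongr
      _ = (2 * K + 1) * x * S := by ring
      _ ≤ (2 * K + 1) * x * T := by gcongr
  have h6 : (2 * K + 1) * (x / log x) * T = (2 * K + 1) * x * T / log x := by ring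
  rw [h6, le_div_iff₀ hlog, mul_comm]
  exact h5

end Vale.Agent.P014.H687.FM
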