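import Vale.Agent.P014.H580.FMDefs

/-!
# FM5, part a: sums over factorisations of a squarefree number
-/

namespace Vale.Agent.P014.H687.FM

open Finset Vale.Agent.P014.FM

theorem mem_tuples {n : ℕ} (hn : n ≠ 0) {D : Idx → ℕ} : D ∈ tuples n ↔ ∏ u, D u = n := by
  rw [tuples, mem_filter, Fintype.mem_piFinset]
  constructor
  · exact fun h => h.2
  · intro h
    refine ⟨fun u => ?_, h⟩
    rw [Nat.mem_divisors]
    exact ⟨h ▸ Finset.dvd_prod_of_mem D (mem_univ u), hn⟩

theorem tuples_dvd {n : ℕ} {D : Idx → ℕ} (h : D ∈ tuples n) (u : Idx) : D u ∣ n := by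
  rw [tuples, mem_filter, Fintype.mem_piFinset] at h
  exact (Nat.mem_divisors.1 (h.1 u)).1

theorem tuples_one {h : Idx → ℕ → ℝ} (h1 : ∀ u, h u 1 = 1) :
    ∑ D ∈ tuples 1, ∏ u, h u (D u) = 1 := by
  have : tuples 1 = {fun _ => 1} := by
    ext D
    rw [mem_tuples one_ne_zero, mem_singleton]
    constructor
    · intro hD
      funext u
      exact Nat.dvd_one.1 (hD ▸ Finset.dvd_prod_of_mem D (mem_univ u))
    · rintro rfl
      simp
  rw [this, sum_singleton]
  simp [h1]

theorem prod_update_idx (D : Idx → ℕ) (v : Idx) (b : ℕ) :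
    ∏ u, Function.update D v b u = b * ∏ u ∈ univ \ {v}, D u :=
  Finset.prod_update_of_mem (mem_univ v) D b

theorem prod_split_idx (D : Idx → ℕ) (v : Idx) : ∏ u, D u = D v * ∏ u ∈ univ \ {v}, D u := by
  have := prod_update_idx D v (D v)
  rwa [Function.update_eq_self] at this

theorem prod_split_idx' (F : Idx → ℝ) (v : Idx) : ∏ u, F u = F v * ∏ u ∈ univ \ {v}, F u := by
  rw [← Finset.prod_sdiff (Finset.subset_univ {v}), Finset.prod_singleton, mul_comm]

theorem tuples_mul_prime {m p : ℕ} (hm : m ≠ 0) (hp : p.Prime) (hpm : ¬ p ∣ m)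
    {h : Idx → ℕ → ℝ} (h2 : ∀ u a, ¬ p ∣ a → h u (a * p) = h u a * h u p) :
    ∑ D ∈ tuples (m * p), ∏ u, h u (D u) =
      (∑ D ∈ tuples m, ∏ u, h u (D u)) * ∑ u, h u p := by
  have hmp : m * p ≠ 0 := mul_ne_zero hm hp.ne_zero
  rw [Finset.sum_mul_sum, ← Finset.sum_product']
  symm
  refine Finset.sum_bij (fun x _ => Function.update x.1 x.2 (x.1 x.2 * p)) ?_ ?_ ?_ ?_
  · intro x hx
    have hD := (mem_tuples hm).1 (mem_product.1 hx).1
    rw [mem_tuples hmp, prod_update_idx, mul_assoc, mul_comm p, ← mul_assoc, ← prod_split_idx, hD]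
  · intro x hx y hy heq
    obtain ⟨D, v⟩ := x
    obtain ⟨E, w⟩ := y
    have hvw : v = w := by
      by_contra hne
      have h1 := congrFun heq v
      rw [Function.update_self, Function.update_of_ne hne] at h1
      have h1' : D v * p = E v := h1
      have h2 : p ∣ E v := h1' ▸ dvd_mul_left p _
      exact hpm (h2.trans (tuples_dvd (mem_product.1 hy).1 v))
    subst hvw
    have hDE : D = E := by
      funext u
      by_cases hu : u = v
      · subst hu
        have h1 := congrFun heq u
        rw [Function.update_self, Function.update_self] at h1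
        exact Nat.eq_of_mul_eq_mul_right hp.pos h1
      · have h1 := congrFun heq u
        rwa [Function.update_of_ne hu, Function.update_of_ne hu] at h1
    rw [hDE]
  · intro D hD
    have hD' := (mem_tuples hmp).1 hD
    obtain ⟨v, -, hv⟩ := (hp.prime.dvd_finsetProd_iff D).1 (hD' ▸ dvd_mul_left p m :
      p ∣ ∏ u, D u)
    obtain ⟨c, hc⟩ := hv
    refine ⟨(Function.update D v c, v), ?_, ?_⟩
    · rw [mem_product]
      refine ⟨?_, mem_univ _⟩
      rw [mem_tuples hm, prod_update_idx]
      rw [prod_split_idx D v, hc] at hD'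
      refine Nat.eq_of_mul_eq_mul_right hp.pos ?_
      rw [← hD']
      ring
    · have e : c * p = D v := by rw [hc, mul_comm]
      show Function.update (Function.update D v c) v (Function.update D v c v * p) = D
      rw [Function.update_self, Function.update_idem, e, Function.update_eq_self]
  · intro x hx
    obtain ⟨D, v⟩ := x
    have hDm := (mem_product.1 hx).1
    show (∏ u, h u (D u)) * h v p = ∏ u, h u (Function.update D v (D v * p) u)
    rw [prod_split_idx' (fun u => h u (Function.update D v (D v * p) u)) v,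
      prod_split_idx' (fun u => h u (D u)) v, Function.update_self]
    have e2 : ∏ u ∈ univ \ {v}, h u (Function.update D v (D v * p) u) =
        ∏ u ∈ univ \ {v}, h u (D u) := by
      refine Finset.prod_congr rfl fun u hu => ?_
      rw [mem_sdiff, mem_singleton] at hu
      rw [Function.update_of_ne hu.2]
    rw [e2, h2 v (D v) (fun hd => hpm (hd.trans (tuples_dvd hDm v)))]
    ring

/-- the sum over all factorisations is a product over the primes -/
theorem tuples_sum {h : Idx → ℕ → ℝ} (h1 : ∀ u, h u 1 = 1)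
    (h2 : ∀ u a p, p.Prime → ¬ p ∣ a → h u (a * p) = h u a * h u p) :
    ∀ n : ℕ, Squarefree n →
      ∑ D ∈ tuples n, ∏ u, h u (D u) = ∏ p ∈ n.primeFactors, ∑ u, h u p := by
  intro n
  induction n using Nat.strong_induction_on with
  | _ n ih =>
    intro hn
    rcases Nat.lt_or_ge n 2 with hlt | hge
    · have : n = 1 := by
        have := hn.ne_zero
        omega
      rw [this, tuples_one h1]
      simp
    · obtain ⟨p, hp, hpn⟩ := Nat.exists_prime_and_dvd (by omega : n ≠ 1)
      obtain ⟨m, rfl⟩ := hpn
      rw [mul_comm] at hn ⊢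
      have hm : Squarefree m := hn.squarefree_of_dvd (dvd_mul_right m p)
      have hcop : m.Coprime p := Nat.coprime_of_squarefree_mul hn
      have hpm : ¬ p ∣ m := (Nat.Prime.coprime_iff_not_dvd hp).1 hcop.symm
      have hlt : m < p * m := by
        have := hp.two_le
        have := Nat.pos_of_ne_zero hm.ne_zero
        nlinarith
      rw [tuples_mul_prime hm.ne_zero hp hpm (fun u a => h2 u a p hp), ih m hlt hm,
        Nat.primeFactors_mul hm.ne_zero hp.ne_zero, hp.primeFactors, Finset.union_comm,
        ← Finset.insert_eq, Finset.prod_insert, mul_comm]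
      intro hmem
      exact hpm (Nat.dvd_of_mem_primeFactors hmem)

end Vale.Agent.P014.H687.FM
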