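import Vale.Agent.P014.H687.NPC
import Vale.Agent.P014.H687.FM5a

/-!
# FM5, part b: classes modulo 4 and 17, characters
-/

namespace Vale.Agent.P014.H687.FM

open Finset Vale.Agent.P014.FM

/-- the group of classes -/
abbrev G := ZMod 2 × ZMod 2

/-- sign of an element of `ZMod 2` -/
def sg (a : ZMod 2) : ℤ := if a = 1 then -1 else 1

theorem sg_add (a b : ZMod 2) : sg (a + b) = sg a * sg b := by
  revert a b; decide

theorem sg_zero : sg 0 = 1 := rfl

/-- the pairing -/
def chi (δ x : G) : ℤ := sg (δ.1 * x.1 + δ.2 * x.2)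

theorem chi_add (δ x y : G) : chi δ (x + y) = chi δ x * chi δ y := by
  revert δ x y; decide

theorem chi_zero (δ : G) : chi δ 0 = 1 := by
  revert δ; decide

theorem chi_val (δ x : G) : chi δ x = 1 ∨ chi δ x = -1 := by
  revert δ x; decide

open Classical in
/-- the class of an integer: (is `3` mod `4`, is a non-residue mod `17`) -/
noncomputable def cl (d : ℕ) : G :=
  (if d % 4 = 3 then 1 else 0, if jacobiSym (d : ℤ) 17 = -1 then 1 else 0)

theorem cop34 {d : ℕ} : d.Coprime 34 ↔ d % 2 = 1 ∧ ¬ 17 ∣ d := by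
  have : (34 : ℕ) = 2 * 17 := rfl
  have h17 : d.Coprime 17 ↔ ¬ 17 ∣ d := by
    rw [Nat.coprime_comm]
    exact Nat.Prime.coprime_iff_not_dvd (by norm_num)
  rw [this, Nat.coprime_mul_iff_right, Nat.coprime_two_right, Nat.odd_iff, h17]

theorem j17_cases {d : ℕ} (h : ¬ 17 ∣ d) : jacobiSym (d : ℤ) 17 = 1 ∨ jacobiSym (d : ℤ) 17 = -1 := by
  apply jacobiSym.eq_one_or_neg_one
  have : Nat.Coprime d 17 := by
    rw [Nat.coprime_comm, Nat.Prime.coprime_iff_not_dvd (by norm_num)]
    exact h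
  show Int.gcd (d : ℤ) ((17 : ℕ) : ℤ) = 1
  rw [Int.gcd_natCast_natCast]
  exact this

theorem chi4_eq {d : ℕ} (h : d % 2 = 1) : chi4 d = (sg (cl d).1 : ℝ) := by
  unfold chi4 cl
  rcases (by omega : d % 4 = 1 ∨ d % 4 = 3) with h | h
  · rw [if_pos h]
    simp [h, sg]
  · simp [h, sg]

theorem J17_eq {d : ℕ} (h : ¬ 17 ∣ d) : J d 17 = (sg (cl d).2 : ℝ) := by
  unfold Vale.Agent.P014.H580.J cl
  rcases j17_cases h with h | h
  · simp [h, sg]
  · simp [h, sg]

theorem cl_mul {a b : ℕ} (ha : a.Coprime 34) (hb : b.Coprime 34) : cl (a * b) = cl a + cl b := by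
  obtain ⟨ha1, ha2⟩ := cop34.1 ha
  obtain ⟨hb1, hb2⟩ := cop34.1 hb
  have h4 : a * b % 4 = (a % 4) * (b % 4) % 4 := Nat.mul_mod a b 4
  have hj : jacobiSym ((a * b : ℕ) : ℤ) 17 = jacobiSym (a : ℤ) 17 * jacobiSym (b : ℤ) 17 := by
    rw [Nat.cast_mul, jacobiSym.mul_left]
  refine Prod.ext ?_ ?_
  · show (if a * b % 4 = 3 then (1 : ZMod 2) else 0) =
      (if a % 4 = 3 then 1 else 0) + (if b % 4 = 3 then 1 else 0)
    rcases (by omega : a % 4 = 1 ∨ a % 4 = 3) with h | h <;>
      rcases (by omega : b % 4 = 1 ∨ b % 4 = 3) with h' | h' <;>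
      (rw [h4, h, h']; decide)
  · show (if jacobiSym ((a * b : ℕ) : ℤ) 17 = -1 then (1 : ZMod 2) else 0) =
      (if jacobiSym (a : ℤ) 17 = -1 then 1 else 0) + (if jacobiSym (b : ℤ) 17 = -1 then 1 else 0)
    rcases j17_cases ha2 with h | h <;> rcases j17_cases hb2 with h' | h' <;>
      (rw [hj, h, h']; decide)

theorem cl_one : cl 1 = 0 := by
  unfold cl
  have h : jacobiSym ((1 : ℕ) : ℤ) 17 = 1 := by
    rw [Nat.cast_one, jacobiSym.one_left]
  rw [h]
  norm_num

/-- reciprocity -/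
theorem recip {d e : ℕ} (hd : d % 2 = 1) (he : e % 2 = 1) (hc : d.Coprime e) :
    J d e * J e d = (sg ((cl d).1 * (cl e).1) : ℝ) := by
  have h1 : J d e * J e d = (((-1) ^ (d / 2 * (e / 2)) : ℤ) : ℝ) := by
    unfold Vale.Agent.P014.H580.J
    rw [jacobiSym.quadratic_reciprocity (Nat.odd_iff.2 hd) (Nat.odd_iff.2 he)]
    have h2 : jacobiSym (e : ℤ) d * jacobiSym (e : ℤ) d = 1 := by
      have := jacobiSym.sq_one (a := (e : ℤ)) (b := d) (by
        simpa [Nat.coprime_comm] using hc)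
      rw [sq] at this
      exact this
    rw [← Int.cast_mul, mul_assoc, h2, mul_one]
  rw [h1]
  have hcl : ∀ m : ℕ, m % 2 = 1 → ((cl m).1 = 1 ∧ Odd (m / 2)) ∨ ((cl m).1 = 0 ∧ Even (m / 2)) := by
    intro m hm
    rcases (by omega : m % 4 = 1 ∨ m % 4 = 3) with h | h
    · right
      refine ⟨by simp [cl, h], ?_⟩
      rw [Nat.even_iff]; omega
    · left
      refine ⟨by simp [cl, h], ?_⟩
      rw [Nat.odd_iff]; omega
  rcases hcl d hd with ⟨h, h'⟩ | ⟨h, h'⟩ <;> rcases hcl e he with ⟨k, k'⟩ | ⟨k, k'⟩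
  · rw [h, k, (h'.mul k').neg_one_pow]; rfl
  · rw [h, k, (k'.mul_left _).neg_one_pow]; rfl
  · rw [h, k, (h'.mul_right _).neg_one_pow]; rfl
  · rw [h, k, (h'.mul_right _).neg_one_pow]; rfl

open Classical in
/-- the real character attached to `δ` -/
noncomputable def chR (δ : G) (d : ℕ) : ℝ := if d.Coprime 34 then (chi δ (cl d) : ℝ) else 0

theorem chR_mul (δ : G) (a b : ℕ) : chR δ (a * b) = chR δ a * chR δ b := by
  unfold chR
  by_cases ha : a.Coprime 34
  · by_cases hb : b.Coprime 34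
    · rw [if_pos ha, if_pos hb, if_pos (Nat.Coprime.mul_left ha hb), cl_mul ha hb, chi_add]
      push_cast; ring
    · rw [if_neg hb, if_neg (fun h => hb (Nat.Coprime.coprime_mul_left h)), mul_zero]
  · rw [if_neg ha, if_neg (fun h => ha (Nat.Coprime.coprime_mul_right h)), zero_mul]

theorem chR_one (δ : G) : chR δ 1 = 1 := by
  unfold chR
  rw [if_pos (Nat.coprime_one_left 34), cl_one, chi_zero]
  simp

theorem chR_val (δ : G) (n : ℕ) : chR δ n = 1 ∨ chR δ n = -1 ∨ (chR δ n = 0 ∧ ¬ n.Coprime 68) := by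
  unfold chR
  by_cases h : n.Coprime 34
  · rw [if_pos h]
    rcases chi_val δ (cl n) with h | h
    · left; rw [h]; simp
    · right; left; rw [h]; simp
  · rw [if_neg h]
    right; right
    exact ⟨rfl, fun h' => h (Nat.Coprime.coprime_dvd_right (by norm_num) h')⟩

theorem chR_abs (δ : G) (n : ℕ) : |chR δ n| ≤ 1 := by
  rcases chR_val δ n with h | h | ⟨h, -⟩ <;> rw [h] <;> simp

theorem cl_per (n : ℕ) : cl (n + 68) = cl n := by
  unfold cl
  have h1 : (n + 68) % 4 = n % 4 := by omega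
  have h2 : jacobiSym ((n + 68 : ℕ) : ℤ) 17 = jacobiSym (n : ℤ) 17 := by
    rw [jacobiSym.mod_left, jacobiSym.mod_left (n : ℤ)]
    congr 1
    push_cast
    omega
  rw [h1, h2]

theorem chR_per (δ : G) (n : ℕ) : chR δ (n + 68) = chR δ n := by
  unfold chR
  rw [cl_per]
  have : (n + 68).Coprime 34 ↔ n.Coprime 34 := by
    rw [cop34, cop34]
    omega
  simp only [this]

theorem cl_19 : cl 19 = (1, 0) := by
  have h : jacobiSym ((19 : ℕ) : ℤ) 17 = 1 := by norm_num
  unfold cl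
  rw [h]
  norm_num

theorem cl_5 : cl 5 = (0, 1) := by
  have h : jacobiSym ((5 : ℕ) : ℤ) 17 = -1 := by norm_num
  unfold cl
  rw [h]
  norm_num

theorem npchar_chR {δ : G} (hδ : δ ≠ 0) : NPChar 68 (fun n => (chR δ n : ℂ)) := by
  have hb : ∃ b : ℕ, b.Coprime 68 ∧ b.Coprime 34 ∧ chi δ (cl b) = -1 := by
    by_cases h : δ.1 = 1
    · refine ⟨19, by norm_num, by norm_num, ?_⟩
      rw [cl_19]
      revert δ; decide
    · refine ⟨5, by norm_num, by norm_num, ?_⟩
      rw [cl_5]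
      revert δ; decide
  obtain ⟨b, hb1, hb2, hb3⟩ := hb
  refine NPChar.of_ne_one (b := b) (by norm_num) ?_ ?_ ?_ ?_ ?_ hb1
  · intro m n
    rw [chR_mul]; push_cast; ring
  · intro n
    rw [chR_per]
  · intro n hn
    rcases chR_val δ n with h | h | ⟨h, -⟩
    · exfalso
      unfold chR at h
      have : ¬ n.Coprime 34 := fun hc => hn (by
        rw [show (68 : ℕ) = 34 * 2 from rfl]
        refine Nat.Coprime.mul_right hc ?_
        rw [Nat.coprime_two_right, Nat.odd_iff]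
        exact (cop34.1 hc).1)
      rw [if_neg this] at h
      norm_num at h
    · exfalso
      unfold chR at h
      have : ¬ n.Coprime 34 := fun hc => hn (by
        rw [show (68 : ℕ) = 34 * 2 from rfl]
        refine Nat.Coprime.mul_right hc ?_
        rw [Nat.coprime_two_right, Nat.odd_iff]
        exact (cop34.1 hc).1)
      rw [if_neg this] at h
      norm_num at h
    · rw [h]; simp
  · intro n
    rw [Complex.norm_real, Real.norm_eq_abs]
    exact chR_abs δ n
  · have : chR δ b = -1 := by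
      unfold chR
      rw [if_pos hb2, hb3]
      simp
    rw [this]
    norm_num

end Vale.Agent.P014.H687.FM
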