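import Vale.Agent.P014.H687.FM5b

/-!
# FM5, part c: the contribution of one unlinked set as a combination of products over the primes
-/

namespace Vale.Agent.P014.H687.FM

open Finset Vale.Agent.P014.FM

/-! ### Fourier analysis on `G ^ 4` -/

/-- the pairing on `G ^ 4` -/
def chiv (ψ g : Fin 4 → G) : ℤ := ∏ i, chi (ψ i) (g i)

theorem orth1 (x y : G) : ∑ a : G, chi a x * chi a y = if x = y then 4 else 0 := by
  revert x y; decide

theorem orth (h g : Fin 4 → G) : ∑ ψ : Fin 4 → G, chiv ψ h * chiv ψ g = if h = g then 256 else 0 := by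
  have h1 := Finset.prod_univ_sum (t := fun _ : Fin 4 => (univ : Finset G))
    (f := fun i a => chi a (h i) * chi a (g i))
  rw [Fintype.piFinset_univ] at h1
  have h2 : ∑ ψ : Fin 4 → G, chiv ψ h * chiv ψ g =
      ∑ ψ : Fin 4 → G, ∏ i, (chi (ψ i) (h i) * chi (ψ i) (g i)) := by
    refine Finset.sum_congr rfl fun ψ _ => ?_
    rw [chiv, chiv, ← Finset.prod_mul_distrib]
  rw [h2, ← h1]
  simp_rw [orth1]
  by_cases hhg : h = g
  · rw [if_pos hhg, hhg]
    simp
  · rw [if_neg hhg]
    obtain ⟨i, hi⟩ := Function.ne_iff.1 hhg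
    exact Finset.prod_eq_zero (mem_univ i) (if_neg hi)

/-- Fourier transform -/
def hat (F : (Fin 4 → G) → ℤ) (ψ : Fin 4 → G) : ℤ := ∑ h, F h * chiv ψ h

theorem inv (F : (Fin 4 → G) → ℤ) (g : Fin 4 → G) :
    256 * F g = ∑ ψ, hat F ψ * chiv ψ g := by
  unfold hat
  simp_rw [Finset.sum_mul]
  rw [Finset.sum_comm]
  have : ∀ h : Fin 4 → G, ∑ ψ, F h * chiv ψ h * chiv ψ g = F h * if h = g then 256 else 0 := by
    intro h
    rw [← orth, Finset.mul_sum]
    exact Finset.sum_congr rfl fun ψ _ => by ring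
  simp_rw [this]
  simp [mul_comm]

/-! ### The sign on an unlinked set -/

/-- sign of a pair -/
def pr (e : Fin 4 → Idx) (g : Fin 4 → G) (i j : Fin 4) : ℤ :=
  if Phi (e i) (e j) = 1 then sg ((g i).1 * (g j).1) else 1

/-- sign of one coordinate -/
def sgl (e : Fin 4 → Idx) (g : Fin 4 → G) (i : Fin 4) : ℤ :=
  (if e17 (e i) = 1 then sg (g i).2 else 1) * (if e4 (e i) = 1 then sg (g i).1 else 1)

/-- the sign attached to the classes of a tuple supported on an unlinked set -/
def Fe (e : Fin 4 → Idx) (g : Fin 4 → G) : ℤ :=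
  (sgl e g 0 * sgl e g 1 * sgl e g 2 * sgl e g 3) *
    (pr e g 0 1 * pr e g 0 2 * pr e g 0 3 * pr e g 1 2 * pr e g 1 3 * pr e g 2 3)

theorem Phi_self (u : Idx) : Phi u u = 0 := by
  revert u; decide

theorem J_one_left (b : ℕ) : J 1 b = 1 := by
  unfold Vale.Agent.P014.H580.J
  rw [Nat.cast_one, jacobiSym.one_left]
  simp

theorem J_one_right (a : ℕ) : J a 1 = 1 := by
  unfold Vale.Agent.P014.H580.J
  rw [jacobiSym.one_right]
  simp

theorem tuples_cop {n : ℕ} (hn : Squarefree n) {D : Idx → ℕ} (hD : D ∈ tuples n) {u v : Idx}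
    (huv : u ≠ v) : (D u).Coprime (D v) := by
  have h := (mem_tuples hn.ne_zero).1 hD
  have h1 : D u * D v ∣ n := by
    rw [← h, ← Finset.prod_pair huv]
    exact Finset.prod_dvd_prod_of_subset _ _ _ (Finset.subset_univ _)
  exact Nat.coprime_of_squarefree_mul (hn.squarefree_of_dvd h1)

theorem wt_eq {e : Fin 4 → Idx} (he : Function.Injective e)
    (hl : ∀ i j, Phi (e i) (e j) = Phi (e j) (e i)) {n : ℕ} (hn : Squarefree n)
    (h34 : n.Coprime 34) {D : Idx → ℕ} (hD : D ∈ tuples n)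
    (hs : ∀ u, u ∉ univ.image e → D u = 1) :
    wt D = (Fe e (fun i => cl (D (e i))) : ℝ) := by
  have hgood : ∀ u, (D u).Coprime 34 := fun u => Nat.Coprime.coprime_dvd_left (tuples_dvd hD u) h34
  have hodd : ∀ u, D u % 2 = 1 := fun u => (cop34.1 (hgood u)).1
  have h17 : ∀ u, ¬ 17 ∣ D u := fun u => (cop34.1 (hgood u)).2
  set g : Fin 4 → G := fun i => cl (D (e i)) with hg
  set B : Idx → Idx → ℝ := fun u v => if Phi u v = 1 then J (D u) (D v) else 1 with hB
  have hA : ∏ u, ((if e17 u = 1 then J (D u) 17 else 1) * (if e4 u = 1 then chi4 (D u) else 1)) =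
      ∏ i, (sgl e g i : ℝ) := by
    have h1 : ∏ u, ((if e17 u = 1 then J (D u) 17 else 1) *
        (if e4 u = 1 then chi4 (D u) else 1)) =
        ∏ u ∈ univ.image e, ((if e17 u = 1 then J (D u) 17 else 1) *
        (if e4 u = 1 then chi4 (D u) else 1)) := by
      symm
      refine Finset.prod_subset (Finset.subset_univ _) fun u _ hu => ?_
      rw [hs u hu, J_one_left]
      have : chi4 1 = 1 := by unfold chi4; rw [if_pos (by norm_num)]
      rw [this]
      simp
    rw [h1, Finset.prod_image (fun i _ j _ h => he h)]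
    refine Finset.prod_congr rfl fun i _ => ?_
    rw [J17_eq (h17 _), chi4_eq (hodd _), sgl]
    push_cast
    split_ifs <;> simp [hg]
  have hBB : ∏ u, ∏ v, B u v = ∏ i, ∏ j, B (e i) (e j) := by
    have h2 : ∀ u v, u ∉ univ.image e → B u v = 1 := by
      intro u v hu
      simp only [hB]
      rw [hs u hu, J_one_left]
      simp
    have h3 : ∀ u v, v ∉ univ.image e → B u v = 1 := by
      intro u v hv
      simp only [hB]
      rw [hs v hv, J_one_right]
      simp
    have h4 : ∏ u, ∏ v, B u v = ∏ u ∈ univ.image e, ∏ v ∈ univ.image e, B u v := by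
      symm
      rw [Finset.prod_subset (Finset.subset_univ (univ.image e))
        (fun u _ hu => Finset.prod_eq_one fun v _ => h2 u v hu)]
      refine Finset.prod_congr rfl fun u _ => ?_
      exact Finset.prod_subset (Finset.subset_univ _) fun v _ hv => h3 u v hv
    rw [h4, Finset.prod_image (fun i _ j _ h => he h)]
    refine Finset.prod_congr rfl fun i _ => ?_
    rw [Finset.prod_image (fun i _ j _ h => he h)]
  have hdiag : ∀ i, B (e i) (e i) = 1 := by
    intro i
    simp only [hB, Phi_self]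
    simp
  have hpair : ∀ i j, i ≠ j → B (e i) (e j) * B (e j) (e i) = (pr e g i j : ℝ) := by
    intro i j hij
    simp only [hB, pr]
    rw [← hl i j]
    by_cases h : Phi (e i) (e j) = 1
    · rw [if_pos h, if_pos h, if_pos h]
      exact recip (hodd _) (hodd _) (tuples_cop hn hD (fun h' => hij (he h')))
    · rw [if_neg h, if_neg h, if_neg h]
      simp
  have hfin : wt D = (∏ i, (sgl e g i : ℝ)) * ∏ i, ∏ j, B (e i) (e j) := by
    rw [← hBB, ← hA]
    rfl
  rw [hfin, Fe]
  simp only [Fin.prod_univ_four, hdiag]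
  push_cast
  rw [← hpair 0 1 (by decide), ← hpair 0 2 (by decide), ← hpair 0 3 (by decide),
    ← hpair 1 2 (by decide), ← hpair 1 3 (by decide), ← hpair 2 3 (by decide)]
  ring

/-! ### The local functions -/

/-- the local factor attached to `ψ` -/
noncomputable def hf (e : Fin 4 → Idx) (ψ : Fin 4 → G) (u : Idx) (d : ℕ) : ℝ :=
  if d = 1 then 1 else ∑ i, if e i = u then chR (ψ i) d else 0

theorem hf_one (e : Fin 4 → Idx) (ψ : Fin 4 → G) (u : Idx) : hf e ψ u 1 = 1 := by
  rw [hf, if_pos rfl]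

theorem hf_e {e : Fin 4 → Idx} (he : Function.Injective e) (ψ : Fin 4 → G) (i : Fin 4) (d : ℕ) :
    hf e ψ (e i) d = chR (ψ i) d := by
  rw [hf]
  by_cases hd : d = 1
  · rw [if_pos hd, hd, chR_one]
  · rw [if_neg hd]
    have : ∀ j, (if e j = e i then chR (ψ j) d else 0) = if j = i then chR (ψ j) d else 0 := by
      intro j
      simp only [he.eq_iff]
    simp_rw [this]
    simp

theorem hf_off {e : Fin 4 → Idx} (ψ : Fin 4 → G) {u : Idx} (hu : u ∉ univ.image e) (d : ℕ) :
    hf e ψ u d = if d = 1 then 1 else 0 := by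
  rw [hf]
  have : ∀ i, e i ≠ u := fun i h => hu (mem_image.2 ⟨i, mem_univ _, h⟩)
  simp [this]

theorem hf_mul {e : Fin 4 → Idx} (he : Function.Injective e) (ψ : Fin 4 → G) (u : Idx) (a p : ℕ)
    (hp : p.Prime) : hf e ψ u (a * p) = hf e ψ u a * hf e ψ u p := by
  by_cases hu : u ∈ univ.image e
  · obtain ⟨i, -, rfl⟩ := mem_image.1 hu
    rw [hf_e he, hf_e he, hf_e he, chR_mul]
  · rw [hf_off ψ hu, hf_off ψ hu, hf_off ψ hu, if_neg hp.one_lt.ne', mul_zero, if_neg]
    intro h
    exact hp.one_lt.ne' (Nat.dvd_one.1 (h ▸ dvd_mul_left p a))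

theorem hf_sum {e : Fin 4 → Idx} (ψ : Fin 4 → G) (p : ℕ) (hp : p.Prime) :
    ∑ u, hf e ψ u p = ∑ i, chR (ψ i) p := by
  have : ∀ u, hf e ψ u p = ∑ i, if e i = u then chR (ψ i) p else 0 := by
    intro u
    rw [hf, if_neg hp.one_lt.ne']
  simp_rw [this]
  rw [Finset.sum_comm]
  refine Finset.sum_congr rfl fun i _ => ?_
  simp

theorem prod_hf {e : Fin 4 → Idx} (he : Function.Injective e) (ψ : Fin 4 → G) {n : ℕ}
    (h34 : n.Coprime 34) {D : Idx → ℕ} (hD : D ∈ tuples n) [Decidable (∀ u, u ∉ univ.image e → D u = 1)] :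
    ∏ u, hf e ψ u (D u) = if (∀ u, u ∉ univ.image e → D u = 1) then
      (chiv ψ (fun i => cl (D (e i))) : ℝ) else 0 := by
  have hgood : ∀ u, (D u).Coprime 34 := fun u => Nat.Coprime.coprime_dvd_left (tuples_dvd hD u) h34
  split_ifs with hs
  · have h1 : ∏ u, hf e ψ u (D u) = ∏ u ∈ univ.image e, hf e ψ u (D u) := by
      symm
      refine Finset.prod_subset (Finset.subset_univ _) fun u _ hu => ?_
      rw [hs u hu, hf_one]
    rw [h1, Finset.prod_image (fun i _ j _ h => he h), chiv]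
    push_cast
    refine Finset.prod_congr rfl fun i _ => ?_
    rw [hf_e he, chR, if_pos (hgood _)]
  · push Not at hs
    obtain ⟨u, hu, hu1⟩ := hs
    refine Finset.prod_eq_zero (mem_univ u) ?_
    rw [hf_off ψ hu, if_neg hu1]

/-- the average of the four characters -/
noncomputable def fav (ψ : Fin 4 → G) (p : ℕ) : ℝ := (1 / 4) * ∑ i, chR (ψ i) p

theorem mainU_eq {e : Fin 4 → Idx} (he : Function.Injective e)
    (hl : ∀ i j, Phi (e i) (e j) = Phi (e j) (e i)) {n : ℕ} (hn : Squarefree n)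
    (h34 : n.Coprime 34) :
    mainU (univ.image e) n = (1 / 256) * ∑ ψ : Fin 4 → G,
      (hat (Fe e) ψ : ℝ) * ∏ p ∈ n.primeFactors, fav ψ p := by
  classical
  have h1 : ∀ ψ : Fin 4 → G, ∏ p ∈ n.primeFactors, fav ψ p =
      (1 / 4) ^ n.primeFactors.card * ∑ D ∈ tuples n, ∏ u, hf e ψ u (D u) := by
    intro ψ
    rw [tuples_sum (hf_one e ψ) (fun u a p hp _ => hf_mul he ψ u a p hp) n hn]
    unfold fav
    rw [Finset.prod_mul_distrib, Finset.prod_const]
    congr 1
    refine Finset.prod_congr rfl fun p hp => ?_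
    rw [hf_sum ψ p (Nat.prime_of_mem_primeFactors hp)]
  simp_rw [h1]
  unfold mainU
  have h2 : ∑ D ∈ (tuples n).filter (fun D => ∀ u, u ∉ univ.image e → D u = 1), wt D =
      ∑ D ∈ tuples n, (1 / 256) * ∑ ψ : Fin 4 → G, (hat (Fe e) ψ : ℝ) *
        ∏ u, hf e ψ u (D u) := by
    rw [Finset.sum_filter]
    refine Finset.sum_congr rfl fun D hD => ?_
    by_cases hs : ∀ u, u ∉ univ.image e → D u = 1
    · rw [if_pos hs, wt_eq he hl hn h34 hD hs]
      have h3 := inv (Fe e) (fun i => cl (D (e i)))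
      have h4 : (256 : ℝ) * (Fe e (fun i => cl (D (e i))) : ℝ) =
          ∑ ψ, (hat (Fe e) ψ : ℝ) * (chiv ψ (fun i => cl (D (e i))) : ℝ) := by
        exact_mod_cast h3
      have h5 : ∑ ψ : Fin 4 → G, (hat (Fe e) ψ : ℝ) * ∏ u, hf e ψ u (D u) =
          ∑ ψ, (hat (Fe e) ψ : ℝ) * (chiv ψ (fun i => cl (D (e i))) : ℝ) := by
        refine Finset.sum_congr rfl fun ψ _ => ?_
        rw [prod_hf he ψ h34 hD, if_pos hs]
      rw [h5, ← h4]
      ring
    · rw [if_neg hs]
      symm
      rw [mul_eq_zero]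
      right
      refine Finset.sum_eq_zero fun ψ _ => ?_
      rw [prod_hf he ψ h34 hD, if_neg hs, mul_zero]
  rw [h2, ← Finset.mul_sum, Finset.sum_comm]
  simp_rw [← Finset.mul_sum]
  rw [Finset.mul_sum, Finset.mul_sum, Finset.mul_sum]
  refine Finset.sum_congr rfl fun ψ _ => ?_
  ring

end Vale.Agent.P014.H687.FM
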