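import Vale.Agent.P014.H580.FMDefs

/-!
# FM5: the list of the 24 maximal unlinked sets
-/

namespace Vale.Agent.P014.H687.FM

open Finset Vale.Agent.P014.FM

/-- enumerations of the 24 maximal unlinked sets -/
def L : List (Fin 4 → Idx) :=
  [![((0,0),(0,0)), ((0,0),(0,1)), ((0,0),(1,0)), ((0,0),(1,1))],
   ![((0,0),(0,0)), ((0,0),(0,1)), ((0,1),(0,0)), ((0,1),(0,1))],
   ![((0,0),(0,0)), ((0,0),(1,0)), ((1,0),(0,0)), ((1,0),(1,0))],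
   ![((0,0),(0,0)), ((0,0),(1,1)), ((1,1),(0,0)), ((1,1),(1,1))],
   ![((0,0),(0,0)), ((0,1),(0,0)), ((1,0),(0,0)), ((1,1),(0,0))],
   ![((0,0),(0,0)), ((0,1),(0,1)), ((1,0),(1,0)), ((1,1),(1,1))],
   ![((0,0),(0,1)), ((0,0),(1,0)), ((1,1),(0,1)), ((1,1),(1,0))],
   ![((0,0),(0,1)), ((0,0),(1,1)), ((1,0),(0,1)), ((1,0),(1,1))],
   ![((0,0),(0,1)), ((0,1),(0,0)), ((1,0),(1,1)), ((1,1),(1,0))],
   ![((0,0),(0,1)), ((0,1),(0,1)), ((1,0),(0,1)), ((1,1),(0,1))],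
   ![((0,0),(1,0)), ((0,0),(1,1)), ((0,1),(1,0)), ((0,1),(1,1))],
   ![((0,0),(1,0)), ((0,1),(1,0)), ((1,0),(1,0)), ((1,1),(1,0))],
   ![((0,0),(1,0)), ((0,1),(1,1)), ((1,0),(0,0)), ((1,1),(0,1))],
   ![((0,0),(1,1)), ((0,1),(1,0)), ((1,0),(0,1)), ((1,1),(0,0))],
   ![((0,0),(1,1)), ((0,1),(1,1)), ((1,0),(1,1)), ((1,1),(1,1))],
   ![((0,1),(0,0)), ((0,1),(0,1)), ((0,1),(1,0)), ((0,1),(1,1))],
   ![((0,1),(0,0)), ((0,1),(1,0)), ((1,1),(0,0)), ((1,1),(1,0))],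
   ![((0,1),(0,0)), ((0,1),(1,1)), ((1,0),(0,0)), ((1,0),(1,1))],
   ![((0,1),(0,1)), ((0,1),(1,0)), ((1,0),(0,1)), ((1,0),(1,0))],
   ![((0,1),(0,1)), ((0,1),(1,1)), ((1,1),(0,1)), ((1,1),(1,1))],
   ![((1,0),(0,0)), ((1,0),(0,1)), ((1,0),(1,0)), ((1,0),(1,1))],
   ![((1,0),(0,0)), ((1,0),(0,1)), ((1,1),(0,0)), ((1,1),(0,1))],
   ![((1,0),(1,0)), ((1,0),(1,1)), ((1,1),(1,0)), ((1,1),(1,1))],
   ![((1,1),(0,0)), ((1,1),(0,1)), ((1,1),(1,0)), ((1,1),(1,1))]]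

theorem Us_eq : Us = (L.map (fun e => univ.image e)).toFinset := by
  decide +kernel

theorem L_nodup : (L.map (fun e => univ.image e)).Nodup := by
  decide +kernel

/-- injectivity and the unlinked property -/
def okL (e : Fin 4 → Idx) : Bool :=
  decide (∀ i j, e i = e j → i = j) && decide (∀ i j, Phi (e i) (e j) = Phi (e j) (e i))

theorem L_all : L.all okL = true := by
  decide +kernel

theorem L_inj {e : Fin 4 → Idx} (h : e ∈ L) : Function.Injective e := by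
  have h1 := List.all_eq_true.1 L_all e h
  rw [okL, Bool.and_eq_true] at h1
  exact fun i j => of_decide_eq_true h1.1 i j

theorem L_unl {e : Fin 4 → Idx} (h : e ∈ L) : ∀ i j, Phi (e i) (e j) = Phi (e j) (e i) := by
  have h1 := List.all_eq_true.1 L_all e h
  rw [okL, Bool.and_eq_true] at h1
  exact of_decide_eq_true h1.2

end Vale.Agent.P014.H687.FM
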