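import Vale.Agent.P014.H687.FM5c
import Vale.Agent.P014.H687.FM5u
import Vale.Agent.P014.H687.FM2b

/-!
# FM5: the main term of the first moment
-/

namespace Vale.Agent.P014.H687.FM

open Finset Vale.Agent.P014.FM Asymptotics Filter

/-! ### The constants -/

/-- the constant of an unlinked set (times `64`) -/
def cs (e : Fin 4 → Idx) : ℤ :=
  ∑ h : Fin 4 → G, if h 0 + h 1 + h 2 + h 3 = (1, 1) then Fe e h else 0

/-- nested form -/
def cn (e : Fin 4 → Idx) : ℤ :=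
  ∑ a : G, ∑ b : G, ∑ c : G, Fe e ![a, b, c, (1, 1) + a + b + c]

theorem cn_sum : (L.map cn).sum = 192 := by
  decide +kernel

/-- functions on `Fin 4` as quadruples -/
def E4 : (Fin 4 → G) ≃ G × G × G × G where
  toFun h := (h 0, h 1, h 2, h 3)
  invFun x := ![x.1, x.2.1, x.2.2.1, x.2.2.2]
  left_inv h := by
    funext i
    fin_cases i <;> rfl
  right_inv x := rfl

theorem cs_eq (e : Fin 4 → Idx) : cs e = cn e := by
  have h1 : cs e = ∑ x : G × G × G × G,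
      if x.1 + x.2.1 + x.2.2.1 + x.2.2.2 = (1, 1) then Fe e (E4.symm x) else 0 := by
    rw [cs]
    refine Fintype.sum_equiv E4 _ _ fun h => ?_
    rw [Equiv.symm_apply_apply]
    rfl
  rw [h1, cn, Fintype.sum_prod_type]
  refine Finset.sum_congr rfl fun a _ => ?_
  rw [Fintype.sum_prod_type]
  refine Finset.sum_congr rfl fun b _ => ?_
  rw [Fintype.sum_prod_type]
  refine Finset.sum_congr rfl fun c _ => ?_
  have h2 : ∀ d : G, (a + b + c + d = (1, 1)) ↔ d = (1, 1) + a + b + c := by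
    revert a b c; decide
  simp only [h2]
  rw [Finset.sum_ite_eq' univ, if_pos (mem_univ _)]
  rfl

theorem chiv_const (δ : G) (h : Fin 4 → G) :
    chiv (fun _ => δ) h = chi δ (h 0 + h 1 + h 2 + h 3) := by
  rw [chiv, Fin.prod_univ_four, chi_add, chi_add, chi_add]

theorem cs_hat (e : Fin 4 → Idx) :
    ∑ δ : G, hat (Fe e) (fun _ => δ) * chi δ (1, 1) = 4 * cs e := by
  unfold hat cs
  simp_rw [Finset.sum_mul]
  rw [Finset.sum_comm, Finset.mul_sum]
  refine Finset.sum_congr rfl fun h _ => ?_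
  simp_rw [chiv_const]
  have h1 : ∑ δ : G, Fe e h * chi δ (h 0 + h 1 + h 2 + h 3) * chi δ (1, 1) =
      Fe e h * ∑ δ : G, chi δ (h 0 + h 1 + h 2 + h 3) * chi δ (1, 1) := by
    rw [Finset.mul_sum]
    exact Finset.sum_congr rfl fun δ _ => by ring
  rw [h1, orth1]
  split_ifs <;> ring

/-- the limit constant of `ψ` -/
def kap (ψ : Fin 4 → G) : ℤ :=
  if ψ 0 = ψ 1 ∧ ψ 0 = ψ 2 ∧ ψ 0 = ψ 3 then chi (ψ 0) (1, 1) else 0

theorem sum_kap (F : (Fin 4 → G) → ℤ) :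
    ∑ ψ, F ψ * kap ψ = ∑ δ : G, F (fun _ => δ) * chi δ (1, 1) := by
  unfold kap
  have h1 : ∀ ψ : Fin 4 → G, F ψ * (if ψ 0 = ψ 1 ∧ ψ 0 = ψ 2 ∧ ψ 0 = ψ 3 then
      chi (ψ 0) (1, 1) else 0) =
      if ψ 0 = ψ 1 ∧ ψ 0 = ψ 2 ∧ ψ 0 = ψ 3 then F ψ * chi (ψ 0) (1, 1) else 0 := by
    intro ψ
    split_ifs <;> simp
  simp_rw [h1]
  rw [← Finset.sum_filter]
  refine Finset.sum_bij' (fun ψ _ => ψ 0) (fun δ _ => fun _ => δ) ?_ ?_ ?_ ?_ ?_
  · intro ψ _; exact mem_univ _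
  · intro δ _; simp
  · intro ψ hψ
    obtain ⟨h1, h2, h3⟩ := (mem_filter.1 hψ).2
    funext i
    fin_cases i
    · rfl
    · exact h1
    · exact h2
    · exact h3
  · intro δ _; rfl
  · intro ψ hψ
    obtain ⟨h1, h2, h3⟩ := (mem_filter.1 hψ).2
    have : ψ = fun _ => ψ 0 := by
      funext i
      fin_cases i
      · rfl
      · exact h1.symm
      · exact h2.symm
      · exact h3.symm
    conv_lhs => rw [this]

/-! ### The sums over the family -/

theorem IsDm_cop {n : ℕ} (h : IsDm n) : n.Coprime 34 := by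
  obtain ⟨h1, h2, h3⟩ := h
  rw [cop34]
  refine ⟨by omega, fun hd => ?_⟩
  have : jacobiSym (n : ℤ) 17 = 0 := by
    rw [jacobiSym.eq_zero_iff_not_coprime]
    obtain ⟨k, rfl⟩ := hd
    intro hg
    have h5 : Int.gcd ((17 * k : ℕ) : ℤ) ((17 : ℕ) : ℤ) = 1 := hg
    rw [Int.gcd_natCast_natCast] at h5
    have h6 : (17 * k).gcd 17 = 17 := Nat.gcd_eq_right (dvd_mul_right 17 k)
    omega
  rw [this] at h3
  norm_num at h3

theorem IsDm_cl {n : ℕ} (h : IsDm n) : cl n = (1, 1) := by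
  obtain ⟨h1, h2, h3⟩ := h
  unfold FM.cl
  rw [if_pos h2, if_pos h3]

theorem mem_Dm {X n : ℕ} : n ∈ Dm X ↔ n ≤ X ∧ IsDm n := by
  simp only [Dm, mem_filter, mem_range]
  constructor
  · rintro ⟨h1, h2⟩; exact ⟨by omega, h2⟩
  · rintro ⟨h1, h2⟩; exact ⟨by omega, h2⟩

theorem Dm_subset (X : ℕ) : Dm X ⊆ sqf X := by
  intro n hn
  obtain ⟨h1, h2⟩ := mem_Dm.1 hn
  exact mem_sqf.2 ⟨⟨Nat.pos_of_ne_zero h2.1.ne_zero, h1⟩, h2.1⟩

theorem prod_chR (δ : G) {n : ℕ} (hn : Squarefree n) :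
    ∏ p ∈ n.primeFactors, chR δ p = chR δ n := by
  let f : ℕ →* ℝ := { toFun := chR δ, map_one' := chR_one δ, map_mul' := chR_mul δ }
  have h : f (∏ p ∈ n.primeFactors, p) = ∏ p ∈ n.primeFactors, f p := map_prod f _ _
  rw [Nat.prod_primeFactors_of_squarefree hn] at h
  exact h.symm

/-- the sum attached to `ψ` -/
noncomputable def Tψ (ψ : Fin 4 → G) (X : ℕ) : ℝ :=
  ∑ n ∈ Dm X, ∏ p ∈ n.primeFactors, fav ψ p

theorem T_const (δ : G) (X : ℕ) : Tψ (fun _ => δ) X = chi δ (1, 1) * ((Dm X).card : ℝ) := by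
  unfold Tψ
  have h1 : ∀ p, fav (fun _ => δ) p = chR δ p := by
    intro p
    unfold fav
    rw [Finset.sum_const]
    simp
  simp_rw [h1]
  rw [Finset.sum_congr rfl (g := fun _ => (chi δ (1, 1) : ℝ)), Finset.sum_const, nsmul_eq_mul,
    mul_comm]
  intro n hn
  have hD := (mem_Dm.1 hn).2
  rw [prod_chR δ hD.1, chR, if_pos (IsDm_cop hD), IsDm_cl hD]

theorem fav_abs (ψ : Fin 4 → G) (p : ℕ) : |fav ψ p| ≤ 1 := by
  unfold fav
  rw [abs_mul]
  have h1 : |∑ i, chR (ψ i) p| ≤ 4 := by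
    calc |∑ i, chR (ψ i) p| ≤ ∑ i, |chR (ψ i) p| := Finset.abs_sum_le_sum_abs _ _
      _ ≤ ∑ _i : Fin 4, (1 : ℝ) := Finset.sum_le_sum fun i _ => chR_abs (ψ i) p
      _ = 4 := by simp
  rw [abs_of_pos (by norm_num : (0 : ℝ) < 1 / 4)]
  linarith

theorem fav_half {ψ : Fin 4 → G} {i j : Fin 4} (hij : i ≠ j) {p : ℕ}
    (h : chR (ψ i + ψ j) p = -1) : |fav ψ p| ≤ 1 / 2 := by
  have hp : p.Coprime 34 := by
    by_contra hc
    unfold chR at h
    rw [if_neg hc] at h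
    norm_num at h
  have h1 : chR (ψ i) p + chR (ψ j) p = 0 := by
    unfold chR at h ⊢
    rw [if_pos hp] at h ⊢
    rw [if_pos hp]
    have h2 : chi (ψ i + ψ j) (FM.cl p) = -1 := by exact_mod_cast h
    have h3 : ∀ x y z : G, chi (x + y) z = -1 → chi x z + chi y z = 0 := by decide
    exact_mod_cast h3 _ _ _ h2
  unfold fav
  have h2 : ∑ k, chR (ψ k) p = ∑ k ∈ univ \ {i, j}, chR (ψ k) p := by
    rw [← Finset.sum_sdiff (Finset.subset_univ {i, j}), Finset.sum_pair hij, h1, add_zero]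
  have h3 : |∑ k, chR (ψ k) p| ≤ 2 := by
    rw [h2]
    calc |∑ k ∈ univ \ {i, j}, chR (ψ k) p| ≤ ∑ k ∈ univ \ {i, j}, |chR (ψ k) p| :=
          Finset.abs_sum_le_sum_abs _ _
      _ ≤ ∑ _k ∈ univ \ {i, j}, (1 : ℝ) := Finset.sum_le_sum fun k _ => chR_abs (ψ k) p
      _ = 2 := by
          rw [Finset.sum_const, Finset.card_sdiff_of_subset (Finset.subset_univ _),
            Finset.card_pair hij]
          simp
  rw [abs_mul, abs_of_pos (by norm_num : (0 : ℝ) < 1 / 4)]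
  linarith

theorem T_nonconst (hsw : SW) {ψ : Fin 4 → G} {i j : Fin 4} (hij : ψ i ≠ ψ j) :
    Tψ ψ =o[atTop] fun X : ℕ => (X : ℝ) := by
  have hne : i ≠ j := fun h => hij (by rw [h])
  have hδ : ψ i + ψ j ≠ 0 := by
    have : ∀ x y : G, x + y = 0 → x = y := by decide
    exact fun h => hij (this _ _ h)
  obtain ⟨C, hC, hb⟩ := fm2c hsw (npchar_chR hδ) (chR_val _)
  have hlim : Tendsto (fun X : ℕ => C * Real.log X ^ (-(1 / 4 : ℝ))) atTop (nhds 0) := by
    have h1 := (tendsto_rpow_neg_atTop (by norm_num : (0 : ℝ) < 1 / 4)).comp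
      (Real.tendsto_log_atTop.comp tendsto_natCast_atTop_atTop)
    have h2 := h1.const_mul C
    rw [mul_zero] at h2
    exact h2
  refine IsLittleO.of_bound fun c hc => ?_
  filter_upwards [hlim.eventually_le_const hc, eventually_ge_atTop 3] with X hX hX3
  have hX3' : (3 : ℝ) ≤ X := by exact_mod_cast hX3
  have h1 := hb X hX3' (fun p => |fav ψ p|) (fun p => abs_nonneg _) (fun p _ => fav_abs ψ p)
    (fun p _ hp => fav_half hne hp)
  rw [Nat.floor_natCast] at h1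
  have h2 : |Tψ ψ X| ≤ ∑ n ∈ sqf X, mf (fun p => |fav ψ p|) n := by
    unfold Tψ
    refine (Finset.abs_sum_le_sum_abs _ _).trans ?_
    refine le_trans (le_of_eq (Finset.sum_congr rfl fun n _ => Finset.abs_prod _ _)) ?_
    exact Finset.sum_le_sum_of_subset_of_nonneg (Dm_subset X)
      (fun n _ _ => mf_nonneg (fun p => abs_nonneg _) n)
  rw [Real.norm_eq_abs, Real.norm_natCast]
  calc |Tψ ψ X| ≤ C * X * Real.log X ^ (-(1 / 4 : ℝ)) := h2.trans h1
    _ = (C * Real.log X ^ (-(1 / 4 : ℝ))) * X := by ring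
    _ ≤ c * X := by gcongr

theorem T_lim (hsw : SW) (ψ : Fin 4 → G) :
    (fun X : ℕ => Tψ ψ X - kap ψ * ((Dm X).card : ℝ)) =o[atTop] fun X : ℕ => (X : ℝ) := by
  by_cases h : ψ 0 = ψ 1 ∧ ψ 0 = ψ 2 ∧ ψ 0 = ψ 3
  · have h1 : ψ = fun _ => ψ 0 := by
      funext i
      fin_cases i
      · rfl
      · exact h.1.symm
      · exact h.2.1.symm
      · exact h.2.2.symm
    have h2 : (fun X : ℕ => Tψ ψ X - kap ψ * ((Dm X).card : ℝ)) = fun _ => 0 := by
      funext X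
      unfold kap
      rw [if_pos h]
      conv_lhs => rw [h1]
      rw [T_const]
      ring
    rw [h2]
    exact isLittleO_zero _ _
  · have h2 : (fun X : ℕ => Tψ ψ X - kap ψ * ((Dm X).card : ℝ)) = Tψ ψ := by
      funext X
      unfold kap
      rw [if_neg h]
      simp
    rw [h2]
    have h3 : ψ 0 ≠ ψ 1 ∨ ψ 0 ≠ ψ 2 ∨ ψ 0 ≠ ψ 3 := by tauto
    rcases h3 with h3 | h3 | h3
    · exact T_nonconst hsw h3
    · exact T_nonconst hsw h3
    · exact T_nonconst hsw h3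

theorem main_e (hsw : SW) {e : Fin 4 → Idx} (he : e ∈ L) :
    (fun X : ℕ => ∑ n ∈ Dm X, mainU (univ.image e) n - cn e / 64 * ((Dm X).card : ℝ))
      =o[atTop] fun X : ℕ => (X : ℝ) := by
  have h1 : (fun X : ℕ => ∑ n ∈ Dm X, mainU (univ.image e) n - cn e / 64 * ((Dm X).card : ℝ)) =
      fun X : ℕ => (1 / 256) * ∑ ψ : Fin 4 → G, (hat (Fe e) ψ : ℝ) *
        (Tψ ψ X - kap ψ * ((Dm X).card : ℝ)) := by
    funext X
    have h2 : ∑ n ∈ Dm X, mainU (univ.image e) n =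
        (1 / 256) * ∑ ψ : Fin 4 → G, (hat (Fe e) ψ : ℝ) * Tψ ψ X := by
      rw [Finset.sum_congr rfl fun n hn => mainU_eq (L_inj he) (L_unl he) (mem_Dm.1 hn).2.1
        (IsDm_cop (mem_Dm.1 hn).2), ← Finset.mul_sum, Finset.sum_comm]
      congr 1
      refine Finset.sum_congr rfl fun ψ _ => ?_
      rw [Tψ, Finset.mul_sum]
    have h3 : ∑ ψ : Fin 4 → G, (hat (Fe e) ψ : ℝ) * (kap ψ : ℝ) = 4 * (cn e : ℝ) := by
      rw [← cs_eq]
      exact_mod_cast (sum_kap (hat (Fe e))).trans (cs_hat e)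
    have h4 : ∑ ψ : Fin 4 → G, (hat (Fe e) ψ : ℝ) * (Tψ ψ X - kap ψ * ((Dm X).card : ℝ)) =
        ∑ ψ : Fin 4 → G, (hat (Fe e) ψ : ℝ) * Tψ ψ X -
        (∑ ψ : Fin 4 → G, (hat (Fe e) ψ : ℝ) * (kap ψ : ℝ)) * ((Dm X).card : ℝ) := by
      rw [Finset.sum_mul, ← Finset.sum_sub_distrib]
      exact Finset.sum_congr rfl fun ψ _ => by ring
    rw [h4, h3, h2]
    ring
  rw [h1]
  refine IsLittleO.const_mul_left ?_ _
  have h := IsLittleO.sum (s := univ) (A := fun (ψ : Fin 4 → G) (X : ℕ) =>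
    (hat (Fe e) ψ : ℝ) * (Tψ ψ X - kap ψ * ((Dm X).card : ℝ)))
    (fun ψ _ => (T_lim hsw ψ).const_mul_left _)
  refine h.congr_left fun X => ?_
  rw [Finset.sum_apply]

theorem list_littleO {α : Type*} (l : List α) (F : α → ℕ → ℝ) (g : ℕ → ℝ)
    (h : ∀ e ∈ l, F e =o[atTop] g) : (fun X => (l.map (fun e => F e X)).sum) =o[atTop] g := by
  induction l with
  | nil => simp
  | cons a l ih =>
    simp only [List.map_cons, List.sum_cons]
    exact (h a List.mem_cons_self).add (ih fun e he => h e (List.mem_cons_of_mem a he))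

theorem fm5_littleO (hsw : SW) :
    (fun X : ℕ => ∑ n ∈ Dm X, ∑ U ∈ Us, mainU U n - 3 * ((Dm X).card : ℝ))
      =o[atTop] fun X : ℕ => (X : ℝ) := by
  have h1 : (fun X : ℕ => ∑ n ∈ Dm X, ∑ U ∈ Us, mainU U n - 3 * ((Dm X).card : ℝ)) =
      fun X : ℕ => (L.map (fun e => ∑ n ∈ Dm X, mainU (univ.image e) n -
        cn e / 64 * ((Dm X).card : ℝ))).sum := by
    funext X
    rw [Finset.sum_comm, Us_eq, List.sum_toFinset _ L_nodup, List.map_map]
    have h2 : ∀ l : List (Fin 4 → Idx), (l.map (fun e => ∑ n ∈ Dm X, mainU (univ.image e) n -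
        cn e / 64 * ((Dm X).card : ℝ))).sum =
        (l.map (fun e => ∑ n ∈ Dm X, mainU (univ.image e) n)).sum -
          (((l.map cn).sum : ℤ) : ℝ) / 64 * ((Dm X).card : ℝ) := by
      intro l
      induction l with
      | nil => simp
      | cons a l ih =>
        simp only [List.map_cons, List.sum_cons, ih]
        push_cast
        ring
    rw [h2, cn_sum]
    have h3 : ((192 : ℤ) : ℝ) / 64 = 3 := by norm_num
    rw [h3]
    rfl
  rw [h1]
  exact list_littleO L _ _ fun e he => main_e hsw he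

/-- **FM5** -/
theorem fm5 (hsw : SW) (ε : ℝ) (hε : 0 < ε) : ∃ X₀ : ℕ, ∀ X : ℕ, X₀ ≤ X →
    |∑ n ∈ Dm X, ∑ U ∈ Us, mainU U n - 3 * ((Dm X).card : ℝ)| ≤ ε * X := by
  obtain ⟨X₀, h⟩ := eventually_atTop.1 ((fm5_littleO hsw).bound hε)
  refine ⟨X₀, fun X hX => ?_⟩
  have := h X hX
  rwa [Real.norm_eq_abs, Real.norm_natCast] at this

end Vale.Agent.P014.H687.FM
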