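import Vale.Agent.P014.H687.Lf1
import Vale.Agent.P004H.H641.Iso

/-!
# P014 (H687): Mathlib's `L`-function is invariant under variable changes over `ℚ`
-/

open WeierstrassCurve IsDedekindDomain NumberField Polynomial

namespace Vale.Agent.P014.H687

open P004G P004G.ML P004G.MS Vale.Agent.P004H.H641

theorem lp_smul (E : WeierstrassCurve ℚ) (hE : E.Δ ≠ 0) (C : VariableChange ℚ) (p : ℕ)
    (hp : p.Prime) : lp (C • E) p hp = lp E p hp := by
  have hL := M2.pfLoc p hp
  unfold lp
  have e : (C • E).baseChange ((pl p hp).adicCompletion ℚ) =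
      (C.map (algebraMap ℚ ((pl p hp).adicCompletion ℚ))) •
        (E.baseChange ((pl p hp).adicCompletion ℚ)) := by
    unfold WeierstrassCurve.baseChange
    rw [WeierstrassCurve.map_variableChange]
  rw [e]
  refine locPoly_smul hL _ ?_ _
  unfold WeierstrassCurve.baseChange
  rw [WeierstrassCurve.map_Δ]
  intro h
  exact hE ((map_eq_zero (algebraMap ℚ ((pl p hp).adicCompletion ℚ))).1 h)

/-- **`LFunction` is an isomorphism invariant** -/
theorem LFunction_smul (E : WeierstrassCurve ℚ) (hE : E.Δ ≠ 0) (C : VariableChange ℚ) (n : ℕ) :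
    (C • E).LFunction n = E.LFunction n := by
  obtain ⟨e0, e1, e2, -⟩ := lf_eul (C • E)
  obtain ⟨f0, f1, f2, -⟩ := lf_eul E
  refine mult_eq (f := fun n => (C • E).LFunction n) (g := fun n => E.LFunction n)
    (by rw [e0, f0]) (by rw [e1, f1]) e2 f2 ?_ n
  intro p hp k
  rw [lf_pow _ p hp, lf_pow _ p hp, lp_smul E hE C]

end Vale.Agent.P014.H687
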