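import Vale.Agent.P014.H687.Lf3
import Vale.Agent.P014.H687.LFinv

/-!
# P014 (H687): Mathlib's `L`-functions of the twists of the four curves of conductor `17`
-/

open WeierstrassCurve IsDedekindDomain NumberField Polynomial

namespace Vale.Agent.P014.H687.Isog

open P004G P004G.ML P004G.MS Vale.Agent.P004H.H641
open Vale.Agent.P014.H687
open Vale.Agent.P014.H70 (r3)

/-- the twist by `4 k + 1` of `y² + x y + y = x³ - x² + a x + b`, over any ring -/
def GW (R : Type*) [CommRing R] (a b k : ℤ) : WeierstrassCurve R :=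
  ⟨1, ((-3 * k - 1 : ℤ) : R), 1, (((4 * k + 1) ^ 2 * a + 8 * k ^ 2 + 4 * k : ℤ) : R),
    (((4 * k + 1) ^ 3 * b + 16 * k ^ 3 + 12 * k ^ 2 + 3 * k : ℤ) : R)⟩

theorem TW_GW {R : Type*} [CommRing R] (k : ℤ) : TW R k = GW R (-6) (-4) k := by
  unfold TW GW
  ext <;> simp only [] <;> congr 1 <;> ring

theorem GW_map {R S : Type*} [CommRing R] [CommRing S] (f : R →+* S) (a b k : ℤ) :
    (GW R a b k).map f = GW S a b k := by
  ext
  · simp [GW]
  · simp only [GW, WeierstrassCurve.map_a₂, map_intCast]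
  · simp [GW]
  · simp only [GW, WeierstrassCurve.map_a₄, map_intCast]
  · simp only [GW, WeierstrassCurve.map_a₆, map_intCast]

theorem GW_b₂ {R : Type*} [CommRing R] (a b k : ℤ) :
    (GW R a b k).b₂ = ((-3 * (4 * k + 1) : ℤ) : R) := by
  simp only [GW, WeierstrassCurve.b₂]
  push_cast
  ring

theorem GW_b₄ {R : Type*} [CommRing R] (a b k : ℤ) :
    (GW R a b k).b₄ = (((2 * a + 1) * (4 * k + 1) ^ 2 : ℤ) : R) := by
  simp only [GW, WeierstrassCurve.b₄]
  push_cast
  ring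

theorem GW_b₆ {R : Type*} [CommRing R] (a b k : ℤ) :
    (GW R a b k).b₆ = (((4 * b + 1) * (4 * k + 1) ^ 3 : ℤ) : R) := by
  simp only [GW, WeierstrassCurve.b₆]
  push_cast
  ring

/-- the discriminant of the base curve -/
def dis (a b : ℤ) : ℤ := (GW ℤ a b 0).Δ

/-- `c₄` of the base curve -/
def c4 (a : ℤ) : ℤ := 9 - 24 * (2 * a + 1)

theorem GW_Δ {R : Type*} [CommRing R] (a b k : ℤ) :
    (GW R a b k).Δ = ((dis a b * (4 * k + 1) ^ 6 : ℤ) : R) := by
  simp only [dis, GW, WeierstrassCurve.Δ, WeierstrassCurve.b₂, WeierstrassCurve.b₄,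
    WeierstrassCurve.b₆, WeierstrassCurve.b₈]
  push_cast
  ring

theorem GW_c₄ {R : Type*} [CommRing R] (a b k : ℤ) :
    (GW R a b k).c₄ = ((c4 a * (4 * k + 1) ^ 2 : ℤ) : R) := by
  simp only [c4, GW, WeierstrassCurve.c₄, WeierstrassCurve.b₂, WeierstrassCurve.b₄]
  push_cast
  ring

theorem GW_base (a b k : ℤ) (K : Type*) [Field K] [Algebra ℚ K] :
    (GW ℚ a b k).baseChange K = GW K a b k := GW_map _ a b k

/-! ### point counts -/

section count

variable {p : ℕ} [hp : Fact p.Prime]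

/-- **the character sums of 2-isogenous curves** -/
theorem isog_sum (hp2 : p ≠ 2) (a b : ZMod p) (hb : b ≠ 0) :
    ∑ x : ZMod p, quadraticChar (ZMod p) (x * (x ^ 2 + a * x + b)) =
      ∑ x : ZMod p, quadraticChar (ZMod p) (x * (x ^ 2 - 2 * a * x + (a ^ 2 - 4 * b))) := by
  classical
  have h2 := two_ne (p := p) hp2
  have h4 : (4 : ZMod p) ≠ 0 := by
    have : (4 : ZMod p) = 2 ^ 2 := by norm_num
    rw [this]; exact pow_ne_zero _ h2
  set χ := quadraticChar (ZMod p) with hχ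
  -- the left-hand side
  have e1 : ∑ x : ZMod p, χ (x * (x ^ 2 + a * x + b)) =
      ∑ x ∈ Finset.univ.filter (fun x : ZMod p => x ≠ 0), χ (x + b / x + a) := by
    rw [Finset.sum_filter]
    refine Finset.sum_congr rfl fun x _ => ?_
    by_cases hx : x = 0
    · rw [if_neg (by simpa using hx), hx, zero_mul, hχ, MulChar.map_zero]
    · rw [if_pos hx]
      have : x * (x ^ 2 + a * x + b) = x ^ 2 * (x + b / x + a) := by field_simp; ring
      rw [this, map_mul, hχ, quadraticChar_sq_one' hx, one_mul]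
  have e2 : ∑ x ∈ Finset.univ.filter (fun x : ZMod p => x ≠ 0), χ (x + b / x + a) =
      ∑ t : ZMod p, χ (t + a) *
        ((Finset.univ.filter (fun x : ZMod p => x ≠ 0 ∧ x + b / x = t)).card : ℤ) := by
    rw [← Finset.sum_fiberwise_of_maps_to (g := fun x => x + b / x) (t := Finset.univ)
      (fun x _ => Finset.mem_univ _)]
    refine Finset.sum_congr rfl fun t _ => ?_
    rw [Finset.filter_filter, Finset.sum_congr rfl (g := fun _ => χ (t + a)), Finset.sum_const,
      nsmul_eq_mul, mul_comm]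
    intro x hx
    simp only [Finset.mem_filter, Finset.mem_univ, true_and] at hx
    rw [hx.2]
  have e3 : ∀ t : ZMod p,
      ((Finset.univ.filter (fun x : ZMod p => x ≠ 0 ∧ x + b / x = t)).card : ℤ) =
        χ (t ^ 2 - 4 * b) + 1 := by
    intro t
    rw [hχ, ← quadraticChar_card_sqrts (ringChar_ne hp2) (t ^ 2 - 4 * b)]
    congr 1
    refine Finset.card_bij (fun x _ => 2 * x - t) ?_ ?_ ?_
    · intro x hx
      simp only [Finset.mem_filter, Finset.mem_univ, true_and] at hx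
      simp only [Set.mem_toFinset, Set.mem_ofPred_eq]
      obtain ⟨hx0, hx1⟩ := hx
      rw [← hx1]
      field_simp
      ring
    · intro x _ y _ h
      exact mul_left_cancel₀ h2 (by linear_combination h)
    · intro z hz
      simp only [Set.mem_toFinset, Set.mem_ofPred_eq] at hz
      have hx0 : (z + t) / 2 ≠ 0 := by
        intro h0
        have h1 : z + t = 0 := by
          rcases div_eq_zero_iff.1 h0 with h | h
          · exact h
          · exact absurd h h2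
        have h3 : 4 * b = 0 := by
          have : z = -t := by linear_combination h1
          rw [this] at hz
          linear_combination hz
        rcases mul_eq_zero.1 h3 with h | h
        · exact h4 h
        · exact hb h
      refine ⟨(z + t) / 2, ?_, by field_simp; ring⟩
      simp only [Finset.mem_filter, Finset.mem_univ, true_and]
      refine ⟨hx0, ?_⟩
      have h5 : (z + t) / 2 * ((z + t) / 2 + b / ((z + t) / 2)) = (z + t) / 2 * t := by
        rw [mul_add, mul_div_cancel₀ _ hx0]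
        field_simp
        linear_combination hz
      exact mul_left_cancel₀ hx0 h5
  rw [e1, e2]
  simp only [e3]
  have e4 : ∑ t : ZMod p, χ (t + a) * (χ (t ^ 2 - 4 * b) + 1) =
      ∑ t : ZMod p, χ ((t + a) * (t ^ 2 - 4 * b)) + ∑ t : ZMod p, χ (t + a) := by
    rw [← Finset.sum_add_distrib]
    refine Finset.sum_congr rfl fun t _ => ?_
    rw [map_mul]; ring
  have e5 : ∑ t : ZMod p, χ (t + a) = 0 := by
    rw [← quadraticChar_sum_zero (F := ZMod p) (ringChar_ne hp2)]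
    exact Fintype.sum_equiv (Equiv.addRight a) _ _ fun t => rfl
  rw [e4, e5, add_zero]
  refine Fintype.sum_equiv (Equiv.addRight a) _ _ fun t => ?_
  congr 1
  change _ = (t + a) * ((t + a) ^ 2 - 2 * a * (t + a) + (a ^ 2 - 4 * b))
  ring

/-- the character sum of `y² = x (x² + a x + b)` -/
noncomputable def cs (p : ℕ) [Fact p.Prime] (a b : ZMod p) : ℤ :=
  ∑ x : ZMod p, quadraticChar (ZMod p) (x * (x ^ 2 + a * x + b))

theorem cs_isog (hp2 : p ≠ 2) (a b : ZMod p) (hb : b ≠ 0) :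
    cs p a b = cs p (-2 * a) (a ^ 2 - 4 * b) := by
  unfold cs
  rw [isog_sum hp2 a b hb]
  refine Finset.sum_congr rfl fun x _ => ?_
  congr 1
  ring

theorem cs_four (hp2 : p ≠ 2) (a b : ZMod p) : cs p (4 * a) (16 * b) = cs p a b := by
  have h2 := two_ne (p := p) hp2
  have h4 : (4 : ZMod p) ≠ 0 := by
    have : (4 : ZMod p) = 2 ^ 2 := by norm_num
    rw [this]; exact pow_ne_zero _ h2
  unfold cs
  symm
  let e : ZMod p ≃ ZMod p :=
    { toFun := fun w => 4 * w
      invFun := fun x => x / 4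
      left_inv := fun t => by field_simp
      right_inv := fun x => by field_simp }
  refine Fintype.sum_equiv e _ _ fun w => ?_
  have e2 : e w * (e w ^ 2 + 4 * a * e w + 16 * b) = (8 : ZMod p) ^ 2 * (w * (w ^ 2 + a * w + b)) := by
    change 4 * w * ((4 * w) ^ 2 + 4 * a * (4 * w) + 16 * b) = _
    ring
  have h8 : (8 : ZMod p) ≠ 0 := by
    have : (8 : ZMod p) = 2 ^ 3 := by norm_num
    rw [this]; exact pow_ne_zero _ h2
  rw [e2, map_mul _ ((8 : ZMod p) ^ 2), quadraticChar_sq_one' h8, one_mul]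

theorem cs_shift (a b c a' b' : ZMod p) (h : ∀ u : ZMod p,
    (u + c) * ((u + c) ^ 2 + a * (u + c) + b) = u * (u ^ 2 + a' * u + b')) :
    cs p a b = cs p a' b' := by
  unfold cs
  symm
  refine Fintype.sum_equiv (Equiv.addRight c) _ _ fun u => ?_
  change _ = quadraticChar (ZMod p) ((u + c) * ((u + c) ^ 2 + a * (u + c) + b))
  rw [h]

theorem cs_s2 : cs p (-18) 17 = s2 p := by
  unfold cs s2
  refine Finset.sum_congr rfl fun x _ => ?_
  congr 1
  ring

theorem cs1 (hp2 : p ≠ 2) (hp17 : p ≠ 17) : cs p 30 289 = s2 p := by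
  have h17 : (17 : ZMod p) ≠ 0 := by
    intro h
    have h1 : ((17 : ℕ) : ZMod p) = 0 := by exact_mod_cast h
    rw [ZMod.natCast_eq_zero_iff] at h1
    exact hp17 ((Nat.prime_dvd_prime_iff_eq hp.out (by norm_num)).1 h1)
  have h289 : (289 : ZMod p) ≠ 0 := by
    have : (289 : ZMod p) = 17 ^ 2 := by norm_num
    rw [this]; exact pow_ne_zero _ h17
  rw [cs_isog hp2 30 289 h289, ← cs_s2, cs_shift (-18) 17 1 (-15) (-16) (fun u => by ring),
    ← cs_four hp2 (-15) (-16)]
  congr 1 <;> norm_num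

theorem cs3 (hp2 : p ≠ 2) : cs p (-66) 1 = s2 p := by
  rw [cs_isog hp2 (-66) 1 one_ne_zero, ← cs_s2, cs_shift (-18) 17 17 33 272 (fun u => by ring),
    ← cs_four hp2 33 272]
  congr 1 <;> norm_num

theorem cs4 (hp2 : p ≠ 2) : cs p 9 16 = s2 p := by
  have h2 := two_ne (p := p) hp2
  have h16 : (16 : ZMod p) ≠ 0 := by
    have : (16 : ZMod p) = 2 ^ 4 := by norm_num
    rw [this]; exact pow_ne_zero _ h2
  rw [cs_isog hp2 9 16 h16, ← cs_s2]
  congr 1 <;> norm_num

/-- the four curves of conductor `17` -/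
def Is4 (a b : ℤ) : Prop := (a = -1 ∧ b = -14) ∨ (a = -6 ∧ b = -4) ∨ (a = -91 ∧ b = -310) ∨
  (a = -1 ∧ b = 0)

/-- the trace, from a factorisation of the cubic -/
theorem affCard_GW_of (hp2 : p ≠ 2) (a b k : ℤ) (hD : ((4 * k + 1 : ℤ) : ZMod p) ≠ 0)
    {r A B : ZMod p} (h : ∀ x : ZMod p, (x + r) ^ 3 - 3 * (x + r) ^ 2 +
      8 * (2 * a + 1) * (x + r) + 16 * (4 * b + 1) = x * (x ^ 2 + A * x + B)) :
    (p : ℤ) - affCard (GW (ZMod p) a b k) = jacobiSym (4 * k + 1) p * (- cs p A B) := by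
  have h2 := two_ne (p := p) hp2
  have h4 : (4 : ZMod p) ≠ 0 := by
    have : (4 : ZMod p) = 2 ^ 2 := by norm_num
    rw [this]; exact pow_ne_zero _ h2
  rw [affCard_sum hp2, GW_b₂, GW_b₄, GW_b₆]
  set D : ZMod p := ((4 * k + 1 : ℤ) : ZMod p) with hDdef
  have hj : jacobiSym (4 * k + 1) p = quadraticChar (ZMod p) D := by
    rw [← jacobiSym.legendreSym.to_jacobiSym]
    rfl
  have e1 : ∑ x : ZMod p, quadraticChar (ZMod p) (4 * x ^ 3 + ((-3 * (4 * k + 1) : ℤ) : ZMod p) *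
        x ^ 2 + 2 * (((2 * a + 1) * (4 * k + 1) ^ 2 : ℤ) : ZMod p) * x +
        (((4 * b + 1) * (4 * k + 1) ^ 3 : ℤ) : ZMod p)) =
      ∑ w : ZMod p, quadraticChar (ZMod p) D *
        quadraticChar (ZMod p) (w * (w ^ 2 + A * w + B)) := by
    symm
    let e : ZMod p ≃ ZMod p :=
      { toFun := fun w => D * (w + r) / 4
        invFun := fun x => 4 * x / D - r
        left_inv := fun t => by field_simp; ring
        right_inv := fun x => by field_simp; ring }
    refine Fintype.sum_equiv e _ _ fun w => ?_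
    have e2 : 4 * (e w) ^ 3 + ((-3 * (4 * k + 1) : ℤ) : ZMod p) *
        (e w) ^ 2 + 2 * (((2 * a + 1) * (4 * k + 1) ^ 2 : ℤ) : ZMod p) * (e w) +
        (((4 * b + 1) * (4 * k + 1) ^ 3 : ℤ) : ZMod p) =
        (D / 4) ^ 2 * (D * (w * (w ^ 2 + A * w + B))) := by
      rw [← h w]
      change 4 * (D * (w + r) / 4) ^ 3 + _ * (D * (w + r) / 4) ^ 2 + 2 * _ * (D * (w + r) / 4) +
        _ = _
      rw [hDdef]
      push_cast
      field_simp
      ring
    rw [e2, map_mul _ ((D / 4) ^ 2), quadraticChar_sq_one' (div_ne_zero hD h4), one_mul,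
      map_mul _ D]
  rw [e1, ← Finset.mul_sum, hj, cs]
  ring

/-- **the trace of the twists** -/
theorem affCard_GW (hp2 : p ≠ 2) (hp17 : p ≠ 17) {a b : ℤ} (h : Is4 a b) (k : ℤ)
    (hD : ((4 * k + 1 : ℤ) : ZMod p) ≠ 0) :
    (p : ℤ) - affCard (GW (ZMod p) a b k) = jacobiSym (4 * k + 1) p * (- s2 p) := by
  rcases h with ⟨rfl, rfl⟩ | ⟨rfl, rfl⟩ | ⟨rfl, rfl⟩ | ⟨rfl, rfl⟩
  · rw [← cs1 hp2 hp17]
    exact affCard_GW_of hp2 _ _ k hD (r := 11) (fun x => by push_cast; ring)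
  · rw [← cs_s2]
    exact affCard_GW_of hp2 _ _ k hD (r := -5) (fun x => by push_cast; ring)
  · rw [← cs3 hp2]
    exact affCard_GW_of hp2 _ _ k hD (r := -21) (fun x => by push_cast; ring)
  · rw [← cs4 hp2]
    exact affCard_GW_of hp2 _ _ k hD (r := 4) (fun x => by push_cast; ring)

end count

theorem affCard_GW2 {a b : ℤ} (h : Is4 a b) (k : ℤ) :
    (affCard (GW (ZMod 2) a b k) : ℤ) = if k % 2 = 0 then 3 else 1 := by
  unfold affCard
  have h2 : ∀ a b c : ZMod 2, (a + b) * 0 = 0 → b = 0 →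
      Nat.card {q : ZMod 2 × ZMod 2 // q.2 ^ 2 + 1 * q.1 * q.2 +
      1 * q.2 = q.1 ^ 3 + (-3 * c - 1) * q.1 ^ 2 + ((4 * c + 1) ^ 2 * a + 8 * c ^ 2 + 4 * c) * q.1 +
        ((4 * c + 1) ^ 3 * b + 16 * c ^ 3 + 12 * c ^ 2 + 3 * c)} =
      if c = 0 then 3 else 1 := by
    intro a b c
    rw [Nat.card_eq_fintype_card]
    revert a b c
    decide
  have hb : (b : ZMod 2) = 0 := by
    rcases h with ⟨rfl, rfl⟩ | ⟨rfl, rfl⟩ | ⟨rfl, rfl⟩ | ⟨rfl, rfl⟩ <;> decide
  have h3 := h2 (a : ZMod 2) (b : ZMod 2) (k : ZMod 2) (by ring) hb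
  have h5 : (GW (ZMod 2) a b k) = ⟨1, -3 * (k : ZMod 2) - 1, 1,
      (4 * (k : ZMod 2) + 1) ^ 2 * a + 8 * (k : ZMod 2) ^ 2 + 4 * k,
      (4 * (k : ZMod 2) + 1) ^ 3 * b + 16 * (k : ZMod 2) ^ 3 + 12 * (k : ZMod 2) ^ 2 + 3 * k⟩ := by
    unfold GW
    push_cast
    rfl
  rw [h5]
  simp only []
  rw [h3]
  have h4 : ((k : ZMod 2) = 0) ↔ k % 2 = 0 := by
    rw [ZMod.intCast_zmod_eq_zero_iff_dvd]
    push_cast
    omega
  by_cases h6 : k % 2 = 0
  · rw [if_pos (h4.2 h6), if_pos h6]; rfl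
  · rw [if_neg (fun h7 => h6 (h4.1 h7)), if_neg h6]; rfl

end Vale.Agent.P014.H687.Isog
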