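import Vale.Agent.P014.H687.Isog

/-!
# P014 (H687): Mathlib's `L`-functions of the twists of the four curves of conductor `17` (II)
-/

open WeierstrassCurve IsDedekindDomain NumberField Polynomial

namespace Vale.Agent.P014.H687.Isog

open P004G P004G.ML P004G.MS Vale.Agent.P004H.H641
open Vale.Agent.P014.H687
open Vale.Agent.P014.H70 (r3)

theorem dis_eq (a b : ℤ) : dis a b = (GW ℤ a b 0).Δ := rfl

theorem dis_vals : dis (-1) (-14) = -83521 ∧ dis (-6) (-4) = 289 ∧ dis (-91) (-310) = 17 ∧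
    dis (-1) 0 = 17 := by
  refine ⟨?_, ?_, ?_, ?_⟩ <;>
    simp [dis, GW, WeierstrassCurve.Δ, WeierstrassCurve.b₂, WeierstrassCurve.b₄,
      WeierstrassCurve.b₆, WeierstrassCurve.b₈]

theorem dis_dvd {a b : ℤ} (h : Is4 a b) : dis a b ∣ 17 ^ 4 := by
  obtain ⟨h1, h2, h3, h4⟩ := dis_vals
  rcases h with ⟨rfl, rfl⟩ | ⟨rfl, rfl⟩ | ⟨rfl, rfl⟩ | ⟨rfl, rfl⟩
  · rw [h1]; norm_num
  · rw [h2]; norm_num
  · rw [h3]; norm_num
  · rw [h4]; norm_num

theorem dis_17 {a b : ℤ} (h : Is4 a b) : (17 : ℤ) ∣ dis a b ∧ dis a b ≠ 0 := by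
  obtain ⟨h1, h2, h3, h4⟩ := dis_vals
  rcases h with ⟨rfl, rfl⟩ | ⟨rfl, rfl⟩ | ⟨rfl, rfl⟩ | ⟨rfl, rfl⟩
  · rw [h1]; norm_num
  · rw [h2]; norm_num
  · rw [h3]; norm_num
  · rw [h4]; norm_num

theorem c4_sqf {a b : ℤ} (h : Is4 a b) : Squarefree (c4 a) ∧ ¬ (17 : ℤ) ∣ c4 a := by
  have s1 : Squarefree (33 : ℤ) := by
    rw [← Int.squarefree_natAbs]
    exact (Nat.squarefree_mul (m := 3) (n := 11) (by norm_num)).2
      ⟨(Nat.Prime.prime (by norm_num)).squarefree, (Nat.Prime.prime (by norm_num)).squarefree⟩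
  have s2 : Squarefree (273 : ℤ) := by
    rw [← Int.squarefree_natAbs]
    exact (Nat.squarefree_mul (m := 3) (n := 91) (by norm_num)).2
      ⟨(Nat.Prime.prime (by norm_num)).squarefree, (Nat.squarefree_mul (m := 7) (n := 13)
        (by norm_num)).2 ⟨(Nat.Prime.prime (by norm_num)).squarefree,
          (Nat.Prime.prime (by norm_num)).squarefree⟩⟩
  have s3 : Squarefree (4353 : ℤ) := by
    rw [← Int.squarefree_natAbs]
    exact (Nat.squarefree_mul (m := 3) (n := 1451) (by norm_num)).2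
      ⟨(Nat.Prime.prime (by norm_num)).squarefree, (Nat.Prime.prime (by norm_num)).squarefree⟩
  rcases h with ⟨rfl, rfl⟩ | ⟨rfl, rfl⟩ | ⟨rfl, rfl⟩ | ⟨rfl, rfl⟩
  · rw [show c4 (-1) = 33 by unfold c4; norm_num]; exact ⟨s1, by norm_num⟩
  · rw [show c4 (-6) = 273 by unfold c4; norm_num]; exact ⟨s2, by norm_num⟩
  · rw [show c4 (-91) = 4353 by unfold c4; norm_num]; exact ⟨s3, by norm_num⟩
  · rw [show c4 (-1) = 33 by unfold c4; norm_num]; exact ⟨s1, by norm_num⟩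

theorem lp_GW (a b k : ℤ) (p : ℕ) (hp : p.Prime) : lp (GW ℚ a b k) p hp =
    (GW ((pl p hp).adicCompletion ℚ) a b k).localPolynomial
      ((pl p hp).adicCompletionIntegers ℚ) := by
  unfold lp
  rw [GW_base]

/-- the reduction of the model -/
theorem affCard_resG {p : ℕ} {R : Type} [CommRing R] [IsDomain R] [IsDiscreteValuationRing R]
    (h : Loc p R) [Fact p.Prime] (a b k : ℤ) :
    affCard ((GW R a b k).map (IsLocalRing.residue R)) = affCard (GW (ZMod p) a b k) := by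
  obtain ⟨f⟩ := res_equiv h
  rw [GW_map, ← GW_map (f : ZMod p →+* IsLocalRing.ResidueField R) a b k, affCard_equiv]

/-- good reduction -/
theorem loc_goodG {a b : ℤ} (h4 : Is4 a b) (k : ℤ) {p : ℕ} [hfact : Fact p.Prime] (h17 : p ≠ 17)
    (hD : ¬ (p : ℤ) ∣ 4 * k + 1) :
    (GW ℚ a b k).LFunction p = (p : ℤ) - affCard (GW (ZMod p) a b k) ∧
      GoodAt (fun n => (GW ℚ a b k).LFunction n) p := by
  have hp : p.Prime := hfact.out
  have hL := M2.pfLoc p hp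
  obtain ⟨-, -, -, e3⟩ := lf_eul (GW ℚ a b k)
  obtain ⟨-, -, -, f4⟩ := e3 p hp
  have hpp : Prime (p : ℤ) := Nat.prime_iff_prime_int.1 hp
  have hu : IsUnit (GW ((pl p hp).adicCompletionIntegers ℚ) a b k).Δ := by
    rw [GW_Δ]
    apply int_unit hL
    intro h1
    rcases hpp.dvd_or_dvd h1 with h2 | h2
    · have h3 : p ∣ 17 ^ 4 := by exact_mod_cast h2.trans (dis_dvd h4)
      exact h17 ((Nat.prime_dvd_prime_iff_eq hp (by norm_num)).1 (hp.dvd_of_dvd_pow h3))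
    · exact hD (hpp.dvd_of_dvd_pow h2)
  have hC : (1 : VariableChange ((pl p hp).adicCompletion ℚ)) •
      GW ((pl p hp).adicCompletion ℚ) a b k =
      (GW ((pl p hp).adicCompletionIntegers ℚ) a b k).map
        (algebraMap _ ((pl p hp).adicCompletion ℚ)) := by
    rw [one_smul, GW_map]
  have hpol := M1.pfLocGood p _ _ hL _ 1 _ hC hu
  rw [← lp_GW, affCard_resG hL] at hpol
  exact f4 _ hpol

section add

variable {R : Type} [CommRing R] [IsDomain R] [IsDiscreteValuationRing R]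
  {K : Type} [Field K] [Algebra R K] [IsFractionRing R K]
  {a₀ b₀ k : ℤ} {C : VariableChange K} {W₁ : WeierstrassCurve R}

omit [IsDomain R] [IsDiscreteValuationRing R] in
theorem relG_Δ (e : C • GW K a₀ b₀ k = W₁.map (algebraMap R K)) {a b : R}
    (hu : (C.u : K) * algebraMap R K b = algebraMap R K a) :
    ((dis a₀ b₀ * (4 * k + 1) ^ 6 : ℤ) : R) * b ^ 12 = W₁.Δ * a ^ 12 := by
  have h1 := congrArg WeierstrassCurve.Δ e
  rw [variableChange_Δ, GW_Δ, WeierstrassCurve.map_Δ] at h1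
  apply IsFractionRing.injective R K
  rw [map_mul, map_mul, map_pow, map_pow, map_intCast, ← h1, ← hu]
  have h2 : ((C.u⁻¹ : Kˣ) : K) * (C.u : K) = 1 := C.u.inv_mul
  calc ((dis a₀ b₀ * (4 * k + 1) ^ 6 : ℤ) : K) * algebraMap R K b ^ 12
      = (((C.u⁻¹ : Kˣ) : K) * (C.u : K)) ^ 12 * (((dis a₀ b₀ * (4 * k + 1) ^ 6 : ℤ) : K)) *
          algebraMap R K b ^ 12 := by
        rw [h2]; ring
    _ = _ := by ring

omit [IsDomain R] [IsDiscreteValuationRing R] in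
theorem relG_c₄ (e : C • GW K a₀ b₀ k = W₁.map (algebraMap R K)) {a b : R}
    (hu : (C.u : K) * algebraMap R K b = algebraMap R K a) :
    ((c4 a₀ * (4 * k + 1) ^ 2 : ℤ) : R) * b ^ 4 = W₁.c₄ * a ^ 4 := by
  have h1 := congrArg WeierstrassCurve.c₄ e
  rw [variableChange_c₄, GW_c₄, WeierstrassCurve.map_c₄] at h1
  apply IsFractionRing.injective R K
  rw [map_mul, map_mul, map_pow, map_pow, map_intCast, ← h1, ← hu]
  have h2 : ((C.u⁻¹ : Kˣ) : K) * (C.u : K) = 1 := C.u.inv_mul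
  calc ((c4 a₀ * (4 * k + 1) ^ 2 : ℤ) : K) * algebraMap R K b ^ 4
      = (((C.u⁻¹ : Kˣ) : K) * (C.u : K)) ^ 4 * (((c4 a₀ * (4 * k + 1) ^ 2 : ℤ) : K)) *
          algebraMap R K b ^ 4 := by
        rw [h2]; ring
    _ = _ := by ring

theorem add_GW {p : ℕ} (h : Loc p R) {d e f : ℤ} {s t : ℕ} (hD : 4 * k + 1 = p * d)
    (hd : ¬ (p : ℤ) ∣ d) (hs : dis a₀ b₀ = (p : ℤ) ^ s * e) (he : ¬ (p : ℤ) ∣ e)
    (ht : c4 a₀ = (p : ℤ) ^ t * f) (hf : ¬ (p : ℤ) ∣ f) (h12 : ¬ 12 ∣ s + 6)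
    (h4 : ¬ 4 ∣ t + 2) (hC : C • GW K a₀ b₀ k = W₁.map (algebraMap R K)) :
    ¬ IsUnit W₁.Δ ∧ ¬ IsUnit W₁.c₄ := by
  obtain ⟨a, b, ha, hb, hu⟩ := exists_frac (R := R) C
  have r1 := relG_Δ hC hu
  have r4 := relG_c₄ hC hu
  obtain ⟨i, u, rfl⟩ := fac h ha
  obtain ⟨j, v, rfl⟩ := fac h hb
  have hdu : IsUnit (d : R) := int_unit h hd
  have heu : IsUnit (e : R) := int_unit h he
  have hfu : IsUnit (f : R) := int_unit h hf
  rw [hD, hs] at r1
  rw [hD, ht] at r4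
  push_cast at r1 r4
  constructor
  · intro hΔ
    have q1 : ((e : R) * (d : R) ^ 6 * (v : R) ^ 12) * (p : R) ^ (s + 6 + 12 * j) =
        (W₁.Δ * (u : R) ^ 12) * (p : R) ^ (12 * i) := by
      calc _ = (p : R) ^ s * (e : R) * ((p : R) * (d : R)) ^ 6 * ((v : R) * (p : R) ^ j) ^ 12 := by
            ring
        _ = _ := r1
        _ = _ := by ring
    have q2 := (fac_unique h ((heu.mul (hdu.pow 6)).mul (v.isUnit.pow 12))
      (hΔ.mul (u.isUnit.pow 12)) q1).1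
    exact h12 (by omega)
  · intro hc
    have q1 : ((f : R) * (d : R) ^ 2 * (v : R) ^ 4) * (p : R) ^ (t + 2 + 4 * j) =
        (W₁.c₄ * (u : R) ^ 4) * (p : R) ^ (4 * i) := by
      calc _ = (p : R) ^ t * (f : R) * ((p : R) * (d : R)) ^ 2 * ((v : R) * (p : R) ^ j) ^ 4 := by
            ring
        _ = _ := r4
        _ = _ := by ring
    have q2 := (fac_unique h ((hfu.mul (hdu.pow 2)).mul (v.isUnit.pow 4))
      (hc.mul (u.isUnit.pow 4)) q1).1
    exact h4 (by omega)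

end add

/-- additive reduction -/
theorem loc_addG {a b : ℤ} (h4 : Is4 a b) {k : ℤ} (hsq : Squarefree (4 * k + 1)) {p : ℕ}
    (hp : p.Prime) (h17 : p ≠ 17)
    (hD : (p : ℤ) ∣ 4 * k + 1) : TrivAt (fun n => (GW ℚ a b k).LFunction n) p := by
  have hL := M2.pfLoc p hp
  obtain ⟨-, -, -, e3⟩ := lf_eul (GW ℚ a b k)
  obtain ⟨f1, -, -, -⟩ := e3 p hp
  have hpp : Prime (p : ℤ) := Nat.prime_iff_prime_int.1 hp
  obtain ⟨d, hd⟩ := hD
  have hd' : ¬ (p : ℤ) ∣ d := by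
    rintro ⟨c, rfl⟩
    have := hsq p ⟨c, by rw [hd]; ring⟩
    exact hpp.not_isUnit this
  have hdis : ¬ (p : ℤ) ∣ dis a b := by
    intro h2
    have h3 : p ∣ 17 ^ 4 := by exact_mod_cast h2.trans (dis_dvd h4)
    exact h17 ((Nat.prime_dvd_prime_iff_eq hp (by norm_num)).1 (hp.dvd_of_dvd_pow h3))
  apply f1
  rw [lp_GW]
  refine M1.pfLocAdd p _ _ hL _ fun C W₁ e => ?_
  by_cases hc : (p : ℤ) ∣ c4 a
  · obtain ⟨f, hf⟩ := hc
    have hf' : ¬ (p : ℤ) ∣ f := by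
      rintro ⟨c, rfl⟩
      have := (c4_sqf h4).1 p ⟨c, by rw [hf]; ring⟩
      exact hpp.not_isUnit this
    exact add_GW hL (e := dis a b) (f := f) (s := 0) (t := 1) hd hd' (by ring) hdis
      (by rw [hf]; ring) hf' (by norm_num) (by norm_num) e
  · exact add_GW hL (e := dis a b) (f := c4 a) (s := 0) (t := 0) hd hd' (by ring) hdis (by ring)
      hc (by norm_num) (by norm_num) e

theorem node_GW {F : Type} [Field F] (a b k : ℤ) (T : F) :
    (GW F a b k).c₄ * T ^ 2 + (GW F a b k).a₁ * (GW F a b k).c₄ * T -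
      (54 * (GW F a b k).b₆ - 3 * (GW F a b k).b₂ * (GW F a b k).b₄ +
        (GW F a b k).a₂ * (GW F a b k).c₄) =
    (4 * (k : F) + 1) ^ 2 * ((9 - 24 * (2 * (a : F) + 1)) * T ^ 2 +
      (9 - 24 * (2 * (a : F) + 1)) * T - (54 * (4 * (b : F) + 1) + 9 * (2 * (a : F) + 1)) *
        (4 * k + 1) + (9 - 24 * (2 * (a : F) + 1)) * (3 * k + 1)) := by
  simp only [GW, WeierstrassCurve.c₄, WeierstrassCurve.b₂, WeierstrassCurve.b₄,
    WeierstrassCurve.b₆]
  push_cast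
  ring

/-- the equation of the tangent directions -/
def nd {F : Type} [Field F] (a b k T : F) : F :=
  (4 * k + 1) ^ 2 * ((9 - 24 * (2 * a + 1)) * T ^ 2 +
      (9 - 24 * (2 * a + 1)) * T - (54 * (4 * b + 1) + 9 * (2 * a + 1)) *
        (4 * k + 1) + (9 - 24 * (2 * a + 1)) * (3 * k + 1))

theorem zmod17G {a b : ℤ} (h : Is4 a b) : ∀ k : ZMod 17, 4 * k + 1 ≠ 0 →
    ((∃ T, nd (a : ZMod 17) (b : ZMod 17) k T = 0) ↔ ∃ c, 4 * k + 1 = c * c) := by
  rcases h with ⟨rfl, rfl⟩ | ⟨rfl, rfl⟩ | ⟨rfl, rfl⟩ | ⟨rfl, rfl⟩ <;> unfold nd <;> decide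

theorem split17G {F : Type} [Field F] (f : ZMod 17 ≃+* F) {a b : ℤ} (h4 : Is4 a b) (k : ℤ)
    (hD : ((4 * k + 1 : ℤ) : ZMod 17) ≠ 0) :
    SplitNode (GW F a b k) ↔ IsSquare ((4 * k + 1 : ℤ) : ZMod 17) := by
  have h1 := zmod17G h4 (k : ZMod 17) (by push_cast at hD; exact hD)
  have h2 : IsSquare ((4 * k + 1 : ℤ) : ZMod 17) ↔ ∃ c, 4 * (k : ZMod 17) + 1 = c * c := by
    unfold IsSquare
    push_cast
    rfl
  rw [h2, ← h1]
  unfold SplitNode
  constructor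
  · rintro ⟨T, hT⟩
    rw [node_GW] at hT
    refine ⟨f.symm T, ?_⟩
    have := congrArg f.symm hT
    simp only [map_add, map_sub, map_mul, map_pow, map_ofNat, map_intCast, map_zero,
      map_one] at this
    exact this
  · rintro ⟨T, hT⟩
    refine ⟨f T, ?_⟩
    rw [node_GW]
    unfold nd at hT
    have := congrArg f hT
    simp only [map_add, map_sub, map_mul, map_pow, map_ofNat, map_intCast, map_zero,
      map_one] at this
    exact this

/-- multiplicative reduction at `17` -/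
theorem loc17G {a b : ℤ} (h4 : Is4 a b) {k : ℤ} (hD : ¬ (17 : ℤ) ∣ 4 * k + 1) (j : ℕ) :
    (GW ℚ a b k).LFunction (17 ^ j) = jacobiSym (4 * k + 1) 17 ^ j := by
  have hp : Nat.Prime 17 := by norm_num
  have hFact : Fact (Nat.Prime 17) := ⟨hp⟩
  have hpp : Prime ((17 : ℕ) : ℤ) := Nat.prime_iff_prime_int.1 hp
  have hL := M2.pfLoc 17 hp
  obtain ⟨-, -, -, e3⟩ := lf_eul (GW ℚ a b k)
  obtain ⟨-, f2, f3, -⟩ := e3 17 hp
  have hD' : ¬ ((17 : ℕ) : ℤ) ∣ 4 * k + 1 := by exact_mod_cast hD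
  have hcz := hL.charZero
  have hD0 : 4 * k + 1 ≠ 0 := by omega
  have hC : (1 : VariableChange ((pl 17 hp).adicCompletion ℚ)) •
      GW ((pl 17 hp).adicCompletion ℚ) a b k =
      (GW ((pl 17 hp).adicCompletionIntegers ℚ) a b k).map
        (algebraMap _ ((pl 17 hp).adicCompletion ℚ)) := by
    rw [one_smul, GW_map]
  have hc : IsUnit (GW ((pl 17 hp).adicCompletionIntegers ℚ) a b k).c₄ := by
    rw [GW_c₄]
    apply int_unit hL
    intro h1
    rcases hpp.dvd_or_dvd h1 with h3 | h3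
    · exact (c4_sqf h4).2 (by exact_mod_cast h3)
    · exact hD' (hpp.dvd_of_dvd_pow h3)
  have hΔ : (GW ((pl 17 hp).adicCompletionIntegers ℚ) a b k).Δ ≠ 0 := by
    rw [GW_Δ]
    have : (dis a b * (4 * k + 1) ^ 6 : ℤ) ≠ 0 := mul_ne_zero (dis_17 h4).2 (pow_ne_zero _ hD0)
    exact_mod_cast this
  have hΔ' : ¬ IsUnit (GW ((pl 17 hp).adicCompletionIntegers ℚ) a b k).Δ := by
    rw [GW_Δ, mem_max hL]
    obtain ⟨c, hc⟩ := (dis_17 h4).1
    have : (dis a b * (4 * k + 1) ^ 6 : ℤ) = ((17 : ℕ) : ℤ) * (c * (4 * k + 1) ^ 6) := by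
      rw [hc]
      push_cast
      ring
    rw [this, Int.cast_mul, Int.cast_natCast]
    exact dvd_mul_right _ _
  have hloc := locMult (GW ((pl 17 hp).adicCompletion ℚ) a b k) 1 _ hC hc hΔ hΔ'
  rw [← lp_GW] at hloc
  obtain ⟨f⟩ := res_equiv hL
  have hsplit : SplitNode ((GW ((pl 17 hp).adicCompletionIntegers ℚ) a b k).map
      (IsLocalRing.residue ((pl 17 hp).adicCompletionIntegers ℚ))) ↔
      IsSquare ((4 * k + 1 : ℤ) : ZMod 17) := by
    rw [GW_map]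
    exact split17G f h4 k (by
      intro h0
      rw [ZMod.intCast_zmod_eq_zero_iff_dvd] at h0
      exact hD' h0)
  have hjac : IsSquare ((4 * k + 1 : ℤ) : ZMod 17) ↔ jacobiSym (4 * k + 1) 17 = 1 := by
    rw [← jacobiSym.legendreSym.to_jacobiSym]
    exact (legendreSym.eq_one_iff 17 (by
      intro h0
      rw [ZMod.intCast_zmod_eq_zero_iff_dvd] at h0
      exact hD' h0)).symm
  by_cases hs : IsSquare ((4 * k + 1 : ℤ) : ZMod 17)
  · rw [if_pos (hsplit.2 hs)] at hloc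
    rw [hjac.1 hs, one_pow]
    exact f2 hloc j
  · rw [if_neg (fun h1 => hs (hsplit.1 h1))] at hloc
    have h1 : jacobiSym (4 * k + 1) 17 = -1 := by
      have h2 := jac_sq' hp hD'
      have h3 : jacobiSym (4 * k + 1) 17 ≠ 1 := fun h3 => hs (hjac.2 h3)
      rcases sq_eq_one_iff.1 h2 with h4 | h4
      · exact absurd h4 h3
      · exact h4
    rw [h1]
    exact f3 hloc j

/-- two good factors with the same trace -/
theorem good_eq {X A : ℕ → ℤ} {p : ℕ} (hX1 : X 1 = 1) (hA1 : A 1 = 1)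
    (hX : GoodAt X p) (hA : GoodAt A p) (h : X p = A p) (k : ℕ) : X (p ^ k) = A (p ^ k) := by
  have key : ∀ k : ℕ, X (p ^ k) = A (p ^ k) ∧ X (p ^ (k + 1)) = A (p ^ (k + 1)) := by
    intro k
    induction k with
    | zero => simp [hX1, hA1, h]
    | succ k ih => exact ⟨ih.2, by rw [hX k, hA k, ih.1, ih.2, h]⟩
  exact (key k).1

/-- **the twists of the four curves of conductor `17` have the same `L`-functions** -/
theorem LFunction_GW {a b : ℤ} (h4 : Is4 a b) (k : ℤ) (h : Squarefree (4 * k + 1))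
    (h17 : ¬ (17 : ℤ) ∣ 4 * k + 1) (m : ℕ) : (GW ℚ a b k).LFunction m = (tw k).LFunction m := by
  obtain ⟨e0, e1, e2, -⟩ := lf_eul (GW ℚ a b k)
  obtain ⟨g0, g1, g2, -⟩ := lf_eul (tw k)
  refine mult_eq (f := fun n => (GW ℚ a b k).LFunction n) (g := fun n => (tw k).LFunction n)
    (by rw [e0, g0]) (by rw [e1, g1]) e2 g2 ?_ m
  intro p hp j
  have hfact : Fact p.Prime := ⟨hp⟩
  change (GW ℚ a b k).LFunction (p ^ j) = (tw k).LFunction (p ^ j)
  rcases eq_or_ne p 17 with rfl | hp17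
  · rw [loc17G h4 h17 j, loc17 h17 j]
  by_cases hpD : (p : ℤ) ∣ 4 * k + 1
  · rcases Nat.eq_zero_or_pos j with rfl | hj
    · rw [pow_zero, e1, g1]
    obtain ⟨i, rfl⟩ : ∃ i, j = i + 1 := ⟨j - 1, by omega⟩
    exact (loc_addG h4 h hp hp17 hpD i).trans (loc_add h hp hp17 hpD i).symm
  · obtain ⟨a1, a2⟩ := loc_goodG h4 k hp17 hpD
    obtain ⟨b1, b2⟩ := loc_good k hp17 hpD
    refine good_eq (X := fun n => (GW ℚ a b k).LFunction n)
      (A := fun n => (tw k).LFunction n) (p := p) e1 g1 a2 b2 ?_ j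
    rw [a1, b1]
    rcases eq_or_ne p 2 with rfl | hp2
    · rw [affCard_GW2 h4, affCard_TW2]
    · have hD' : ((4 * k + 1 : ℤ) : ZMod p) ≠ 0 := by
        intro h0
        rw [ZMod.intCast_zmod_eq_zero_iff_dvd] at h0
        exact hpD h0
      rw [affCard_GW hp2 hp17 h4 k hD', affCard_TW hp2 k hD']

end Vale.Agent.P014.H687.Isog
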