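import Vale.Agent.P014.Defs
import Vale.Agent.P014.H687.CS
import Vale.Agent.P004H.H641.Mult
import Vale.Agent.P004G.H871.MLS2
import Vale.Agent.P004G.H392.ML1
import Vale.Agent.P004G.H392.ML2

/-!
# P014 (H687): the Euler product of Mathlib's `L`-function of a Weierstrass curve over `ℚ`, and the
integral models of the twists of `17a2`
-/

open WeierstrassCurve IsDedekindDomain NumberField Polynomial

namespace Vale.Agent.P014.H687

open P004G P004G.ML P004G.MS Vale.Agent.P004H.H641

/-- Mathlib's local polynomial at `p` -/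
noncomputable def lp (E : WeierstrassCurve ℚ) (p : ℕ) (hp : p.Prime) : ℤ[X] :=
  (E.baseChange ((pl p hp).adicCompletion ℚ)).localPolynomial ((pl p hp).adicCompletionIntegers ℚ)

theorem lf_pow (E : WeierstrassCurve ℚ) (p : ℕ) (hp : p.Prime) (k : ℕ) :
    E.LFunction (p ^ k) =
      PowerSeries.coeff k (PowerSeries.invOfUnit (lp E p hp : PowerSeries ℤ) 1) := by
  have h := M2.euler_pow (fun v : HeightOneSpectrum (𝓞 ℚ) =>
    Nat.card (IsLocalRing.ResidueField (v.adicCompletionIntegers ℚ))) M2.qv_prime M2.qv_inj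
    (fun v => PowerSeries.invOfUnit (((E.baseChange (v.adicCompletion ℚ)).localPolynomial
      (v.adicCompletionIntegers ℚ) : ℤ[X]) : PowerSeries ℤ) 1) (fun v => M2.cc_one _) (pl p hp) k
  simp only [(M2.pfLoc p hp).card] at h
  exact h

theorem lf_mul (E : WeierstrassCurve ℚ) : ArithmeticFunction.IsMultiplicative (E.LFunction) := by
  apply ArithmeticFunction.isMultiplicative_eulerProduct
  intro v
  exact ArithmeticFunction.isMultiplicative_ofPowerSeries_of_isPrimePow _
    (M2.qv_prime v).isPrimePow _ (M2.cc_one _)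

/-- the Euler product -/
theorem lf_eul (E : WeierstrassCurve ℚ) : E.LFunction 0 = 0 ∧ E.LFunction 1 = 1 ∧
    (∀ m n : ℕ, m.Coprime n → E.LFunction (m * n) = E.LFunction m * E.LFunction n) ∧
    ∀ (p : ℕ) (hp : p.Prime),
      (lp E p hp = 1 → TrivAt (fun n => E.LFunction n) p) ∧
      (lp E p hp = 1 - X → ∀ k : ℕ, E.LFunction (p ^ k) = 1) ∧
      (lp E p hp = 1 + X → ∀ k : ℕ, E.LFunction (p ^ k) = (-1) ^ k) ∧
      (∀ t : ℤ, lp E p hp = 1 - Polynomial.C t * X + Polynomial.C (p : ℤ) * X ^ 2 →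
        E.LFunction p = t ∧ GoodAt (fun n => E.LFunction n) p) := by
  refine ⟨ArithmeticFunction.map_zero, (lf_mul E).1, fun m n h => (lf_mul E).2 h, ?_⟩
  intro p hp
  have key : ∀ c d : ℤ, lp E p hp = 1 + Polynomial.C c * X + Polynomial.C d * X ^ 2 →
      E.LFunction (p ^ 0) = 1 ∧ E.LFunction (p ^ 1) = - c ∧
      ∀ k, E.LFunction (p ^ (k + 2)) = - c * E.LFunction (p ^ (k + 1)) -
        d * E.LFunction (p ^ k) := by
    intro c d h
    have := M2.inv_quad _ c d h
    simpa only [← lf_pow] using this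
  refine ⟨fun h => ?_, fun h => ?_, fun h => ?_, fun t h => ?_⟩
  · obtain ⟨h0, h1, h2⟩ := key 0 0 (by rw [h]; simp)
    intro k
    induction k with
    | zero => simpa using h1
    | succ k ih =>
      change E.LFunction (p ^ (k + 2)) = 0
      rw [h2]; ring
  · obtain ⟨h0, h1, h2⟩ := key (-1) 0 (by rw [h]; simp; ring)
    intro k
    induction k with
    | zero => exact h0
    | succ k ih =>
      rcases k with _ | k
      · simpa using h1
      · rw [h2, ih]; ring
  · obtain ⟨h0, h1, h2⟩ := key 1 0 (by rw [h]; simp)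
    intro k
    induction k with
    | zero => simpa using h0
    | succ k ih =>
      rcases k with _ | k
      · simpa using h1
      · rw [h2, ih]; ring
  · obtain ⟨h0, h1, h2⟩ := key (-t) p (by rw [h]; simp; ring)
    have h1' : E.LFunction p = t := by simpa using h1
    refine ⟨h1', fun k => ?_⟩
    change E.LFunction (p ^ (k + 2)) = E.LFunction p * E.LFunction (p ^ (k + 1)) -
      p * E.LFunction (p ^ k)
    rw [h2, h1']
    ring

/-! ### integral models of the twists -/

/-- the equation of `tw k` over any ring -/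
def TW (R : Type*) [CommRing R] (k : ℤ) : WeierstrassCurve R :=
  ⟨1, ((-3 * k - 1 : ℤ) : R), 1, ((-88 * k ^ 2 - 44 * k - 6 : ℤ) : R),
    ((-240 * k ^ 3 - 180 * k ^ 2 - 45 * k - 4 : ℤ) : R)⟩

theorem tw_eq (k : ℤ) : tw k = TW ℚ k := by
  unfold tw TW
  ext <;> push_cast <;> ring

theorem TW_map {R S : Type*} [CommRing R] [CommRing S] (f : R →+* S) (k : ℤ) :
    (TW R k).map f = TW S k := by
  ext
  · simp [TW]
  · simp only [TW, WeierstrassCurve.map_a₂, map_intCast]
  · simp [TW]
  · simp only [TW, WeierstrassCurve.map_a₄, map_intCast]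
  · simp only [TW, WeierstrassCurve.map_a₆, map_intCast]

theorem TW_Δ {R : Type*} [CommRing R] (k : ℤ) : (TW R k).Δ = ((289 * (4 * k + 1) ^ 6 : ℤ) : R) := by
  simp only [TW, WeierstrassCurve.Δ, WeierstrassCurve.b₂, WeierstrassCurve.b₄,
    WeierstrassCurve.b₆, WeierstrassCurve.b₈]
  push_cast
  ring

theorem TW_c₄ {R : Type*} [CommRing R] (k : ℤ) : (TW R k).c₄ = ((273 * (4 * k + 1) ^ 2 : ℤ) : R) := by
  simp only [TW, WeierstrassCurve.c₄, WeierstrassCurve.b₂, WeierstrassCurve.b₄]
  push_cast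
  ring

theorem tw_base (k : ℤ) (K : Type*) [Field K] [Algebra ℚ K] : (tw k).baseChange K = TW K k := by
  rw [tw_eq]
  exact TW_map _ k

end Vale.Agent.P014.H687
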