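import Vale.Agent.P014.H687.Lf1

/-!
# P014 (H687): point counts and local relations for the twists of `17a2`
-/

open WeierstrassCurve IsDedekindDomain NumberField Polynomial

namespace Vale.Agent.P014.H687

open P004G P004G.ML P004G.MS Vale.Agent.P004H.H641

section count

variable {p : ℕ} [hp : Fact p.Prime]

/-- the number of points of a Weierstrass curve is a character sum -/
theorem affCard_sum (hp2 : p ≠ 2) (W : WeierstrassCurve (ZMod p)) :
    (affCard W : ℤ) = p + ∑ x : ZMod p,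
      quadraticChar (ZMod p) (4 * x ^ 3 + W.b₂ * x ^ 2 + 2 * W.b₄ * x + W.b₆) := by
  classical
  have h2 := two_ne (p := p) hp2
  unfold affCard
  have e1 : Nat.card {q : ZMod p × ZMod p // q.2 ^ 2 + W.a₁ * q.1 * q.2 + W.a₃ * q.2 =
      q.1 ^ 3 + W.a₂ * q.1 ^ 2 + W.a₄ * q.1 + W.a₆} =
      ∑ x : ZMod p, ({z : ZMod p | z ^ 2 =
        4 * x ^ 3 + W.b₂ * x ^ 2 + 2 * W.b₄ * x + W.b₆}.toFinset).card := by
    rw [Nat.card_eq_fintype_card, Fintype.card_subtype, ← Finset.card_sigma]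
    refine Finset.card_bij (fun q _ => ⟨q.1, 2 * q.2 + W.a₁ * q.1 + W.a₃⟩) ?_ ?_ ?_
    · intro q hq
      simp only [Finset.mem_filter, Finset.mem_univ, true_and] at hq
      simp only [Finset.mem_sigma, Finset.mem_univ, Set.mem_toFinset, Set.mem_ofPred_eq, true_and]
      simp only [WeierstrassCurve.b₂, WeierstrassCurve.b₄, WeierstrassCurve.b₆]
      linear_combination 4 * hq
    · rintro ⟨x, y⟩ _ ⟨x', y'⟩ _ h
      simp only [Sigma.mk.injEq, heq_eq_eq] at h
      obtain ⟨h3, h4⟩ := h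
      subst h3
      rw [Prod.mk.injEq]
      exact ⟨rfl, mul_left_cancel₀ h2 (by linear_combination h4)⟩
    · rintro ⟨x, z⟩ hq
      simp only [Finset.mem_sigma, Finset.mem_univ, Set.mem_toFinset, Set.mem_ofPred_eq,
        true_and] at hq
      simp only [WeierstrassCurve.b₂, WeierstrassCurve.b₄, WeierstrassCurve.b₆] at hq
      have e3 : 2 * ((z - W.a₁ * x - W.a₃) / 2) + W.a₁ * x + W.a₃ = z := by
        field_simp
        ring
      refine ⟨(x, (z - W.a₁ * x - W.a₃) / 2), ?_, by rw [e3]⟩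
      simp only [Finset.mem_filter, Finset.mem_univ, true_and]
      have h4 : (4 : ZMod p) ≠ 0 := by
        have : (4 : ZMod p) = 2 ^ 2 := by norm_num
        rw [this]; exact pow_ne_zero _ h2
      apply mul_left_cancel₀ h4
      field_simp
      linear_combination hq
  have e2 : ((∑ x : ZMod p, ({z : ZMod p | z ^ 2 =
        4 * x ^ 3 + W.b₂ * x ^ 2 + 2 * W.b₄ * x + W.b₆}.toFinset).card : ℕ) : ℤ) =
      ∑ x : ZMod p, (quadraticChar (ZMod p)
        (4 * x ^ 3 + W.b₂ * x ^ 2 + 2 * W.b₄ * x + W.b₆) + 1) := by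
    push_cast
    refine Finset.sum_congr rfl fun x _ => ?_
    exact quadraticChar_card_sqrts (ringChar_ne hp2) _
  rw [e1, e2, Finset.sum_add_distrib]
  simp [ZMod.card]
  ring

/-- the trace of the twist -/
theorem affCard_TW (hp2 : p ≠ 2) (k : ℤ) (hD : ((4 * k + 1 : ℤ) : ZMod p) ≠ 0) :
    (p : ℤ) - affCard (TW (ZMod p) k) = jacobiSym (4 * k + 1) p * (- s2 p) := by
  have h2 := two_ne (p := p) hp2
  have h4 : (4 : ZMod p) ≠ 0 := by
    have : (4 : ZMod p) = 2 ^ 2 := by norm_num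
    rw [this]; exact pow_ne_zero _ h2
  rw [affCard_sum hp2]
  set D : ZMod p := ((4 * k + 1 : ℤ) : ZMod p) with hDdef
  have hj : jacobiSym (4 * k + 1) p = quadraticChar (ZMod p) D := by
    rw [← jacobiSym.legendreSym.to_jacobiSym]
    rfl
  have e0 : ∀ x : ZMod p, 4 * x ^ 3 + (TW (ZMod p) k).b₂ * x ^ 2 + 2 * (TW (ZMod p) k).b₄ * x +
      (TW (ZMod p) k).b₆ = (x + D) * (x - 3 * D) * (4 * x + 5 * D) := by
    intro x
    rw [hDdef]
    simp only [TW, WeierstrassCurve.b₂, WeierstrassCurve.b₄, WeierstrassCurve.b₆]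
    push_cast
    ring
  simp only [e0]
  have e1 : ∑ x : ZMod p, quadraticChar (ZMod p) ((x + D) * (x - 3 * D) * (4 * x + 5 * D)) =
      ∑ w : ZMod p, quadraticChar (ZMod p) D *
        quadraticChar (ZMod p) (w * (w - 1) * (w - 17)) := by
    symm
    let e : ZMod p ≃ ZMod p :=
      { toFun := fun w => D * (w - 5) / 4
        invFun := fun x => 4 * x / D + 5
        left_inv := fun t => by field_simp; ring
        right_inv := fun x => by field_simp; ring }
    refine Fintype.sum_equiv e _ _ fun w => ?_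
    have e2 : (e w + D) * (e w - 3 * D) * (4 * e w + 5 * D) =
        (D / 4) ^ 2 * (D * (w * (w - 1) * (w - 17))) := by
      change (D * (w - 5) / 4 + D) * (D * (w - 5) / 4 - 3 * D) * (4 * (D * (w - 5) / 4) + 5 * D) = _
      field_simp
      ring
    rw [e2, map_mul _ ((D / 4) ^ 2), quadraticChar_sq_one' (div_ne_zero hD h4), one_mul,
      map_mul _ D]
  rw [e1, ← Finset.mul_sum, hj, s2]
  ring

end count

theorem affCard_TW2 (k : ℤ) : (affCard (TW (ZMod 2) k) : ℤ) = if k % 2 = 0 then 3 else 1 := by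
  unfold affCard
  have h2 : ∀ c : ZMod 2, Nat.card {q : ZMod 2 × ZMod 2 // q.2 ^ 2 + 1 * q.1 * q.2 +
      1 * q.2 = q.1 ^ 3 + (-3 * c - 1) * q.1 ^ 2 + (-88 * c ^ 2 - 44 * c - 6) * q.1 +
        (-240 * c ^ 3 - 180 * c ^ 2 - 45 * c - 4)} =
      if c = 0 then 3 else 1 := by
    intro c
    rw [Nat.card_eq_fintype_card]
    revert c
    decide
  have h3 := h2 (k : ZMod 2)
  have h5 : (TW (ZMod 2) k) = ⟨1, -3 * (k : ZMod 2) - 1, 1, -88 * (k : ZMod 2) ^ 2 - 44 * k - 6,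
      -240 * (k : ZMod 2) ^ 3 - 180 * (k : ZMod 2) ^ 2 - 45 * k - 4⟩ := by
    unfold TW
    push_cast
    rfl
  rw [h5]
  simp only []
  rw [h3]
  have h4 : ((k : ZMod 2) = 0) ↔ k % 2 = 0 := by
    rw [ZMod.intCast_zmod_eq_zero_iff_dvd]
    push_cast
    omega
  by_cases h6 : k % 2 = 0
  · rw [if_pos (h4.2 h6), if_pos h6]; rfl
  · rw [if_neg (fun h7 => h6 (h4.1 h7)), if_neg h6]; rfl

section add

variable {R : Type} [CommRing R] [IsDomain R] [IsDiscreteValuationRing R]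
  {K : Type} [Field K] [Algebra R K] [IsFractionRing R K]
  {k : ℤ} {C : VariableChange K} {W₁ : WeierstrassCurve R}

omit [IsDomain R] [IsDiscreteValuationRing R] in
theorem rel_Δ' (e : C • TW K k = W₁.map (algebraMap R K)) {a b : R}
    (hu : (C.u : K) * algebraMap R K b = algebraMap R K a) :
    ((289 * (4 * k + 1) ^ 6 : ℤ) : R) * b ^ 12 = W₁.Δ * a ^ 12 := by
  have h1 := congrArg WeierstrassCurve.Δ e
  rw [variableChange_Δ, TW_Δ, WeierstrassCurve.map_Δ] at h1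
  apply IsFractionRing.injective R K
  rw [map_mul, map_mul, map_pow, map_pow, map_intCast, ← h1, ← hu]
  have h2 : ((C.u⁻¹ : Kˣ) : K) * (C.u : K) = 1 := C.u.inv_mul
  calc ((289 * (4 * k + 1) ^ 6 : ℤ) : K) * algebraMap R K b ^ 12
      = (((C.u⁻¹ : Kˣ) : K) * (C.u : K)) ^ 12 * (((289 * (4 * k + 1) ^ 6 : ℤ) : K)) *
          algebraMap R K b ^ 12 := by
        rw [h2]; ring
    _ = _ := by ring

omit [IsDomain R] [IsDiscreteValuationRing R] in
theorem rel_c₄' (e : C • TW K k = W₁.map (algebraMap R K)) {a b : R}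
    (hu : (C.u : K) * algebraMap R K b = algebraMap R K a) :
    ((273 * (4 * k + 1) ^ 2 : ℤ) : R) * b ^ 4 = W₁.c₄ * a ^ 4 := by
  have h1 := congrArg WeierstrassCurve.c₄ e
  rw [variableChange_c₄, TW_c₄, WeierstrassCurve.map_c₄] at h1
  apply IsFractionRing.injective R K
  rw [map_mul, map_mul, map_pow, map_pow, map_intCast, ← h1, ← hu]
  have h2 : ((C.u⁻¹ : Kˣ) : K) * (C.u : K) = 1 := C.u.inv_mul
  calc ((273 * (4 * k + 1) ^ 2 : ℤ) : K) * algebraMap R K b ^ 4
      = (((C.u⁻¹ : Kˣ) : K) * (C.u : K)) ^ 4 * (((273 * (4 * k + 1) ^ 2 : ℤ) : K)) *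
          algebraMap R K b ^ 4 := by
        rw [h2]; ring
    _ = _ := by ring

theorem add_TW {p : ℕ} (h : Loc p R) {d e f : ℤ} {s t : ℕ} (hD : 4 * k + 1 = p * d)
    (hd : ¬ (p : ℤ) ∣ d) (hs : (289 : ℤ) = (p : ℤ) ^ s * e) (he : ¬ (p : ℤ) ∣ e)
    (ht : (273 : ℤ) = (p : ℤ) ^ t * f) (hf : ¬ (p : ℤ) ∣ f) (h12 : ¬ 12 ∣ s + 6)
    (h4 : ¬ 4 ∣ t + 2) (hC : C • TW K k = W₁.map (algebraMap R K)) :
    ¬ IsUnit W₁.Δ ∧ ¬ IsUnit W₁.c₄ := by
  obtain ⟨a, b, ha, hb, hu⟩ := exists_frac (R := R) C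
  have r1 := rel_Δ' hC hu
  have r4 := rel_c₄' hC hu
  obtain ⟨i, u, rfl⟩ := fac h ha
  obtain ⟨j, v, rfl⟩ := fac h hb
  have hdu : IsUnit (d : R) := int_unit h hd
  have heu : IsUnit (e : R) := int_unit h he
  have hfu : IsUnit (f : R) := int_unit h hf
  rw [hD, hs] at r1
  rw [hD, ht] at r4
  push_cast at r1 r4
  constructor
  · intro hΔ
    have q1 : ((e : R) * (d : R) ^ 6 * (v : R) ^ 12) * (p : R) ^ (s + 6 + 12 * j) =
        (W₁.Δ * (u : R) ^ 12) * (p : R) ^ (12 * i) := by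
      calc _ = (p : R) ^ s * (e : R) * ((p : R) * (d : R)) ^ 6 * ((v : R) * (p : R) ^ j) ^ 12 := by
            ring
        _ = _ := r1
        _ = _ := by ring
    have q2 := (fac_unique h ((heu.mul (hdu.pow 6)).mul (v.isUnit.pow 12))
      (hΔ.mul (u.isUnit.pow 12)) q1).1
    exact h12 (by omega)
  · intro hc
    have q1 : ((f : R) * (d : R) ^ 2 * (v : R) ^ 4) * (p : R) ^ (t + 2 + 4 * j) =
        (W₁.c₄ * (u : R) ^ 4) * (p : R) ^ (4 * i) := by
      calc _ = (p : R) ^ t * (f : R) * ((p : R) * (d : R)) ^ 2 * ((v : R) * (p : R) ^ j) ^ 4 := by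
            ring
        _ = _ := r4
        _ = _ := by ring
    have q2 := (fac_unique h ((hfu.mul (hdu.pow 2)).mul (v.isUnit.pow 4))
      (hc.mul (u.isUnit.pow 4)) q1).1
    exact h4 (by omega)

end add

end Vale.Agent.P014.H687
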