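import Vale.Agent.P014.H687.Lf2
import Vale.Agent.P014.H687.Inst

/-!
# P014 (H687): Mathlib's `L`-function of the twists of `17a2`
-/

open WeierstrassCurve IsDedekindDomain NumberField Polynomial

namespace Vale.Agent.P014.H687

open P004G P004G.ML P004G.MS Vale.Agent.P004H.H641
open Vale.Agent.P014.H70 (r3)

theorem lp_eq (k : ℤ) (p : ℕ) (hp : p.Prime) : lp (tw k) p hp =
    (TW ((pl p hp).adicCompletion ℚ) k).localPolynomial ((pl p hp).adicCompletionIntegers ℚ) := by
  unfold lp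
  rw [tw_base]

/-- the reduction of the model -/
theorem affCard_res {p : ℕ} {R : Type} [CommRing R] [IsDomain R] [IsDiscreteValuationRing R]
    (h : Loc p R) [Fact p.Prime] (k : ℤ) :
    affCard ((TW R k).map (IsLocalRing.residue R)) = affCard (TW (ZMod p) k) := by
  obtain ⟨f⟩ := res_equiv h
  rw [TW_map, ← TW_map (f : ZMod p →+* IsLocalRing.ResidueField R) k, affCard_equiv]

/-- good reduction -/
theorem loc_good (k : ℤ) {p : ℕ} [hfact : Fact p.Prime] (h17 : p ≠ 17)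
    (hD : ¬ (p : ℤ) ∣ 4 * k + 1) :
    (tw k).LFunction p = (p : ℤ) - affCard (TW (ZMod p) k) ∧
      GoodAt (fun n => (tw k).LFunction n) p := by
  have hp : p.Prime := hfact.out
  have hL := M2.pfLoc p hp
  obtain ⟨-, -, -, e3⟩ := lf_eul (tw k)
  obtain ⟨-, -, -, f4⟩ := e3 p hp
  have hpp : Prime (p : ℤ) := Nat.prime_iff_prime_int.1 hp
  have hu : IsUnit (TW ((pl p hp).adicCompletionIntegers ℚ) k).Δ := by
    rw [TW_Δ]
    apply int_unit hL
    intro h1
    rcases hpp.dvd_or_dvd h1 with h2 | h2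
    · have h3 : p ∣ 17 ^ 2 := by exact_mod_cast (by norm_num at h2 ⊢; exact h2 : (p : ℤ) ∣ 17 ^ 2)
      exact h17 ((Nat.prime_dvd_prime_iff_eq hp (by norm_num)).1 (hp.dvd_of_dvd_pow h3))
    · exact hD (hpp.dvd_of_dvd_pow h2)
  have hC : (1 : VariableChange ((pl p hp).adicCompletion ℚ)) •
      TW ((pl p hp).adicCompletion ℚ) k =
      (TW ((pl p hp).adicCompletionIntegers ℚ) k).map
        (algebraMap _ ((pl p hp).adicCompletion ℚ)) := by
    rw [one_smul, TW_map]
  have hpol := M1.pfLocGood p _ _ hL _ 1 _ hC hu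
  rw [← lp_eq, affCard_res hL] at hpol
  exact f4 _ hpol

/-- additive reduction -/
theorem loc_add {k : ℤ} (hsq : Squarefree (4 * k + 1)) {p : ℕ} (hp : p.Prime) (h17 : p ≠ 17)
    (hD : (p : ℤ) ∣ 4 * k + 1) : TrivAt (fun n => (tw k).LFunction n) p := by
  have hL := M2.pfLoc p hp
  obtain ⟨-, -, -, e3⟩ := lf_eul (tw k)
  obtain ⟨f1, -, -, -⟩ := e3 p hp
  have hpp : Prime (p : ℤ) := Nat.prime_iff_prime_int.1 hp
  obtain ⟨d, hd⟩ := hD
  have hd' : ¬ (p : ℤ) ∣ d := by
    rintro ⟨c, rfl⟩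
    have := hsq p ⟨c, by rw [hd]; ring⟩
    exact hpp.not_isUnit this
  have h289 : ¬ (p : ℤ) ∣ 289 := by
    intro h2
    have h3 : p ∣ 17 ^ 2 := by exact_mod_cast (by norm_num at h2 ⊢; exact h2 : (p : ℤ) ∣ 17 ^ 2)
    exact h17 ((Nat.prime_dvd_prime_iff_eq hp (by norm_num)).1 (hp.dvd_of_dvd_pow h3))
  apply f1
  rw [lp_eq]
  refine M1.pfLocAdd p _ _ hL _ fun C W₁ e => ?_
  by_cases h273 : (p : ℤ) ∣ 273
  · have h4 : p ∣ 3 * (7 * 13) := by
      have : p ∣ 273 := by exact_mod_cast h273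
      simpa using this
    have h5 : p = 3 ∨ p = 7 ∨ p = 13 := by
      rcases hp.dvd_mul.1 h4 with h | h
      · exact Or.inl ((Nat.prime_dvd_prime_iff_eq hp (by norm_num)).1 h)
      · rcases hp.dvd_mul.1 h with h | h
        · exact Or.inr (Or.inl ((Nat.prime_dvd_prime_iff_eq hp (by norm_num)).1 h))
        · exact Or.inr (Or.inr ((Nat.prime_dvd_prime_iff_eq hp (by norm_num)).1 h))
    obtain ⟨f, hf, hf'⟩ : ∃ f : ℤ, (273 : ℤ) = (p : ℤ) ^ 1 * f ∧ ¬ (p : ℤ) ∣ f := by
      rcases h5 with rfl | rfl | rfl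
      · exact ⟨91, by norm_num, by norm_num⟩
      · exact ⟨39, by norm_num, by norm_num⟩
      · exact ⟨21, by norm_num, by norm_num⟩
    exact add_TW hL (e := 289) (f := f) (s := 0) (t := 1) hd hd' (by norm_num) h289 hf hf'
      (by norm_num) (by norm_num) e
  · exact add_TW hL (e := 289) (f := 273) (s := 0) (t := 0) hd hd' (by norm_num) h289 (by norm_num)
      h273 (by norm_num) (by norm_num) e

theorem node_TW {F : Type} [Field F] (k : ℤ) (T : F) :
    (TW F k).c₄ * T ^ 2 + (TW F k).a₁ * (TW F k).c₄ * T -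
      (54 * (TW F k).b₆ - 3 * (TW F k).b₂ * (TW F k).b₄ + (TW F k).a₂ * (TW F k).c₄) =
    (4 * (k : F) + 1) ^ 2 * (273 * T ^ 2 + 273 * T + 909 * (4 * k + 1) + 273 * (3 * k + 1)) := by
  simp only [TW, WeierstrassCurve.c₄, WeierstrassCurve.b₂, WeierstrassCurve.b₄,
    WeierstrassCurve.b₆]
  push_cast
  ring

theorem zmod17 : ∀ k : ZMod 17, 4 * k + 1 ≠ 0 →
    ((∃ T, (4 * k + 1) ^ 2 * (273 * T ^ 2 + 273 * T + 909 * (4 * k + 1) + 273 * (3 * k + 1)) = 0) ↔
      ∃ c, 4 * k + 1 = c * c) := by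
  decide

theorem split17 {F : Type} [Field F] (f : ZMod 17 ≃+* F) (k : ℤ)
    (hD : ((4 * k + 1 : ℤ) : ZMod 17) ≠ 0) :
    SplitNode (TW F k) ↔ IsSquare ((4 * k + 1 : ℤ) : ZMod 17) := by
  have h1 := zmod17 (k : ZMod 17) (by push_cast at hD; exact hD)
  have h2 : IsSquare ((4 * k + 1 : ℤ) : ZMod 17) ↔ ∃ c, 4 * (k : ZMod 17) + 1 = c * c := by
    unfold IsSquare
    push_cast
    rfl
  rw [h2, ← h1]
  unfold SplitNode
  constructor
  · rintro ⟨T, hT⟩
    rw [node_TW] at hT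
    refine ⟨f.symm T, ?_⟩
    have := congrArg f.symm hT
    simp only [map_add, map_mul, map_pow, map_ofNat, map_intCast, map_zero, map_one] at this
    exact this
  · rintro ⟨T, hT⟩
    refine ⟨f T, ?_⟩
    rw [node_TW]
    have := congrArg f hT
    simp only [map_add, map_mul, map_pow, map_ofNat, map_intCast, map_zero, map_one] at this
    exact this

theorem jac_sq' {D : ℤ} {p : ℕ} (hp : p.Prime) (h : ¬ (p : ℤ) ∣ D) : jacobiSym D p ^ 2 = 1 := by
  apply jacobiSym.sq_one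
  rw [Int.gcd_comm]
  exact Int.isCoprime_iff_gcd_eq_one.1
    ((Prime.coprime_iff_not_dvd (Nat.prime_iff_prime_int.1 hp)).2 h)

/-- multiplicative reduction at `17` -/
theorem loc17 {k : ℤ} (hD : ¬ (17 : ℤ) ∣ 4 * k + 1) (j : ℕ) :
    (tw k).LFunction (17 ^ j) = jacobiSym (4 * k + 1) 17 ^ j := by
  have hp : Nat.Prime 17 := by norm_num
  have hFact : Fact (Nat.Prime 17) := ⟨hp⟩
  have hpp : Prime ((17 : ℕ) : ℤ) := Nat.prime_iff_prime_int.1 hp
  have hL := M2.pfLoc 17 hp
  obtain ⟨-, -, -, e3⟩ := lf_eul (tw k)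
  obtain ⟨-, f2, f3, -⟩ := e3 17 hp
  have hD' : ¬ ((17 : ℕ) : ℤ) ∣ 4 * k + 1 := by exact_mod_cast hD
  have hcz := hL.charZero
  have hD0 : 4 * k + 1 ≠ 0 := by omega
  have hC : (1 : VariableChange ((pl 17 hp).adicCompletion ℚ)) •
      TW ((pl 17 hp).adicCompletion ℚ) k =
      (TW ((pl 17 hp).adicCompletionIntegers ℚ) k).map
        (algebraMap _ ((pl 17 hp).adicCompletion ℚ)) := by
    rw [one_smul, TW_map]
  have hc : IsUnit (TW ((pl 17 hp).adicCompletionIntegers ℚ) k).c₄ := by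
    rw [TW_c₄]
    apply int_unit hL
    intro h1
    rcases hpp.dvd_or_dvd h1 with h3 | h3
    · norm_num at h3
    · exact hD' (hpp.dvd_of_dvd_pow h3)
  have hΔ : (TW ((pl 17 hp).adicCompletionIntegers ℚ) k).Δ ≠ 0 := by
    rw [TW_Δ]
    have : (289 * (4 * k + 1) ^ 6 : ℤ) ≠ 0 := mul_ne_zero (by norm_num) (pow_ne_zero _ hD0)
    exact_mod_cast this
  have hΔ' : ¬ IsUnit (TW ((pl 17 hp).adicCompletionIntegers ℚ) k).Δ := by
    rw [TW_Δ, mem_max hL]
    have : (289 * (4 * k + 1) ^ 6 : ℤ) = ((17 : ℕ) : ℤ) * (17 * (4 * k + 1) ^ 6) := by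
      push_cast
      ring
    rw [this, Int.cast_mul, Int.cast_natCast]
    exact dvd_mul_right _ _
  have hloc := locMult (TW ((pl 17 hp).adicCompletion ℚ) k) 1 _ hC hc hΔ hΔ'
  rw [← lp_eq] at hloc
  obtain ⟨f⟩ := res_equiv hL
  have hsplit : SplitNode ((TW ((pl 17 hp).adicCompletionIntegers ℚ) k).map
      (IsLocalRing.residue ((pl 17 hp).adicCompletionIntegers ℚ))) ↔
      IsSquare ((4 * k + 1 : ℤ) : ZMod 17) := by
    rw [TW_map]
    exact split17 f k (by
      intro h0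
      rw [ZMod.intCast_zmod_eq_zero_iff_dvd] at h0
      exact hD' h0)
  have hjac : IsSquare ((4 * k + 1 : ℤ) : ZMod 17) ↔ jacobiSym (4 * k + 1) 17 = 1 := by
    rw [← jacobiSym.legendreSym.to_jacobiSym]
    exact (legendreSym.eq_one_iff 17 (by
      intro h0
      rw [ZMod.intCast_zmod_eq_zero_iff_dvd] at h0
      exact hD' h0)).symm
  by_cases hs : IsSquare ((4 * k + 1 : ℤ) : ZMod 17)
  · rw [if_pos (hsplit.2 hs)] at hloc
    rw [hjac.1 hs, one_pow]
    exact f2 hloc j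
  · rw [if_neg (fun h1 => hs (hsplit.1 h1))] at hloc
    have h1 : jacobiSym (4 * k + 1) 17 = -1 := by
      have h2 := jac_sq' hp hD'
      have h3 : jacobiSym (4 * k + 1) 17 ≠ 1 := fun h3 => hs (hjac.2 h3)
      rcases sq_eq_one_iff.1 h2 with h4 | h4
      · exact absurd h4 h3
      · exact h4
    rw [h1]
    exact f3 hloc j

/-! ### reciprocity -/

theorem rec_odd {k : ℤ} {p : ℕ} (hp : p.Prime) (hp2 : p ≠ 2) :
    jacobiSym (p : ℤ) (4 * k + 1).natAbs = jacobiSym (4 * k + 1) p := by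
  have hodd : Odd p := hp.odd_of_ne_two hp2
  rcases le_or_gt 0 (4 * k + 1) with h | h
  · obtain ⟨n, hn⟩ := Int.eq_ofNat_of_zero_le h
    rw [hn, Int.natAbs_natCast]
    have h4 : n % 4 = 1 := by omega
    exact (jacobiSym.quadratic_reciprocity_one_mod_four h4 hodd).symm
  · obtain ⟨n, hn⟩ : ∃ n : ℕ, 4 * k + 1 = -(n : ℤ) := ⟨(4 * k + 1).natAbs, by omega⟩
    have h4 : n % 4 = 3 := by omega
    rw [hn, Int.natAbs_neg, Int.natAbs_natCast, jacobiSym.neg _ hodd]
    have hn2 : Odd n := Nat.odd_iff.2 (by omega)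
    rcases Nat.odd_mod_four_iff.1 (Nat.odd_iff.1 hodd) with h1 | h1
    · rw [ZMod.χ₄_nat_one_mod_four h1, one_mul]
      exact jacobiSym.quadratic_reciprocity_one_mod_four h1 hn2
    · rw [ZMod.χ₄_nat_three_mod_four h1, jacobiSym.quadratic_reciprocity_three_mod_four h1 h4]
      ring

theorem rec_two (k : ℤ) :
    jacobiSym 2 (4 * k + 1).natAbs = if k % 2 = 0 then 1 else -1 := by
  have hodd : Odd (4 * k + 1).natAbs := by
    rw [Int.natAbs_odd]
    exact ⟨2 * k, by ring⟩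
  rw [jacobiSym.at_two hodd, ZMod.χ₈_nat_eq_if_mod_eight]
  have h : (4 * k + 1).natAbs % 2 ≠ 0 := by
    have := Nat.odd_iff.1 hodd
    omega
  rw [if_neg h]
  by_cases h2 : k % 2 = 0
  · rw [if_pos h2, if_pos (by omega)]
  · rw [if_neg h2, if_neg (by omega)]

theorem jac_pow_left (a : ℤ) (b k : ℕ) : jacobiSym (a ^ k) b = jacobiSym a b ^ k :=
  jacobiSym.pow_left a k b

/-- twisting a good factor by a sign -/
theorem good_sign' {X A : ℕ → ℤ} {p : ℕ} {ε : ℤ} (hε : ε ^ 2 = 1) (hX1 : X 1 = 1) (hA1 : A 1 = 1)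
    (hX : GoodAt X p) (hA : GoodAt A p) (h : X p = A p * ε) (k : ℕ) :
    X (p ^ k) = A (p ^ k) * ε ^ k := by
  have key : ∀ k : ℕ, X (p ^ k) = A (p ^ k) * ε ^ k ∧
      X (p ^ (k + 1)) = A (p ^ (k + 1)) * ε ^ (k + 1) := by
    intro k
    induction k with
    | zero => simp [hX1, hA1, h]
    | succ k ih =>
      refine ⟨ih.2, ?_⟩
      rw [hX k, hA k, ih.1, ih.2, h]
      linear_combination ((p : ℤ) * A (p ^ k) * ε ^ k) * hε
  exact (key k).1

/-- **modularity of the twists of `17a2`**: the Dirichlet coefficients of Mathlib's `L`-function of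
`tw k` are the coefficients of the form of level `17` twisted by `(· / |4 k + 1|)`. -/
theorem LFunction_tw (k : ℤ) (h : Squarefree (4 * k + 1)) (h17 : ¬ (17 : ℤ) ∣ 4 * k + 1) (m : ℕ) :
    (tw k).LFunction m = jacobiSym (m : ℤ) (4 * k + 1).natAbs * an r3 m := by
  have H := hk T3
  have hA : ∀ p : ℕ, p.Prime → p ≠ 17 → GoodAt (an r3) p := by
    intro p hp h17 j
    refine H.pow_T hp ?_ j
    intro h1
    exact h17 ((Nat.prime_dvd_prime_iff_eq hp (by norm_num)).1 h1)
  obtain ⟨e0, e1, e2, -⟩ := lf_eul (tw k)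
  have hpow : ∀ p : ℕ, p.Prime → ∀ j : ℕ, 0 < j →
      (tw k).LFunction (p ^ j) = jacobiSym (((p ^ j : ℕ)) : ℤ) (4 * k + 1).natAbs *
        an r3 (p ^ j) := by
    intro p hp j hj
    have hfact : Fact p.Prime := ⟨hp⟩
    rw [Nat.cast_pow, jac_pow_left]
    rcases eq_or_ne p 17 with rfl | hp17
    · rw [loc17 h17 j, rec_odd (k := k) hp (by norm_num)]
      have h1 : an r3 (17 ^ j) = 1 := by
        have : ∀ j : ℕ, an r3 (17 ^ j) = 1 := by
          intro j
          induction j with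
          | zero => rw [pow_zero]; exact H.one
          | succ j ih => rw [H.pow_U hp (by norm_num), ih, an_17 T3, mul_one]
        exact this j
      rw [h1, mul_one]
    by_cases hpD : (p : ℤ) ∣ 4 * k + 1
    · obtain ⟨i, rfl⟩ : ∃ i, j = i + 1 := ⟨j - 1, by omega⟩
      have h1 := loc_add h hp hp17 hpD i
      have h2 : jacobiSym (p : ℤ) (4 * k + 1).natAbs = 0 := by
        have hne : NeZero (4 * k + 1).natAbs := ⟨by omega⟩
        rw [jacobiSym.eq_zero_iff_not_coprime]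
        intro h5
        have h6 : (p : ℤ) ∣ (Int.gcd (p : ℤ) ((4 * k + 1).natAbs : ℤ) : ℤ) :=
          Int.dvd_coe_gcd dvd_rfl (by rw [Int.dvd_natAbs]; exact hpD)
        rw [h5] at h6
        exact (Nat.prime_iff_prime_int.1 hp).not_isUnit (isUnit_of_dvd_one (by simpa using h6))
      rw [h2, zero_pow (by omega), zero_mul]
      exact h1
    · obtain ⟨g1, g2⟩ := loc_good k hp17 hpD
      rcases eq_or_ne p 2 with rfl | hp2
      · have h3 : jacobiSym ((2 : ℕ) : ℤ) (4 * k + 1).natAbs = if k % 2 = 0 then 1 else -1 := by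
          exact_mod_cast rec_two k
        have h4 := good_sign' (X := fun n => (tw k).LFunction n) (A := an r3) (p := 2)
          (ε := if k % 2 = 0 then 1 else -1) (by split_ifs <;> norm_num) e1 H.one g2
          (hA 2 hp hp17) (by
            change (tw k).LFunction 2 = _
            rw [g1, affCard_TW2, an_two T3]
            split_ifs <;> norm_num) j
        rw [h3, mul_comm]
        exact h4
      · have hD' : ((4 * k + 1 : ℤ) : ZMod p) ≠ 0 := by
          intro h0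
          rw [ZMod.intCast_zmod_eq_zero_iff_dvd] at h0
          exact hpD h0
        have h4 := good_sign' (X := fun n => (tw k).LFunction n) (A := an r3) (p := p)
          (ε := jacobiSym (4 * k + 1) p) (jac_sq' hp hpD) e1 H.one g2
          (hA p hp hp17) (by
            change (tw k).LFunction p = _
            rw [g1, affCard_TW hp2 k hD', an_eq_s2 T3 hp2 hp17]
            ring) j
        rw [rec_odd hp hp2, mul_comm]
        exact h4
  induction m using Nat.recOnPosPrimePosCoprime with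
  | prime_pow p j hpp hj => exact hpow p hpp j hj
  | zero => rw [e0, H.zero, mul_zero]
  | one => rw [e1, H.one, Nat.cast_one, jacobiSym.one_left, one_mul]
  | coprime a b ha hb hab iha ihb =>
    rw [e2 _ _ hab, iha, ihb, H.mul _ _ hab, Nat.cast_mul, jacobiSym.mul_left]
    ring

end Vale.Agent.P014.H687
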