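import Vale.Agent.P014.H687.Th

/-!
# P014 (H687): the quartic identity of level `17`, formal part: vanishing to order `9`
-/

open PowerSeries

namespace Vale.Agent.P014.H687

open Vale.Agent.P004H.H204 (th th_mul th_X th_nat)

/-- left side minus right side of the quartic identity -/
noncomputable def DD {R : Type*} [CommRing R] (f E : R⟦X⟧) : R⟦X⟧ :=
  4 * (E * th f - f * th E) ^ 2 -
    f ^ 2 * (E ^ 4 - 16 * E ^ 3 * f - 66 * E ^ 2 * f ^ 2 - 48 * E * f ^ 3 - 127 * f ^ 4)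

theorem DD_dvd {f1 E g h : ℤ⟦X⟧}
    (hf : f1 = 1 - X - X ^ 3 - 2 * X ^ 4 + 4 * X ^ 6 + X ^ 7 * g)
    (hE : E = 2 + 3 * X + 9 * X ^ 2 + 12 * X ^ 3 + 21 * X ^ 4 + 18 * X ^ 5 + 36 * X ^ 6 +
      X ^ 7 * h) :
    ∃ R : ℤ⟦X⟧, DD (X * f1) E = X ^ 9 * R := by
  have hp : ∀ k : ℕ, th ((X : ℤ⟦X⟧) ^ k) = (k : ℤ⟦X⟧) * X ^ k := by
    intro k
    induction k with
    | zero => simp
    | succ k ih =>
      rw [pow_succ, th_mul, ih, th_X]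
      push_cast
      ring
  have hc : ∀ n : ℕ, th ((n : ℤ⟦X⟧)) = 0 := fun n => th_nat n
  have hc1 : th (1 : ℤ⟦X⟧) = 0 := by simp
  have hc2 : th (2 : ℤ⟦X⟧) = 0 := by simpa using hc 2
  have hc3 : th (3 : ℤ⟦X⟧) = 0 := by simpa using hc 3
  have hc4 : th (4 : ℤ⟦X⟧) = 0 := by simpa using hc 4
  have hc9 : th (9 : ℤ⟦X⟧) = 0 := by simpa using hc 9
  have hc12 : th (12 : ℤ⟦X⟧) = 0 := by simpa using hc 12
  have hc18 : th (18 : ℤ⟦X⟧) = 0 := by simpa using hc 18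
  have hc21 : th (21 : ℤ⟦X⟧) = 0 := by simpa using hc 21
  have hc36 : th (36 : ℤ⟦X⟧) = 0 := by simpa using hc 36
  obtain ⟨k, hk⟩ : ∃ k : ℤ⟦X⟧, th (X * f1) =
      X * (1 - 2 * X - 4 * X ^ 3 - 10 * X ^ 4 + 28 * X ^ 6 + X ^ 7 * k) := by
    refine ⟨8 * g + th g, ?_⟩
    rw [hf]
    simp only [th_mul, map_add, map_sub, hp, hc1, hc2, hc4, th_X]
    push_cast
    ring
  obtain ⟨l, hl⟩ : ∃ l : ℤ⟦X⟧, th E =
      3 * X + 18 * X ^ 2 + 36 * X ^ 3 + 84 * X ^ 4 + 90 * X ^ 5 + 216 * X ^ 6 + X ^ 7 * l := by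
    refine ⟨7 * h + th h, ?_⟩
    rw [hE]
    simp only [th_mul, map_add, hp, hc2, hc3, hc9, hc12, hc18, hc21, hc36, th_X]
    push_cast
    ring
  obtain ⟨K, hK⟩ : ∃ K : ℤ⟦X⟧,
      K = 1 - 2 * X - 4 * X ^ 3 - 10 * X ^ 4 + 28 * X ^ 6 + X ^ 7 * k := ⟨_, rfl⟩
  obtain ⟨L, hL⟩ : ∃ L : ℤ⟦X⟧, L = th E := ⟨_, rfl⟩
  rw [← hL] at hl
  have hD : DD (X * f1) E = X ^ 2 * (4 * (E * K - f1 * L) ^ 2 - f1 ^ 2 *
      (E ^ 4 - 16 * X * E ^ 3 * f1 - 66 * X ^ 2 * E ^ 2 * f1 ^ 2 - 48 * X ^ 3 * E * f1 ^ 3 -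
        127 * X ^ 4 * f1 ^ 4)) := by
    unfold DD
    rw [hk, ← hK, ← hL]
    ring
  have hdvd : (X : ℤ⟦X⟧) ^ 7 ∣ 4 * (E * K - f1 * L) ^ 2 - f1 ^ 2 *
      (E ^ 4 - 16 * X * E ^ 3 * f1 - 66 * X ^ 2 * E ^ 2 * f1 ^ 2 - 48 * X ^ 3 * E * f1 ^ 3 -
        127 * X ^ 4 * f1 ^ 4) := by
    rw [← Ideal.mem_span_singleton, ← Ideal.Quotient.eq_zero_iff_mem]
    have ht : (Ideal.Quotient.mk (Ideal.span {(X : ℤ⟦X⟧) ^ 7}) X) ^ 7 = 0 := by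
      rw [← map_pow, Ideal.Quotient.eq_zero_iff_mem]
      exact Ideal.mem_span_singleton_self _
    have h1 := congrArg (Ideal.Quotient.mk (Ideal.span {(X : ℤ⟦X⟧) ^ 7})) hf
    have h2 := congrArg (Ideal.Quotient.mk (Ideal.span {(X : ℤ⟦X⟧) ^ 7})) hE
    have h3 := congrArg (Ideal.Quotient.mk (Ideal.span {(X : ℤ⟦X⟧) ^ 7})) hK
    have h4 := congrArg (Ideal.Quotient.mk (Ideal.span {(X : ℤ⟦X⟧) ^ 7})) hl
    simp only [map_add, map_sub, map_mul, map_pow, map_one, map_ofNat] at h1 h2 h3 h4 ⊢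
    generalize Ideal.Quotient.mk (Ideal.span {(X : ℤ⟦X⟧) ^ 7}) X = t at *
    rw [ht, zero_mul, add_zero] at h1 h2 h3 h4
    rw [h1, h2, h3, h4]
    linear_combination (
      (2400) * t ^ 0 + (-2112) * t ^ 1 + (-20160) * t ^ 2 + (-30272) * t ^ 3 +
      (-67392) * t ^ 4 + (73152) * t ^ 5 + (380928) * t ^ 6 + (1116528) * t ^ 7 +
      (2154432) * t ^ 8 + (2403520) * t ^ 9 + (2164608) * t ^ 10 + (-2109504) * t ^ 11 +
      (-6185856) * t ^ 12 + (-17428224) * t ^ 13 + (-21778368) * t ^ 14 +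
      (-27572160) * t ^ 15 + (-18987264) * t ^ 16 + (-2256000) * t ^ 17 + (37331456) * t ^ 18 +
      (60595392) * t ^ 19 + (104167296) * t ^ 20 + (100907968) * t ^ 21 + (71453184) * t ^ 22 +
      (8282880) * t ^ 23 + (-58682624) * t ^ 24 + (-150059520) * t ^ 25 +
      (-141219840) * t ^ 26 + (-105735424) * t ^ 27 + (-41942016) * t ^ 28 +
      (30133248) * t ^ 29 + (65501184) * t ^ 30 + (21221376) * t ^ 31 + (1769472) * t ^ 32 +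
      (520192) * t ^ 33) * ht
  obtain ⟨R, hR⟩ := hdvd
  refine ⟨R, ?_⟩
  rw [hD, hR]
  ring

end Vale.Agent.P014.H687
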