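import Vale.Agent.P014.H687.Hasse
import Vale.Agent.P014.H687.Lf3
import Vale.Agent.P014.H483.Tw

/-!
# P014 (H687): output of module F
-/

open Complex

namespace Vale.Agent.P014.H687

open Vale.Agent.P014.H70 (r3 Th3)
open Vale.Agent.P014.H483 (Form AT)
open Vale.Agent.P004H.H204 (qq)

/-- the form of level `17` -/
theorem form17 : Form (Fc Th3) (an r3) where
  slash p q r s h h17 z hz := by
    obtain ⟨c, rfl⟩ := h17
    have := (F_form' T3).mob p q c s (by linarith) z hz
    simpa using this
  fricke z hz := by
    have := (F_form' T3).W z hz
    simpa using this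
  qexp z hz := by
    have h := (F_form' T3).sum z hz
    have e : (fun n : ℕ => ((an r3 n : ℤ) : ℂ) * cexp (2 * Real.pi * I * (n * z))) =
        fun n : ℕ => ((an r3 n : ℤ) : ℂ) * qq z ^ n := by
      funext n
      unfold qq
      rw [← Complex.exp_nat_mul]
      congr 2
      ring
    rw [e]
    exact h
  zero := an_zero T3

/-- the coefficients of the twists form an Euler product with Hasse's bound -/
theorem ld_AT {n : ℕ} (h17 : Nat.Coprime 17 n) : P004G.LD (AT (an r3) n) where
  zero := by
    unfold AT
    rw [an_zero T3, mul_zero]
  one := by
    unfold AT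
    rw [an_one T3, mul_one, Nat.cast_one, jacobiSym.one_left]
  mul a b hab := by
    unfold AT
    rw [(hk T3).mul a b hab, Nat.cast_mul, jacobiSym.mul_left]
    ring
  loc p hp := by
    have H := hk T3
    rcases eq_or_ne p 17 with rfl | hp17
    · right
      have h1 : ∀ j : ℕ, an r3 (17 ^ j) = 1 := by
        intro j
        induction j with
        | zero => rw [pow_zero]; exact H.one
        | succ j ih => rw [H.pow_U hp (by norm_num), ih, an_17 T3, mul_one]
      refine ⟨fun k => ?_, ?_⟩
      · unfold AT
        rw [h1, h1, an_17 T3, Nat.cast_pow, Nat.cast_pow, jacobiSym.pow_left, jacobiSym.pow_left]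
        ring
      · unfold AT
        rw [an_17 T3, mul_one]
        rcases jacobiSym.trichotomy ((17 : ℕ) : ℤ) n with h | h | h <;> rw [h] <;> norm_num
    · by_cases hd : Nat.Coprime p n
      · left
        have hs : jacobiSym (p : ℤ) n ^ 2 = 1 := jacobiSym.sq_one (by exact_mod_cast hd)
        refine ⟨fun k => ?_, ?_⟩
        · have h2 := H.pow_T hp (by
            intro h1
            exact hp17 ((Nat.prime_dvd_prime_iff_eq hp (by norm_num)).1 h1)) k
          unfold AT
          rw [h2]
          simp only [Nat.cast_pow, jacobiSym.pow_left]
          linear_combination (-(p : ℤ) * an r3 (p ^ k) * jacobiSym (p : ℤ) n ^ k) * hs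
        · unfold AT
          rw [mul_pow, hs, one_mul]
          exact an_hasse hp hp17
      · right
        have h0 : jacobiSym (p : ℤ) n = 0 := by
          by_contra h
          apply hd
          by_contra h2
          rcases Nat.eq_zero_or_pos n with rfl | hn
          · rw [Nat.coprime_zero_right] at h17
            norm_num at h17
          · have : NeZero n := ⟨hn.ne'⟩
            exact h (jacobiSym.eq_zero_iff_not_coprime.2 (by exact_mod_cast h2))
        refine ⟨fun k => ?_, ?_⟩
        · unfold AT
          simp only [Nat.cast_pow, jacobiSym.pow_left, h0]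
          rw [zero_pow (by omega)]
          ring
        · unfold AT
          rw [h0]
          norm_num

end Vale.Agent.P014.H687
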