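import Vale.Agent.P014.H687.P4a
import Vale.Agent.P014.H687.Dens2

/-!
# P004 / P014 (H687): the number of twists with nonvanishing central value
-/

open WeierstrassCurve Finset

namespace Vale.Agent.P014.H687.P4

open P004G P004G.ML Vale.Agent.P004H.H641 Vale.Agent.P004H.H666
open Vale.Agent.P014 Vale.Agent.P014.H687 Vale.Agent.P014.H687.Isog
open P004 (IsFund Fam)
open Vale.Agent.P014.H687.DP (IsDp Dp)
open Vale.Agent.P014.H687.Sqf (er Dm_ge Dp_ge er_pos)

/-- nonvanishing of the central value -/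
def NV (A B D : ℤ) : Prop := ∃ L : ℂ → ℂ, IsLT A B D L ∧ L 1 ≠ 0

open scoped Classical in
/-- the number of twists with nonvanishing central value -/
noncomputable def cnt0 (A B : ℤ) (X : ℕ) : ℕ := ((Fam X).filter fun D => NV A B D).card

theorem NV_iff {A B D k : ℤ} (h : ∀ m : ℕ, LA (A * D ^ 2) (B * D ^ 3) m = (tw k).LFunction m) :
    NV A B D ↔ ∃ L : ℂ → ℂ, IsHasseWeil (tw k) L ∧ L 1 ≠ 0 := by
  unfold NV IsLT IsHasseWeil
  have e : (fun n => ((Ec (A * D ^ 2) (B * D ^ 3)).LFunction n : ℂ)) =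
      (fun n => ((tw k).LFunction n : ℂ)) := by
    funext n
    rw [← h n]
    rfl
  simp only [e]

theorem natAbs_sqp_le {n : ℤ} (hn : n ≠ 0) : (sqp n).natAbs ≤ n.natAbs := by
  obtain ⟨h1, s, h2, h3⟩ := sqp_spec hn
  have h4 : n.natAbs = (sqp n).natAbs * (s.natAbs) ^ 2 := by
    conv_lhs => rw [h2]
    rw [Int.natAbs_mul, Int.natAbs_pow]
  rw [h4]
  exact Nat.le_mul_of_pos_right _ (pow_pos (Int.natAbs_pos.2 h3) 2)

theorem natAbs_Dm_le (m : ℤ) : (_root_.P004G.Dm m).natAbs ≤ 4 * m.natAbs := by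
  unfold _root_.P004G.Dm
  split_ifs <;> omega

theorem Dm_inj {m m' : ℤ} (h : _root_.P004G.Dm m = _root_.P004G.Dm m') : m = m' := by
  unfold _root_.P004G.Dm at h
  split_ifs at h <;> omega

/-- the twist parameter -/
noncomputable def tp (e d : ℤ) : ℤ := _root_.P004G.Dm (sqp (d * e))

theorem tp_inj {e d d' : ℤ} (he : e ≠ 0) (hd : Squarefree d) (hd' : Squarefree d')
    (h : tp e d = tp e d') : d = d' := by
  have h1 := Dm_inj h
  have h0 : d * e ≠ 0 := mul_ne_zero hd.ne_zero he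
  have h0' : d' * e ≠ 0 := mul_ne_zero hd'.ne_zero he
  obtain ⟨-, s, h2, h3⟩ := sqp_spec h0
  obtain ⟨-, s', h2', h3'⟩ := sqp_spec h0'
  rw [h1] at h2
  have h5 : e * (d * s' ^ 2) = e * (d' * s ^ 2) := by
    linear_combination s' ^ 2 * h2 - s ^ 2 * h2'
  exact sqf_unique hd hd' h3' h3 (mul_left_cancel₀ he h5)

theorem tp_le {e d : ℤ} (he : e ≠ 0) (hd : d ≠ 0) : (tp e d).natAbs ≤ 4 * (d.natAbs * e.natAbs) := by
  refine (natAbs_Dm_le _).trans (Nat.mul_le_mul_left 4 ?_)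
  rw [← Int.natAbs_mul]
  exact natAbs_sqp_le (mul_ne_zero hd he)

theorem tp_fund {e d : ℤ} (he : e ≠ 0) (hd : d ≠ 0) : tp e d = 1 ∨ IsFund (tp e d) :=
  fund1_Dm (sqp_spec (mul_ne_zero hd he)).1

theorem mem_Fam {X : ℕ} {D : ℤ} : D ∈ Fam X ↔ D.natAbs ≤ X ∧ IsFund D := by
  classical
  unfold Fam
  rw [Finset.mem_filter, Finset.mem_Icc]
  refine and_congr_left fun _ => ?_
  omega

open scoped Classical in
/-- the good elements of the first family -/
noncomputable def Gm (X : ℕ) : Finset ℕ := (FM.Dm X).filter fun n => (NP n).det = 1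

open scoped Classical in
/-- the good elements of the second family -/
noncomputable def Gp (X : ℕ) : Finset ℕ := (Dp X).filter fun n => (NP n).det = 1

/-- the hypothesis for the negative twists -/
def HM : Prop := ∀ n : ℕ, FM.IsDm n → (NP n).det = 1 → ∀ k : ℤ, 4 * k + 1 = -(n : ℤ) →
  ∃ L : ℂ → ℂ, IsHasseWeil (tw k) L ∧ L 1 ≠ 0

/-- the hypothesis for the positive twists -/
def HPl : Prop := ∀ n : ℕ, IsDp n → 1 < n → (NP n).det = 1 → ∀ k : ℤ, 4 * k + 1 = (n : ℤ) →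
  ∃ L : ℂ → ℂ, IsHasseWeil (tw k) L ∧ L 1 ≠ 0

theorem dm_mem {X n : ℕ} : n ∈ Gm X ↔ (n ≤ X ∧ FM.IsDm n) ∧ (NP n).det = 1 := by
  classical
  unfold Gm FM.Dm
  rw [mem_filter, mem_filter, mem_range, Nat.lt_succ_iff]

theorem dp_mem {X n : ℕ} : n ∈ Gp X ↔ (n ≤ X ∧ IsDp n) ∧ (NP n).det = 1 := by
  classical
  unfold Gp Dp
  rw [mem_filter, mem_filter, mem_range, Nat.lt_succ_iff]

theorem not17_of_dm {n : ℕ} (h : FM.IsDm n) {k : ℤ} (hk : 4 * k + 1 = -(n : ℤ)) :
    ¬ (17 : ℤ) ∣ 4 * k + 1 := by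
  intro h17
  rw [hk, Int.dvd_neg] at h17
  have h1 : n % 17 = 0 := by
    have : (17 : ℕ) ∣ n := by exact_mod_cast h17
    omega
  have h2 := h.2.2
  rw [Sqf.jac17, if_pos h1] at h2
  norm_num at h2

theorem not17_of_dp {n : ℕ} (h : IsDp n) {k : ℤ} (hk : 4 * k + 1 = (n : ℤ)) :
    ¬ (17 : ℤ) ∣ 4 * k + 1 := by
  intro h17
  rw [hk] at h17
  have h1 : n % 17 = 0 := by
    have : (17 : ℕ) ∣ n := by exact_mod_cast h17
    omega
  have h2 := h.2.2
  rw [Sqf.jac17, if_pos h1] at h2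
  norm_num at h2

/-- **the twists of a general curve** -/
theorem card_gen (hM : HM) {a b : ℤ} (h4 : Is4 a b) {A B e : ℤ} (he : e ≠ 0)
    (hS : SameL A B (A0 a * e ^ 2) (B0 a b * e ^ 3)) (X : ℕ) :
    (Gm (X / (4 * e.natAbs))).card ≤ cnt0 A B X + 1 := by
  classical
  have hea : 0 < e.natAbs := Int.natAbs_pos.2 he
  have key : (Gm (X / (4 * e.natAbs))).image (fun n : ℕ => tp e (-(n : ℤ))) ⊆
      insert 1 ((Fam X).filter fun D => NV A B D) := by
    intro D hD
    rw [mem_image] at hD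
    obtain ⟨n, hn, rfl⟩ := hD
    rw [dm_mem] at hn
    obtain ⟨⟨hnX, hn1⟩, hn2⟩ := hn
    have hn0 : (n : ℤ) ≠ 0 := by exact_mod_cast hn1.1.ne_zero
    obtain ⟨k, hk⟩ : ∃ k : ℤ, 4 * k + 1 = -(n : ℤ) := ⟨-((n : ℤ) + 1) / 4, by
      have := hn1.2.1
      omega⟩
    have hsq : Squarefree (4 * k + 1) := by
      rw [← Int.squarefree_natAbs, hk, Int.natAbs_neg, Int.natAbs_natCast]
      exact hn1.1
    rw [mem_insert]
    rcases tp_fund (d := -(n : ℤ)) he (neg_ne_zero.2 hn0) with h1 | h1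
    · exact Or.inl h1
    · right
      rw [mem_filter, mem_Fam]
      refine ⟨⟨?_, h1⟩, ?_⟩
      · refine (tp_le he (neg_ne_zero.2 hn0)).trans ?_
        rw [Int.natAbs_neg, Int.natAbs_natCast]
        have := (Nat.le_div_iff_mul_le (by positivity)).1 hnX
        nlinarith
      · have h5 := LA_gen h4 he hS k hsq (not17_of_dm hn1 hk)
        rw [hk] at h5
        exact (NV_iff h5).2 (hM n hn1 hn2 k hk)
  have h1 := Finset.card_le_card key
  rw [Finset.card_image_of_injOn ?_] at h1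
  · exact h1.trans (Finset.card_insert_le _ _)
  · intro n hn n' hn' h
    have hn := dm_mem.1 hn
    have hn' := dm_mem.1 hn'
    have e1 : Squarefree (-(n : ℤ)) := by
      rw [← Int.squarefree_natAbs, Int.natAbs_neg, Int.natAbs_natCast]; exact hn.1.2.1
    have e2 : Squarefree (-(n' : ℤ)) := by
      rw [← Int.squarefree_natAbs, Int.natAbs_neg, Int.natAbs_natCast]; exact hn'.1.2.1
    have := tp_inj he e1 e2 h
    omega

/-- **the twists of the four curves** -/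
theorem card_four (hM : HM) (hP : HPl) {a b : ℤ} (h4 : Is4 a b) (X : ℕ) :
    (Gm X).card + (Gp X).card ≤ cnt0 (A0 a) (B0 a b) X + 1 := by
  classical
  have key : (Gm X).image (fun n : ℕ => -(n : ℤ)) ∪ (Gp X).image (fun n : ℕ => (n : ℤ)) ⊆
      insert 1 ((Fam X).filter fun D => NV (A0 a) (B0 a b) D) := by
    intro D hD
    rw [mem_union, mem_image, mem_image] at hD
    rcases hD with ⟨n, hn, rfl⟩ | ⟨n, hn, rfl⟩
    · rw [dm_mem] at hn
      obtain ⟨⟨hnX, hn1⟩, hn2⟩ := hn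
      obtain ⟨k, hk⟩ : ∃ k : ℤ, 4 * k + 1 = -(n : ℤ) := ⟨-((n : ℤ) + 1) / 4, by
        have := hn1.2.1
        omega⟩
      have hsq : Squarefree (4 * k + 1) := by
        rw [← Int.squarefree_natAbs, hk, Int.natAbs_neg, Int.natAbs_natCast]
        exact hn1.1
      rw [mem_insert]
      right
      rw [mem_filter, mem_Fam, ← hk]
      refine ⟨⟨by omega, ?_⟩, ?_⟩
      · exact ⟨by have := hn1.2.1; omega, Or.inl ⟨by omega, hsq⟩⟩
      · exact (NV_iff (LA_tw h4 k hsq (not17_of_dm hn1 hk))).2 (hM n hn1 hn2 k hk)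
    · rw [dp_mem] at hn
      obtain ⟨⟨hnX, hn1⟩, hn2⟩ := hn
      obtain ⟨k, hk⟩ : ∃ k : ℤ, 4 * k + 1 = (n : ℤ) := ⟨((n : ℤ) - 1) / 4, by
        have := hn1.2.1
        omega⟩
      have hsq : Squarefree (4 * k + 1) := by
        rw [← Int.squarefree_natAbs, hk, Int.natAbs_natCast]
        exact hn1.1
      rw [mem_insert]
      rcases Nat.eq_or_lt_of_le (show 1 ≤ n by have := hn1.2.1; omega) with h1 | h1
      · left; rw [← h1]; rfl
      right
      rw [mem_filter, mem_Fam, ← hk]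
      refine ⟨⟨by omega, ?_⟩, ?_⟩
      · exact ⟨by omega, Or.inl ⟨by omega, hsq⟩⟩
      · exact (NV_iff (LA_tw h4 k hsq (not17_of_dp hn1 hk))).2 (hP n hn1 h1 hn2 k hk)
  have hdis : Disjoint ((Gm X).image (fun n : ℕ => -(n : ℤ)))
      ((Gp X).image (fun n : ℕ => (n : ℤ))) := by
    rw [Finset.disjoint_left]
    intro D h1 h2
    rw [mem_image] at h1 h2
    obtain ⟨n, hn, rfl⟩ := h1
    obtain ⟨m, hm, hm'⟩ := h2
    have a1 := (dm_mem.1 hn).1.2.2.1
    omega
  have h1 := Finset.card_le_card key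
  rw [Finset.card_union_of_disjoint hdis, Finset.card_image_of_injective _
    (fun x y h => by simpa using h), Finset.card_image_of_injective _ Nat.cast_injective] at h1
  exact h1.trans (Finset.card_insert_le _ _)

/-- the negative twists of the four curves -/
theorem card_neg (hM : HM) {a b : ℤ} (h4 : Is4 a b) (X : ℕ) :
    (Gm X).card ≤ cnt0 (A0 a) (B0 a b) X := by
  classical
  have key : (Gm X).image (fun n : ℕ => -(n : ℤ)) ⊆
      ((Fam X).filter fun D => NV (A0 a) (B0 a b) D) := by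
    intro D hD
    rw [mem_image] at hD
    obtain ⟨n, hn, rfl⟩ := hD
    rw [dm_mem] at hn
    obtain ⟨⟨hnX, hn1⟩, hn2⟩ := hn
    obtain ⟨k, hk⟩ : ∃ k : ℤ, 4 * k + 1 = -(n : ℤ) := ⟨-((n : ℤ) + 1) / 4, by
      have := hn1.2.1
      omega⟩
    have hsq : Squarefree (4 * k + 1) := by
      rw [← Int.squarefree_natAbs, hk, Int.natAbs_neg, Int.natAbs_natCast]
      exact hn1.1
    rw [mem_filter, mem_Fam, ← hk]
    refine ⟨⟨by omega, ?_⟩, ?_⟩
    · exact ⟨by have := hn1.2.1; omega, Or.inl ⟨by omega, hsq⟩⟩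
    · exact (NV_iff (LA_tw h4 k hsq (not17_of_dm hn1 hk))).2 (hM n hn1 hn2 k hk)
  have h1 := Finset.card_le_card key
  rw [Finset.card_image_of_injective _ (fun x y h => by simpa using h)] at h1
  exact h1

end Vale.Agent.P014.H687.P4
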