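import Vale.Agent.P014.H687.P4b

/-!
# P004 / P014 (H687): the proportion of twists with nonvanishing central value
-/

open WeierstrassCurve Finset

namespace Vale.Agent.P014.H687.P4

open P004G P004G.ML Vale.Agent.P004H.H641 Vale.Agent.P004H.H666
open Vale.Agent.P014 Vale.Agent.P014.H687 Vale.Agent.P014.H687.Isog
open P004 (IsFund Fam)
open Vale.Agent.P014.H687.DP (IsDp Dp)
open Vale.Agent.P014.H687.Sqf (er Dm_ge Dp_ge er_pos)

theorem Dm_le_Fam (X : ℕ) : (FM.Dm X).card ≤ (Fam X).card := by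
  classical
  refine Finset.card_le_card_of_injOn (fun n : ℕ => -(n : ℤ)) ?_ ?_
  · intro n hn
    have hn' : n ≤ X ∧ FM.IsDm n := by
      unfold FM.Dm at hn
      have := Finset.mem_filter.1 hn
      exact ⟨Nat.lt_succ_iff.1 (Finset.mem_range.1 this.1), this.2⟩
    have h3 := hn'.2.2.1
    change -(n : ℤ) ∈ Fam X
    rw [mem_Fam]
    refine ⟨by omega, by omega, Or.inl ⟨by omega, ?_⟩⟩
    rw [← Int.squarefree_natAbs, Int.natAbs_neg, Int.natAbs_natCast]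
    exact hn'.2.1
  · intro x _ y _ h
    simpa using h

theorem Fam_card_ge (X : ℕ) (hX : 1000000 ≤ X) : (X : ℝ) / 200 ≤ (Fam X).card :=
  (H698.Dm_card_ge X hX).trans (by exact_mod_cast Dm_le_Fam X)

theorem Fam_card_le2 (X : ℕ) : ((Fam X).card : ℝ) ≤ 2 * X + 1 := by
  classical
  unfold Fam
  have h := Finset.card_filter_le (Finset.Icc (-(X : ℤ)) X) IsFund
  have h2 : (Finset.Icc (-(X : ℤ)) X).card = 2 * X + 1 := by
    rw [Int.card_Icc]; omega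
  rw [h2] at h
  exact_mod_cast h

/-- the number of positive discriminants -/
theorem Dp_le_Fam (X : ℕ) : (Dp X).card ≤ (Fam X).card + 1 := by
  classical
  have h : (Dp X).image (fun n : ℕ => (n : ℤ)) ⊆ insert 1 (Fam X) := by
    intro D hD
    rw [mem_image] at hD
    obtain ⟨n, hn, rfl⟩ := hD
    have hn' : n ≤ X ∧ IsDp n := by
      unfold Dp at hn
      have := Finset.mem_filter.1 hn
      exact ⟨Nat.lt_succ_iff.1 (Finset.mem_range.1 this.1), this.2⟩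
    have h3 := hn'.2.2.1
    rw [mem_insert]
    by_cases h1 : n = 1
    · left; rw [h1]; rfl
    · right
      rw [mem_Fam]
      refine ⟨by omega, by omega, Or.inl ⟨by omega, ?_⟩⟩
      rw [← Int.squarefree_natAbs, Int.natAbs_natCast]
      exact hn'.2.1
  have h1 := Finset.card_le_card h
  rw [Finset.card_image_of_injective _ Nat.cast_injective] at h1
  exact h1.trans (Finset.card_insert_le _ _)

/-- the error terms are negligible -/
theorem er_small (ε : ℝ) (hε : 0 < ε) : ∃ X₀ : ℕ, ∀ X : ℕ, X₀ ≤ X →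
    er X ≤ ε * ((Fam X).card : ℝ) := by
  refine ⟨max 1000000 ⌈(1000 / ε) ^ 2⌉₊, fun X hX => ?_⟩
  have h1 := Fam_card_ge X ((le_max_left _ _).trans hX)
  have h2 : (1000 / ε) ^ 2 ≤ X := (Nat.le_ceil _).trans
    (by exact_mod_cast (le_max_right _ _).trans hX)
  have hX1 : (1 : ℝ) ≤ X := by
    have : 1 ≤ X := by
      have := (le_max_left 1000000 ⌈(1000 / ε) ^ 2⌉₊).trans hX
      omega
    exact_mod_cast this
  have h3 : 1000 / ε ≤ √X := Real.le_sqrt_of_sq_le h2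
  have h4 : 1 ≤ √(X : ℝ) := by rw [Real.one_le_sqrt]; exact hX1
  have h5 : er X ≤ 5 * √X := by
    unfold Sqf.er
    have := Real.nat_sqrt_le_real_sqrt (a := X)
    linarith
  have h6 : 1000 ≤ ε * √X := by
    rw [div_le_iff₀ hε] at h3
    linarith
  have h7 : √(X : ℝ) * √X = X := Real.mul_self_sqrt (by positivity)
  have h8 : 5 * √(X : ℝ) ≤ ε * (X / 200) := by
    have h9 : ε * ((X : ℝ) / 200) = ε * √(X : ℝ) * √(X : ℝ) / 200 := by
      rw [mul_assoc ε, h7]; ring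
    rw [h9]
    have h10 := mul_le_mul_of_nonneg_right h6 (by positivity : (0 : ℝ) ≤ √(X : ℝ))
    linarith
  calc er X ≤ 5 * √X := h5
    _ ≤ ε * (X / 200) := h8
    _ ≤ ε * ((Fam X).card : ℝ) := mul_le_mul_of_nonneg_left h1 hε.le

/-- the proportion, both signs -/
theorem prop_four {ρ : ℝ} (hρ : 0 ≤ ρ) (hρ1 : ρ ≤ 1)
    (h1 : ∀ ε : ℝ, 0 < ε → ∃ X₀ : ℕ, ∀ X : ℕ, X₀ ≤ X →
      (ρ - ε) * ((FM.Dm X).card : ℝ) ≤ (Gm X).card)
    (h2 : ∀ ε : ℝ, 0 < ε → ∃ X₀ : ℕ, ∀ X : ℕ, X₀ ≤ X →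
      (ρ - ε) * ((Dp X).card : ℝ) ≤ (Gp X).card)
    (hM : HM) (hP : HPl) {a b : ℤ} (h4 : Is4 a b) (ε : ℝ) (hε : 0 < ε) :
    ∃ X₀ : ℕ, ∀ X : ℕ, X₀ ≤ X →
      (17 / 54 * ρ - ε) * ((Fam X).card : ℝ) ≤ cnt0 (A0 a) (B0 a b) X := by
  obtain ⟨X₁, g1⟩ := h1 (ε / 8) (by positivity)
  obtain ⟨X₂, g2⟩ := h2 (ε / 8) (by positivity)
  obtain ⟨X₃, g3⟩ := er_small (ε / 400) (by positivity)
  refine ⟨max X₁ (max X₂ X₃), fun X hX => ?_⟩
  have k1 := g1 X ((le_max_left _ _).trans hX)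
  have k2 := g2 X ((le_max_left _ _).trans ((le_max_right _ _).trans hX))
  have k3 := g3 X ((le_max_right _ _).trans ((le_max_right _ _).trans hX))
  have a1 := Dm_ge X
  have a2 := Dp_ge X
  have b1 : ((FM.Dm X).card : ℝ) ≤ (Fam X).card := by exact_mod_cast Dm_le_Fam X
  have b2 : ((Dp X).card : ℝ) ≤ (Fam X).card + 1 := by exact_mod_cast Dp_le_Fam X
  have c1 : ((Gm X).card : ℝ) + (Gp X).card ≤ cnt0 (A0 a) (B0 a b) X + 1 := by
    exact_mod_cast card_four hM hP h4 X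
  have e1 := er_pos X
  have f0 : (0 : ℝ) ≤ ((Fam X).card : ℝ) := by positivity
  have m1 : ρ * (17 / 108 * ((Fam X).card : ℝ) - (50 * er X + 3)) ≤ ρ * (FM.Dm X).card :=
    mul_le_mul_of_nonneg_left a1 hρ
  have m2 : ρ * (17 / 108 * ((Fam X).card : ℝ) - (50 * er X + 3)) ≤ ρ * (Dp X).card :=
    mul_le_mul_of_nonneg_left a2 hρ
  have m3 : ρ * (50 * er X + 3) ≤ 50 * er X + 3 := by
    have : 0 ≤ (50 * er X + 3) := by linarith
    nlinarith
  have m4 : ε / 8 * ((FM.Dm X).card : ℝ) ≤ ε / 8 * (Fam X).card :=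
    mul_le_mul_of_nonneg_left b1 (by positivity)
  have m5 : ε / 8 * ((Dp X).card : ℝ) ≤ ε / 8 * ((Fam X).card + 1) :=
    mul_le_mul_of_nonneg_left b2 (by positivity)
  have m6 : ε / 400 ≤ 1 ∨ 1 < ε / 400 := le_or_gt _ _
  rcases m6 with m6 | m6
  · nlinarith
  · have : (17 / 54 * ρ - ε) * ((Fam X).card : ℝ) ≤ 0 :=
      mul_nonpos_of_nonpos_of_nonneg (by linarith) f0
    exact this.trans (by positivity)

/-- the proportion, negative twists only -/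
theorem prop_neg {ρ : ℝ} (hρ : 0 ≤ ρ) (hρ1 : ρ ≤ 1)
    (h1 : ∀ ε : ℝ, 0 < ε → ∃ X₀ : ℕ, ∀ X : ℕ, X₀ ≤ X →
      (ρ - ε) * ((FM.Dm X).card : ℝ) ≤ (Gm X).card)
    (hM : HM) {a b : ℤ} (h4 : Is4 a b) (ε : ℝ) (hε : 0 < ε) :
    ∃ X₀ : ℕ, ∀ X : ℕ, X₀ ≤ X →
      (17 / 108 * ρ - ε) * ((Fam X).card : ℝ) ≤ cnt0 (A0 a) (B0 a b) X := by
  obtain ⟨X₁, g1⟩ := h1 (ε / 8) (by positivity)
  obtain ⟨X₃, g3⟩ := er_small (ε / 400) (by positivity)
  refine ⟨max X₁ X₃, fun X hX => ?_⟩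
  have k1 := g1 X ((le_max_left _ _).trans hX)
  have k3 := g3 X ((le_max_right _ _).trans hX)
  have a1 := Dm_ge X
  have b1 : ((FM.Dm X).card : ℝ) ≤ (Fam X).card := by exact_mod_cast Dm_le_Fam X
  have c1 : ((Gm X).card : ℝ) ≤ cnt0 (A0 a) (B0 a b) X := by
    exact_mod_cast card_neg hM h4 X
  have e1 := er_pos X
  have f0 : (0 : ℝ) ≤ ((Fam X).card : ℝ) := by positivity
  have m1 : ρ * (17 / 108 * ((Fam X).card : ℝ) - (50 * er X + 3)) ≤ ρ * (FM.Dm X).card :=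
    mul_le_mul_of_nonneg_left a1 hρ
  have m3 : ρ * (50 * er X + 3) ≤ 50 * er X + 3 := by
    have : 0 ≤ (50 * er X + 3) := by linarith
    nlinarith
  have m4 : ε / 8 * ((FM.Dm X).card : ℝ) ≤ ε / 8 * (Fam X).card :=
    mul_le_mul_of_nonneg_left b1 (by positivity)
  nlinarith

/-- **positive proportion for the twists of a general curve** -/
theorem pos_gen (h1 : ∀ ε : ℝ, 0 < ε → ∃ X₀ : ℕ, ∀ X : ℕ, X₀ ≤ X →
      (1 / 3 - ε) * ((FM.Dm X).card : ℝ) ≤ (Gm X).card)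
    (hM : HM) {a b : ℤ} (h4 : Is4 a b) {A B e : ℤ} (he : e ≠ 0)
    (hS : SameL A B (A0 a * e ^ 2) (B0 a b * e ^ 3)) :
    ∃ c : ℝ, 0 < c ∧ ∃ X₀ : ℕ, ∀ X : ℕ, X₀ ≤ X →
      c * ((Fam X).card : ℝ) ≤ (cnt0 A B X : ℝ) := by
  obtain ⟨X₁, g1⟩ := h1 (1 / 12) (by norm_num)
  have hea : 0 < e.natAbs := Int.natAbs_pos.2 he
  have hea' : (1 : ℝ) ≤ (e.natAbs : ℝ) := by exact_mod_cast hea
  refine ⟨1 / (12800 * e.natAbs), by positivity,
    4 * e.natAbs * (max X₁ 1000000 + 1), fun X hX => ?_⟩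
  set Y := X / (4 * e.natAbs) with hY
  have hY1 : max X₁ 1000000 + 1 ≤ Y := by
    rw [hY, Nat.le_div_iff_mul_le (by positivity)]
    linarith [mul_comm (max X₁ 1000000 + 1) (4 * e.natAbs)]
  have hY2 : X₁ ≤ Y := ((le_max_left X₁ 1000000).trans (Nat.le_succ _)).trans hY1
  have hY3 : 1000000 ≤ Y := ((le_max_right X₁ 1000000).trans (Nat.le_succ _)).trans hY1
  have k1 := g1 Y hY2
  have k2 := H698.Dm_card_ge Y hY3
  have k3 : ((Gm Y).card : ℝ) ≤ cnt0 A B X + 1 := by exact_mod_cast card_gen hM h4 he hS X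
  have k4 := Fam_card_le2 X
  have k5 : (X : ℝ) ≤ 4 * e.natAbs * (Y + 1) := by
    have h6 : X < 4 * e.natAbs * (Y + 1) := by
      rw [hY]
      exact Nat.lt_mul_div_succ X (by positivity)
    exact_mod_cast h6.le
  have k6 : (1000000 : ℝ) ≤ Y := by exact_mod_cast hY3
  have k7 : (Y : ℝ) / 800 - 1 ≤ cnt0 A B X := by linarith
  refine le_trans ?_ k7
  rw [div_mul_eq_mul_div, one_mul, div_le_iff₀ (by positivity)]
  have k8 : ((Fam X).card : ℝ) ≤ 8 * e.natAbs * (Y + 1) + 1 := by linarith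
  refine k8.trans ?_
  nlinarith

end Vale.Agent.P014.H687.P4
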