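import Vale.Agent.P014.H687.P4c
import Vale.Agent.P014.H71.InpB2
import Vale.Agent.P014.H71.FinalB
import Vale.Agent.P014.H580.FMmain
import Vale.Agent.P014.H483.EvF
import Vale.Agent.P014.H74.F5

/-!
# P004 / P014 (H687): a positive proportion of the twists of the curves of conductor `17` has
nonvanishing central value
-/

open WeierstrassCurve Finset

namespace Vale.Agent.P014.H687.P4

open P004G P004G.ML Vale.Agent.P004H.H641 Vale.Agent.P004H.H666
open Vale.Agent.P014 Vale.Agent.P014.H687 Vale.Agent.P014.H687.Isog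
open P004 (IsFund Fam)
open Vale.Agent.P014.H74 (ell gh)
open Vale.Agent.P014.H483 (rhoE)
open Vale.Agent.P014.H70 (r3)

/-- **the negative twists** -/
theorem hm : HM := by
  intro n hn hdet k hk
  have hn' : H74.Dm n := ⟨hn.2.1, hn.1, hn.2.2⟩
  obtain ⟨L, hL, -, h⟩ := H71.mainB H71.inp hn' hk
  obtain ⟨h1, h2⟩ := (H71.det_iff (H71.hypB_of_Dm hn') hk).1 (by
    rw [show (NP n).det = 1 from hdet]; exact one_ne_zero)
  exact ⟨L, hL, (h h1 h2).1⟩

/-- **the positive twists** -/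
theorem hp : HPl := by
  intro n hn h1 hdet k hk
  have hn' : H74.Dp n := ⟨hn.2.1, hn.1, hn.2.2⟩
  have hco : Nat.Coprime 17 n := (DP.dp_cop hn).symm
  obtain ⟨q, u, hu, hq, hq2⟩ := H71.inp.main_even_rho hn' (by omega)
    (ρ := rhoE (an r3)) (H483.par_E H687.form17) H483.even_E
  rw [H71.DF_eq (by have := hn.2.1; omega), show (NP n).det = 1 from hdet] at hq2
  have hq0 : q ≠ 0 := by
    rintro rfl
    norm_num at hq2
  obtain ⟨L, hL, ε, hε, hL1⟩ := hw_even hn.2.1 h1 hn.1 hco hk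
  refine ⟨L, hL, ?_⟩
  have hgh : rhoE (an r3) gh ≠ 0 := H483.rhoE_gh_neg.ne
  have hell : ell (rhoE (an r3)) n ≠ 0 := by
    intro h0
    rw [h0, zero_mul, mul_zero, eq_comm, neg_eq_zero] at hq
    rcases mul_eq_zero.1 hq with h | h
    · exact hgh h
    · have h2 : ((2 ^ n.primeFactors.card * q : ℤ) : ℝ) ≠ 0 := by
        exact_mod_cast mul_ne_zero (pow_ne_zero _ two_ne_zero) hq0
      exact pow_ne_zero 2 h2 h
  have hs : √(n : ℝ) ≠ 0 := by
    have : (0 : ℝ) < n := by exact_mod_cast Nat.pos_of_ne_zero hn.1.ne_zero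
    exact (Real.sqrt_pos.2 this).ne'
  have hε0 : ε ≠ 0 := by rcases hε with h | h <;> rw [h] <;> norm_num
  rw [hL1]
  exact_mod_cast mul_ne_zero hε0 (div_ne_zero hell hs)

/-- the proportion for the first family -/
theorem gm_prop (ε : ℝ) (hε : 0 < ε) : ∃ X₀ : ℕ, ∀ X : ℕ, X₀ ≤ X →
    (1 / 3 - ε) * ((FM.Dm X).card : ℝ) ≤ (Gm X).card := by
  obtain ⟨X₀, h⟩ := FM.prop_dm ε hε
  refine ⟨X₀, fun X hX => (h X hX).trans ?_⟩
  unfold Gm
  refine Nat.cast_le.2 (Finset.card_le_card fun n hn => ?_)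
  rw [mem_filter] at hn ⊢
  exact hn

/-- the proportion for the second family -/
theorem gp_prop (ε : ℝ) (hε : 0 < ε) : ∃ X₀ : ℕ, ∀ X : ℕ, X₀ ≤ X →
    (1 / 3 - ε) * ((DP.Dp X).card : ℝ) ≤ (Gp X).card := by
  obtain ⟨X₀, h⟩ := FM.prop_dp ε hε
  refine ⟨X₀, fun X hX => (h X hX).trans ?_⟩
  unfold Gp
  refine Nat.cast_le.2 (Finset.card_le_card fun n hn => ?_)
  rw [mem_filter] at hn ⊢
  exact hn

end Vale.Agent.P014.H687.P4
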