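import Vale.Agent.P014.H687.Quart
import Vale.Agent.P004H.H924.Cartier

/-!
# P014 (H687): the integral Weierstrass parametrisation of `17a1`, and Cartier
-/

open PowerSeries

namespace Vale.Agent.P014.H687

open Vale.Agent.P004H.H204 (th th_mul th_X th_nat coeff_th exists_of_map_eq_zero
  nat_cast_ne_zero mk_succ)

/-- **The integral Weierstrass parametrisation of `17a1`.** In terms of `x = X^-2 X₁`,
`y' = X^-3 Y₀`, `f = X f1`: `y'^2 = 4 x^3 - 3 x^2 - 2 x - 55`, `th x = - y' f`. -/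
theorem param {f1 T : ℤ⟦X⟧} (h1 : constantCoeff f1 = 1) (hT0 : constantCoeff T = 0)
    (hQ : DD (X * f1) (2 + 3 * (X * f1 + 4 * T)) = 0) :
    ∃ X₁ Y₀ : ℤ⟦X⟧, constantCoeff X₁ = 1 ∧ constantCoeff Y₀ = 2 ∧
      Y₀ ^ 2 = 4 * X₁ ^ 3 - 3 * X ^ 2 * X₁ ^ 2 - 2 * X ^ 4 * X₁ - 55 * X ^ 6 ∧
      th X₁ - 2 * X₁ = -(Y₀ * f1) := by
  obtain ⟨g1, hg1⟩ : ∃ g1 : ℤ⟦X⟧, f1 * g1 = 1 :=
    ⟨invOfUnit f1 1, mul_invOfUnit f1 1 (by simpa using h1)⟩
  have hf10 : f1 ≠ 0 := by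
    rintro rfl
    simp at hg1
  have hX0 : (X : ℤ⟦X⟧) ≠ 0 := X_ne_zero
  obtain ⟨U, hU⟩ : ∃ U : ℤ⟦X⟧, U = (1 + 6 * T) * g1 := ⟨_, rfl⟩
  obtain ⟨V, hV⟩ : ∃ V : ℤ⟦X⟧, V = (th U - U) * g1 := ⟨_, rfl⟩
  have hUf : U * f1 = 1 + 6 * T := by
    rw [hU]
    linear_combination (1 + 6 * T) * hg1
  have hVf : V * f1 = th U - U := by
    rw [hV]
    linear_combination (th U - U) * hg1
  have hg0 : constantCoeff g1 = 1 := by
    have h := congrArg (constantCoeff (R := ℤ)) hg1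
    rw [map_mul, h1, one_mul, map_one] at h
    exact h
  have hU0 : constantCoeff U = 1 := by
    rw [hU, map_mul, hg0, map_add, map_mul, hT0]
    simp
  have hth0 : ∀ a : ℤ⟦X⟧, constantCoeff (th a) = 0 := by
    intro a
    have := coeff_th a 0
    simpa using this
  have hV0 : constantCoeff V = -1 := by
    rw [hV, map_mul, map_sub, hth0, hU0, hg0]
    norm_num
  have hc : ∀ n : ℕ, th ((n : ℤ⟦X⟧)) = 0 := fun n => th_nat n
  -- `E = 2 G + 3 f`
  have hE : (2 + 3 * (X * f1 + 4 * T) : ℤ⟦X⟧) = 2 * (U * f1) + 3 * (X * f1) := by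
    rw [hUf]
    ring
  have hthE : th (2 * (U * f1) + 3 * (X * f1) : ℤ⟦X⟧) =
      2 * (U * th f1 + f1 * th U) + 3 * (X * th f1 + f1 * X) := by
    rw [map_add, th_mul, th_mul, th_mul, th_mul, th_X]
    have e2 : th (2 : ℤ⟦X⟧) = 0 := by simpa using hc 2
    have e3 : th (3 : ℤ⟦X⟧) = 0 := by simpa using hc 3
    rw [e2, e3]
    ring
  have hthf : th (X * f1) = X * th f1 + f1 * X := by rw [th_mul, th_X]
  have h7 : th U = U + V * f1 := by rw [hVf]; ring
  have hV2 : V ^ 2 = U ^ 4 - 2 * X * U ^ 3 - 39 * X ^ 2 * U ^ 2 - 96 * X ^ 3 * U -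
      76 * X ^ 4 := by
    unfold DD at hQ
    rw [hE, hthE, hthf] at hQ
    have h6 : ((16 : ℤ⟦X⟧) * (X ^ 2 * f1 ^ 6)) ≠ 0 := by
      refine mul_ne_zero ?_ (mul_ne_zero (pow_ne_zero _ hX0) (pow_ne_zero _ hf10))
      exact_mod_cast nat_cast_ne_zero (n := 16) (by norm_num)
    apply mul_left_cancel₀ h6
    rw [h7] at hQ
    linear_combination hQ
  -- `A = W - V` is even
  obtain ⟨W, hW⟩ : ∃ W : ℤ⟦X⟧, W = U ^ 2 - X * U - 20 * X ^ 2 := ⟨_, rfl⟩
  have hA : (W - V) * (2 * W - (W - V)) = 68 * (2 * X ^ 3 * U + 7 * X ^ 4) := by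
    rw [hW]
    linear_combination (-1 : ℤ⟦X⟧) * hV2
  have : Fact (Nat.Prime 2) := ⟨by norm_num⟩
  have hA2 : PowerSeries.map (Int.castRingHom (ZMod 2)) (W - V) = 0 := by
    have h2 : (2 : (ZMod 2)⟦X⟧) = 0 := by
      have : ((2 : ℕ) : (ZMod 2)⟦X⟧) = 0 := by
        have h1 : ((2 : ℕ) : ZMod 2) = 0 := ZMod.natCast_self 2
        rw [← map_natCast (PowerSeries.C (R := ZMod 2)), h1, map_zero]
      exact_mod_cast this
    have h3 := congrArg (PowerSeries.map (Int.castRingHom (ZMod 2))) hA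
    generalize W - V = A at h3 ⊢
    simp only [map_mul, map_sub, map_add, map_pow, map_ofNat] at h3
    have h4 : (PowerSeries.map (Int.castRingHom (ZMod 2)) A) ^ 2 = 0 := by
      generalize PowerSeries.map (Int.castRingHom (ZMod 2)) A = a at h3 ⊢
      generalize PowerSeries.map (Int.castRingHom (ZMod 2)) W = w at h3
      generalize PowerSeries.map (Int.castRingHom (ZMod 2)) U = u at h3
      generalize PowerSeries.map (Int.castRingHom (ZMod 2)) X = x at h3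
      linear_combination (-1 : (ZMod 2)⟦X⟧) * h3 + (a * w - 34 * (2 * x ^ 3 * u + 7 * x ^ 4)) * h2
    exact pow_eq_zero_iff (two_ne_zero) |>.1 h4
  obtain ⟨X₀, hX⟩ := exists_of_map_eq_zero (p := 2) _ hA2
  have e2 : ((2 : ℕ) : ℤ⟦X⟧) = 2 := by norm_num
  rw [e2] at hX
  have h20 : (2 : ℤ⟦X⟧) ≠ 0 := by exact_mod_cast nat_cast_ne_zero (n := 2) (by norm_num)
  have h40 : (4 : ℤ⟦X⟧) ≠ 0 := by exact_mod_cast nat_cast_ne_zero (n := 4) (by norm_num)
  have hX00 : constantCoeff X₀ = 1 := by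
    have h := congrArg (constantCoeff (R := ℤ)) hX
    simp only [hW, map_sub, map_mul, map_pow, hU0, constantCoeff_X, hV0, map_ofNat] at h
    linarith
  have hXW : X₀ * (W - X₀) = 17 * (2 * X ^ 3 * U + 7 * X ^ 4) := by
    apply mul_left_cancel₀ h40
    rw [hX] at hA
    linear_combination hA
  -- `Y₀`
  obtain ⟨Y₀, hY⟩ : ∃ Y₀ : ℤ⟦X⟧, Y₀ = 2 * X₀ * U - X * X₀ - 34 * X ^ 3 := ⟨_, rfl⟩
  have hp2 : ∀ a : ℤ⟦X⟧, th (a ^ 2) = 2 * a * th a := by
    intro a; rw [pow_two, th_mul]; ring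
  have hp3 : ∀ a : ℤ⟦X⟧, th (a ^ 3) = 3 * a ^ 2 * th a := by
    intro a; rw [pow_succ, th_mul, hp2]; ring
  have hp4 : ∀ a : ℤ⟦X⟧, th (a ^ 4) = 4 * a ^ 3 * th a := by
    intro a; rw [pow_succ, th_mul, hp3]; ring
  have hthV : 2 * th V = (4 * U ^ 3 - 6 * X * U ^ 2 - 78 * X ^ 2 * U - 96 * X ^ 3) * f1 +
      4 * V := by
    have hVne : V ≠ 0 := by
      intro h0
      rw [h0, map_zero] at hV0
      exact absurd hV0 (by norm_num)
    apply mul_left_cancel₀ hVne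
    have h := congrArg (th (R := ℤ)) hV2
    have hc2 : th (2 : ℤ⟦X⟧) = 0 := by simpa using hc 2
    have hc39 : th (39 : ℤ⟦X⟧) = 0 := by simpa using hc 39
    have hc96 : th (96 : ℤ⟦X⟧) = 0 := by simpa using hc 96
    have hc76 : th (76 : ℤ⟦X⟧) = 0 := by simpa using hc 76
    simp only [map_sub, th_mul, hp2, hp3, hp4, hc2, hc39, hc96, hc76, th_X] at h
    rw [h7] at h
    linear_combination h - 4 * hV2
  have hthX : th X₀ - 2 * X₀ = -(Y₀ * f1) := by
    apply mul_left_cancel₀ h40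
    have h := congrArg (th (R := ℤ)) hX
    have hc2 : th (2 : ℤ⟦X⟧) = 0 := by simpa using hc 2
    have hc20 : th (20 : ℤ⟦X⟧) = 0 := by simpa using hc 20
    rw [hW] at h
    simp only [map_sub, th_mul, hp2, hc2, hc20, th_X] at h
    rw [h7] at h
    have hVX : V = W - 2 * X₀ := by rw [← hX]; ring
    rw [hY]
    have hWe : W = U ^ 2 - X * U - 20 * X ^ 2 := hW
    linear_combination (-2 : ℤ⟦X⟧) * h - hthV + ((4 * U - 2 * X) * f1 - 4) * hVX +
      ((4 * U - 2 * X) * f1 - 4) * hWe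
  refine ⟨X₀ + 7 * X ^ 2, Y₀, ?_, ?_, ?_, ?_⟩
  · rw [map_add, hX00, map_mul, map_pow, constantCoeff_X]
    norm_num
  · simp only [hY, map_sub, map_mul, map_pow, hX00, hU0, constantCoeff_X, map_ofNat]
    norm_num
  · rw [hY]
    linear_combination (4 : ℤ⟦X⟧) * X₀ * hXW - 4 * X₀ ^ 2 * hW
  · have hc7 : th (7 : ℤ⟦X⟧) = 0 := by simpa using hc 7
    have hp2X : th ((X : ℤ⟦X⟧) ^ 2) = 2 * X ^ 2 := by rw [pow_two, th_mul, th_X]; ring
    rw [map_add, th_mul, hc7, hp2X]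
    linear_combination hthX

/-- the character sum of `17a1` -/
noncomputable def csum (p : ℕ) [Fact p.Prime] : ℤ :=
  ∑ t : ZMod p, quadraticChar (ZMod p) (4 * t ^ 3 - 3 * t ^ 2 - 2 * t - 55)

theorem mk_cE : PowerSeries.mk cE = 2 + 3 * PowerSeries.mk sg := by
  ext n
  have h2 : (2 : PowerSeries ℤ) = PowerSeries.C 2 := by simp
  have h3 : (3 : PowerSeries ℤ) = PowerSeries.C 3 := by simp
  rw [map_add, h2, h3, PowerSeries.coeff_C_mul, PowerSeries.coeff_C, PowerSeries.coeff_mk,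
    PowerSeries.coeff_mk]
  unfold cE
  by_cases hn : n = 0
  · rw [if_pos hn, if_pos hn, hn]
    have : sg 0 = 0 := by decide
    rw [this]
    norm_num
  · rw [if_neg hn, if_neg hn, zero_add]

section

variable {Θ : ℂ → ℂ} {r : ℕ → ℤ} (T : TD Θ r)

include T

theorem exists_T : ∃ S : ℤ⟦X⟧, constantCoeff S = 0 ∧ PowerSeries.mk sg =
    PowerSeries.mk (an r) + 4 * S := by
  refine ⟨PowerSeries.mk fun n => (sg n - an r n) / 4, ?_, ?_⟩
  · rw [← coeff_zero_eq_constantCoeff_apply, coeff_mk, an_zero T]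
    decide
  · ext n
    have h4 : (4 : PowerSeries ℤ) = PowerSeries.C 4 := by simp
    rw [map_add, h4, PowerSeries.coeff_C_mul, coeff_mk, coeff_mk, coeff_mk]
    have hd : (4 : ℤ) ∣ sg n - an r n := by
      rcases eq_or_ne n 0 with rfl | hn
      · rw [an_zero T]; decide
      · have := an_mod_four T hn
        rw [← neg_sub, dvd_neg]
        exact this
    rw [Int.mul_ediv_cancel' hd]
    ring

/-- **`a_p = - ∑ χ(4 t³ - 3 t² - 2 t - 55)` modulo `p`** -/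
theorem an_mod_p (p : ℕ) [Fact p.Prime] (hp2 : p ≠ 2) :
    ((an r p : ℤ) : ZMod p) = -((csum p : ℤ) : ZMod p) := by
  obtain ⟨S, hS0, hS⟩ := exists_T T
  have hm : PowerSeries.mk (an r) = X * PowerSeries.mk (fun n => an r (n + 1)) := by
    rw [mk_succ (an r), an_zero T, map_zero, zero_add]
  set f1 : ℤ⟦X⟧ := PowerSeries.mk (fun n => an r (n + 1)) with hf1
  have h1 : constantCoeff f1 = 1 := by
    rw [← coeff_zero_eq_constantCoeff_apply, hf1, coeff_mk, zero_add, an_one T]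
  have hQ : DD (X * f1) (2 + 3 * (X * f1 + 4 * S)) = 0 := by
    have h := quartic T
    rw [mk_cE, hS, hm] at h
    exact h
  obtain ⟨X1, Y0, hX1, hY0, hY, hth⟩ := param h1 hS0 hQ
  have h := Vale.Agent.P004H.H924.cartier' p hp2 X1 Y0 (X * f1) (-3) (-1) (-55) (by simp)
    (by rw [show (1 : ℕ) = 0 + 1 from rfl, coeff_succ_X_mul, coeff_zero_eq_constantCoeff_apply,
      h1])
    (by
      rw [coeff_zero_eq_constantCoeff_apply, hY0]
      intro hd
      have h3 : p ∣ 2 := by exact_mod_cast hd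
      exact hp2 ((Nat.prime_dvd_prime_iff_eq (Fact.out : p.Prime) Nat.prime_two).mp h3))
    (by
      change X * (Vale.Agent.P004H.H204.th X1 - 2 * X1) = _
      rw [hth]; ring)
    (by
      rw [hY]
      simp only [map_neg, map_ofNat, map_one]
      ring) 1
  rw [mul_one, show coeff 1 (X * f1) = (1 : ℤ) by
    rw [show (1 : ℕ) = 0 + 1 from rfl, coeff_succ_X_mul, coeff_zero_eq_constantCoeff_apply, h1],
    Int.cast_one, mul_one] at h
  have e0 : coeff p (X * f1) = an r p := by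
    rw [← hm, coeff_mk]
  rw [e0] at h
  rw [h, csum, Int.cast_sum]
  congr 1
  apply Finset.sum_congr rfl
  intro t _
  have e : 4 * t ^ 3 + ((-3 : ℤ) : ZMod p) * t ^ 2 + 2 * ((-1 : ℤ) : ZMod p) * t
      + ((-55 : ℤ) : ZMod p) = 4 * t ^ 3 - 3 * t ^ 2 - 2 * t - 55 := by
    push_cast
    ring
  rw [e]

end

end Vale.Agent.P014.H687
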