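import Vale.Agent.P014.H687.E17

/-!
# P014 (H687): the cusp form of level `17` from a theta series
-/

open Complex
open UpperHalfPlane hiding I
open CongruenceSubgroup ModularForm Filter Asymptotics Manifold
open Matrix.SpecialLinearGroup (mapGL)
open scoped Real MatrixGroups ModularForm ArithmeticFunction.sigma Topology

namespace Vale.Agent.P014.H687

open Vale.Agent.P004H.H204 (Conv ev conv_of qq norm_qq norm_qq_lt tendsto_qq E2c E2c_eq E2c_mob
  hasSum_E2)
open Vale.Agent.P004H.H833 (periodic_of)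
open Vale.Agent.P004H (H181.Tp)
open Vale.Agent.P004H.H181 (Tp Up hasSum_Tp hasSum_Up coeff_uniq hs_congr)

/-- the data of the theta series of the maximal order with six units -/
structure TD (Θ : ℂ → ℂ) (r : ℕ → ℤ) : Prop where
  form : WForm Θ (fun n => (r n : ℂ)) (-17)
  r0 : r 0 = 1
  r1 : r 1 = 6
  r2 : r 2 = 0
  r3 : r 3 = 6
  r5 : r 5 = 0
  r7 : r 7 = 30
  even : ∀ n, n ≠ 0 → 2 ∣ r n

/-- the rational coefficients -/
def xr (r : ℕ → ℤ) (n : ℕ) : ℚ := (2 * r n - cE n) / 9

/-- the cusp form -/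
noncomputable def Fc (Θ : ℂ → ℂ) (z : ℂ) : ℂ := (2 * Θ z - ec z) / 9

section

variable {Θ : ℂ → ℂ} {r : ℕ → ℤ} (T : TD Θ r)

theorem sg_one : sg 1 = 1 := by decide
theorem sg_two : sg 2 = 3 := by decide
theorem sg_three : sg 3 = 4 := by decide
theorem sg_four : sg 4 = 7 := by decide
theorem sg_five : sg 5 = 6 := by decide
theorem sg_six : sg 6 = 12 := by decide
theorem sg_seven : sg 7 = 8 := by decide

include T

theorem F_form : WForm (Fc Θ) (fun n => (xr r n : ℂ)) (-17) where
  mob a b c d h z hz := by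
    unfold Fc
    rw [T.form.mob a b c d h z hz, ec_mob h hz]
    ring
  W z hz := by
    unfold Fc
    rw [T.form.W z hz, ec_W hz]
    ring
  sum z hz := by
    have h := (((T.form.sum z hz).mul_left 2).sub (hasSum_ec hz)).div_const 9
    refine h.congr_fun fun n => ?_
    unfold xr
    push_cast
    ring

theorem xr_zero : xr r 0 = 0 := by
  unfold xr cE
  rw [T.r0]
  norm_num

theorem xr_one : xr r 1 = 1 := by
  unfold xr cE
  rw [T.r1, if_neg (by norm_num), sg_one]
  norm_num

/-- the cusp form of level `17` -/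
noncomputable def F17 : CuspForm Gm 2 := (F_form T).cf (by
  rw [xr_zero T]
  norm_num)

theorem F17_apply (z : ℍ) : F17 T z = Fc Θ z := rfl

/-- `S_2(Γ₀(17))` is spanned by `F` -/
theorem S2_dim (h : CuspForm Gm 2) : ∃ c : ℂ, ∀ τ, h τ = c * F17 T τ := by
  set hm : ModularForm Gm 2 := CuspForm.toModularFormₗ h with hhm
  have h1 : (1 : ℝ) ∈ Gm.strictPeriods := by simp
  set b : ℂ := (qExpansion 1 h).coeff 1 with hb
  set g : ModularForm Gm 2 := hm - b • (F_form T).mf with hg
  have e1 : qExpansion 1 g = qExpansion 1 hm - b • qExpansion 1 (F_form T).mf := by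
    have e2 := ModularForm.qExpansion_sub (Γ := Gm) one_pos h1 hm (b • (F_form T).mf)
    have e3 := ModularForm.qExpansion_smul (Γ := Gm) one_pos h1 b (F_form T).mf
    rw [← e3]
    exact e2
  have e4 : qExpansion 1 hm = qExpansion 1 h := rfl
  have hg0 : (qExpansion 1 g).coeff 0 = 0 := by
    rw [e1, e4, map_sub, PowerSeries.coeff_smul, (F_form T).coeff,
      CuspFormClass.qExpansion_coeff_zero h one_pos h1, xr_zero T]
    norm_num
  have hg1 : (qExpansion 1 g).coeff 1 = 0 := by
    rw [e1, e4, map_sub, PowerSeries.coeff_smul, (F_form T).coeff, xr_one T]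
    norm_num [hb]
  have h2 := M2_zero g hg0 hg1
  refine ⟨b, fun τ => ?_⟩
  have h3 := congrArg (fun f : ModularForm Gm 2 => f τ) h2
  have h4 : g τ = h τ - b * Fc Θ τ := rfl
  have h5 : g τ = 0 := h3
  rw [h4] at h5
  rw [F17_apply]
  linear_combination h5

theorem hasSum_F17 (τ : ℍ) :
    HasSum (fun m => (xr r m : ℂ) • Function.Periodic.qParam 1 τ ^ m) (F17 T τ) := by
  have := (F_form T).sum τ τ.2
  rw [← qParam_one] at this
  rw [F17_apply]
  simpa using this

/-- Hecke relations at `p ≠ 17` -/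
theorem xr_T {p : ℕ} (hp : p.Prime) (hN : ¬ p ∣ 17) (n : ℕ) :
    xr r (p * n) + (if p ∣ n then (p : ℚ) * xr r (n / p) else 0) = xr r p * xr r n := by
  have : Fact p.Prime := ⟨hp⟩
  have ha := hasSum_F17 T
  obtain ⟨c, hc⟩ := S2_dim T (Tp p hN (F17 T))
  have e : ∀ m, (xr r (p * m) : ℂ) + (if p ∣ m then (p : ℂ) * xr r (m / p) else 0) =
      c * xr r m := by
    intro m
    refine coeff_uniq (f := Tp p hN (F17 T)) (c := fun m => c * xr r m)
      (hasSum_Tp p hN (F17 T) ha) (fun τ => ?_) m
    have hc' : (Tp p hN (F17 T)) τ = c * F17 T τ := hc τ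
    rw [hc']
    exact hs_congr ((ha τ).mul_left c) fun m => by simp only [smul_eq_mul]; ring
  have e1 := e 1
  have hp1 : ¬ p ∣ 1 := fun h => hp.one_lt.ne' (Nat.dvd_one.1 h)
  rw [if_neg hp1, mul_one, xr_one T] at e1
  have e2 := e n
  have e3 : c = xr r p := by
    simpa using e1.symm
  rw [e3] at e2
  by_cases hd : p ∣ n
  · rw [if_pos hd] at e2 ⊢
    exact_mod_cast e2
  · rw [if_neg hd] at e2 ⊢
    exact_mod_cast e2

/-- Hecke relations at `17` -/
theorem xr_U {p : ℕ} (hp : p.Prime) (hN : p ∣ 17) (n : ℕ) :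
    xr r (p * n) = xr r p * xr r n := by
  have : Fact p.Prime := ⟨hp⟩
  have ha := hasSum_F17 T
  obtain ⟨c, hc⟩ := S2_dim T (Up p hN (F17 T))
  have e : ∀ m, (xr r (p * m) : ℂ) = c * xr r m := by
    intro m
    refine coeff_uniq (f := Up p hN (F17 T)) (c := fun m => c * xr r m)
      (hasSum_Up p hN (F17 T) ha) (fun τ => ?_) m
    have hc' : (Up p hN (F17 T)) τ = c * F17 T τ := hc τ
    rw [hc']
    exact hs_congr ((ha τ).mul_left c) fun m => by simp only [smul_eq_mul]; ring
  have e1 := e 1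
  rw [mul_one, xr_one T] at e1
  have e2 := e n
  have e3 : c = xr r p := by
    simpa using e1.symm
  rw [e3] at e2
  exact_mod_cast e2

omit T in
theorem nine_xr (n : ℕ) : 9 * xr r n = ((2 * r n - cE n : ℤ) : ℚ) := by
  unfold xr
  push_cast
  ring

omit T in
theorem int_of_cube {t : ℚ} {m : ℤ} (h : 9 * t ^ 3 = m) : ∃ k : ℤ, t = k := by
  have hd : (t.den : ℤ) ^ 3 ∣ 9 * t.num ^ 3 := by
    refine ⟨m, ?_⟩
    have h1 : (t.num : ℚ) = t * t.den := (Rat.mul_den_eq_num t).symm
    have h2 : ((9 * t.num ^ 3 : ℤ) : ℚ) = (((t.den : ℤ) ^ 3 * m : ℤ) : ℚ) := by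
      push_cast
      rw [h1, ← h]
      ring
    exact_mod_cast h2
  have hc : IsCoprime ((t.den : ℤ) ^ 3) (t.num ^ 3) := by
    have h3 : IsCoprime (t.den : ℤ) t.num := by
      rw [Int.isCoprime_iff_gcd_eq_one, Int.gcd_comm]
      exact t.reduced
    exact h3.pow
  have h4 : (t.den : ℤ) ^ 3 ∣ 9 := hc.dvd_of_dvd_mul_right hd
  have h5 : t.den ^ 3 ∣ 9 := by exact_mod_cast h4
  have h6 : t.den = 1 := by
    have h7 := Nat.le_of_dvd (by norm_num) h5
    have h8 : t.den < 3 := by
      by_contra h9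
      push Not at h9
      have : 3 ^ 3 ≤ t.den ^ 3 := Nat.pow_le_pow_left h9 3
      omega
    have h10 := t.den_pos
    interval_cases h : t.den
    · rfl
    · norm_num at h5
  exact ⟨t.num, ((Rat.den_eq_one_iff t).1 h6).symm⟩

theorem xr_prime_int {p : ℕ} (hp : p.Prime) : ∃ k : ℤ, xr r p = k := by
  obtain ⟨p', h1, h2⟩ : ∃ p' : ℤ, xr r (p * p) + p' = xr r p * xr r p ∧
      xr r (p * (p * p)) + p' * xr r p = xr r p * xr r (p * p) := by
    by_cases hN : p ∣ 17
    · exact ⟨0, by simpa using xr_U T hp hN p, by simpa using xr_U T hp hN (p * p)⟩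
    · refine ⟨p, ?_, ?_⟩
      · have := xr_T T hp hN p
        rw [if_pos dvd_rfl, Nat.div_self hp.pos, xr_one T] at this
        push_cast
        linarith
      · have := xr_T T hp hN (p * p)
        rw [if_pos (Dvd.intro p rfl), Nat.mul_div_cancel _ hp.pos] at this
        push_cast
        linarith
  have h3 : 9 * xr r p ^ 3 = 9 * xr r (p * (p * p)) + 2 * p' * (9 * xr r p) := by
    linear_combination 9 * h2.symm - 9 * xr r p * h1
  rw [nine_xr, nine_xr] at h3
  exact int_of_cube (m := (2 * r (p * (p * p)) - cE (p * (p * p))) +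
    2 * p' * (2 * r p - cE p)) (by rw [h3]; push_cast; ring)

theorem xr_int (n : ℕ) : ∃ k : ℤ, xr r n = k := by
  induction n using Nat.strong_induction_on with
  | _ n ih =>
    rcases Nat.eq_zero_or_pos n with h0 | h0
    · exact ⟨0, by rw [h0, xr_zero T]; norm_num⟩
    rcases Nat.eq_or_lt_of_le (Nat.one_le_of_lt h0) with h1 | h1
    · exact ⟨1, by rw [← h1, xr_one T]; norm_num⟩
    have hne : n ≠ 1 := by omega
    set p := n.minFac with hpdef
    have hp : p.Prime := Nat.minFac_prime hne
    obtain ⟨m, hm⟩ : p ∣ n := Nat.minFac_dvd n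
    have hm0 : 0 < m := by
      rcases Nat.eq_zero_or_pos m with h | h
      · rw [h, mul_zero] at hm; omega
      · exact h
    have hmn : m < n := by
      rw [hm]
      exact lt_mul_of_one_lt_left hm0 hp.one_lt
    obtain ⟨k1, hk1⟩ := xr_prime_int T hp
    obtain ⟨k2, hk2⟩ := ih m hmn
    by_cases hN : p ∣ 17
    · refine ⟨k1 * k2, ?_⟩
      rw [hm, xr_U T hp hN, hk1, hk2]
      push_cast
      ring
    · have h3 := xr_T T hp hN m
      by_cases hd : p ∣ m
      · obtain ⟨k3, hk3⟩ := ih (m / p) (lt_of_le_of_lt (Nat.div_le_self m p) hmn)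
        rw [if_pos hd, hk1, hk2, hk3] at h3
        refine ⟨k1 * k2 - p * k3, ?_⟩
        rw [hm]
        push_cast
        linarith
      · rw [if_neg hd, hk1, hk2] at h3
        refine ⟨k1 * k2, ?_⟩
        rw [hm]
        push_cast
        linarith

end

/-- the coefficients of the cusp form -/
def an (r : ℕ → ℤ) (n : ℕ) : ℤ := (2 * r n - cE n) / 9

section

variable {Θ : ℂ → ℂ} {r : ℕ → ℤ} (T : TD Θ r)

include T

theorem nine_an (n : ℕ) : 9 * an r n = 2 * r n - cE n := by
  obtain ⟨k, hk⟩ := xr_int T n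
  have h1 := nine_xr (r := r) n
  rw [hk] at h1
  have h2 : 9 * k = 2 * r n - cE n := by exact_mod_cast h1
  unfold an
  rw [← h2]
  exact congrArg (9 * ·) (Int.mul_ediv_cancel_left k (by norm_num))

theorem xr_eq (n : ℕ) : xr r n = an r n := by
  have h1 := nine_xr (r := r) n
  rw [← nine_an T n] at h1
  push_cast at h1
  linarith

theorem F_form' : WForm (Fc Θ) (fun n => (an r n : ℂ)) (-17) := by
  have h := F_form T
  have : (fun n => (xr r n : ℂ)) = fun n => (an r n : ℂ) := by
    ext n
    rw [xr_eq T n]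
    norm_num
  rwa [this] at h

/-- the Hecke relations -/
theorem hk : Vale.Agent.P004H.H181.Hk 17 (an r) where
  zero := by
    have := xr_eq T 0
    rw [xr_zero T] at this
    exact_mod_cast this.symm
  one := by
    have := xr_eq T 1
    rw [xr_one T] at this
    exact_mod_cast this.symm
  T p hp hN n := by
    have h := xr_T T hp hN n
    rw [xr_eq T, xr_eq T, xr_eq T, xr_eq T] at h
    exact_mod_cast h
  U p hp hN n := by
    have h := xr_U T hp hN n
    rw [xr_eq T, xr_eq T, xr_eq T] at h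
    exact_mod_cast h

theorem an_zero : an r 0 = 0 := (hk T).zero
theorem an_one : an r 1 = 1 := (hk T).one

theorem an_two : an r 2 = -1 := by
  have := nine_an T 2
  rw [T.r2, cE, if_neg (by norm_num), sg_two] at this
  omega

theorem an_three : an r 3 = 0 := by
  have := nine_an T 3
  rw [T.r3, cE, if_neg (by norm_num), sg_three] at this
  omega

theorem an_five : an r 5 = -2 := by
  have := nine_an T 5
  rw [T.r5, cE, if_neg (by norm_num), sg_five] at this
  omega

theorem an_seven : an r 7 = 4 := by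
  have := nine_an T 7
  rw [T.r7, cE, if_neg (by norm_num), sg_seven] at this
  omega

theorem an_four : an r 4 = -1 := by
  have := (hk T).T 2 Nat.prime_two (by norm_num) 2
  norm_num [an_two T, an_one T] at this
  omega

theorem an_six : an r 6 = 0 := by
  have := (hk T).T 2 Nat.prime_two (by norm_num) 3
  norm_num [an_two T, an_three T] at this
  exact this

theorem an_eight : an r 8 = 3 := by
  have := (hk T).T 2 Nat.prime_two (by norm_num) 4
  norm_num [an_two T, an_four T] at this
  omega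

/-- `a_n = σ'(n)` modulo `4` -/
theorem an_mod_four {n : ℕ} (hn : n ≠ 0) : (4 : ℤ) ∣ an r n - sg n := by
  have h := nine_an T n
  rw [cE, if_neg hn] at h
  obtain ⟨s, hs⟩ := T.even n hn
  omega

/-- the trivial bound -/
theorem an_bound {p : ℕ} (hp : p.Prime) (hN : ¬ p ∣ 17) : |an r p| ≤ p + 1 := by
  have ha : ∀ τ : ℍ, HasSum (fun m => (an r m : ℂ) • Function.Periodic.qParam 1 τ ^ m)
      (F17 T τ) := by
    intro τ
    have := (F_form' T).sum τ τ.2
    rw [← qParam_one] at this
    rw [F17_apply]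
    simpa using this
  obtain ⟨C, -, hC⟩ := Vale.Agent.P004H.H181.bound_of_form (N := 17) (F := F17 T) ha
  exact (hk T).trivial_bound hC hp hN

/-- the trivial bound at `17` -/
theorem an_bound17 : |an r 17| ≤ 17 := by
  have ha : ∀ τ : ℍ, HasSum (fun m => (an r m : ℂ) • Function.Periodic.qParam 1 τ ^ m)
      (F17 T τ) := by
    intro τ
    have := (F_form' T).sum τ τ.2
    rw [← qParam_one] at this
    rw [F17_apply]
    simpa using this
  obtain ⟨C, hC0, hC⟩ := Vale.Agent.P004H.H181.bound_of_form (N := 17) (F := F17 T) ha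
  have hpow : ∀ k : ℕ, an r (17 ^ k) = an r 17 ^ k := by
    intro k
    induction k with
    | zero => simpa using an_one T
    | succ k ih => rw [(hk T).pow_U (by norm_num) dvd_rfl, ih, pow_succ']
  by_contra hcon
  push Not at hcon
  have h1 : (17 : ℝ) < |(an r 17 : ℝ)| := by exact_mod_cast hcon
  have h2 : 1 < |(an r 17 : ℝ)| / 17 := by
    rw [lt_div_iff₀ (by norm_num)]
    linarith
  obtain ⟨k, hk'⟩ := pow_unbounded_of_one_lt C h2
  have h3 := hC (17 ^ k)
  rw [hpow] at h3
  push_cast at h3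
  rw [abs_pow] at h3
  rw [div_pow, lt_div_iff₀ (by positivity)] at hk'
  linarith

/-- `M_2(Γ₀(17))`: the second coefficient -/
theorem M2_rel (g : ModularForm Gm 2) :
    (qExpansion 1 g).coeff 2 = 6 * (qExpansion 1 g).coeff 0 - (qExpansion 1 g).coeff 1 := by
  have h1 : (1 : ℝ) ∈ Gm.strictPeriods := by simp
  set b0 : ℂ := (qExpansion 1 g).coeff 0 with hb0
  set b1 : ℂ := (qExpansion 1 g).coeff 1 with hb1
  set u : ℂ := b0 / 2 with hu
  set v : ℂ := b1 - 3 * u with hv
  set h : ModularForm Gm 2 := g - (u • ec_form.mf + v • (F_form' T).mf) with hh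
  have e1 : qExpansion 1 h = qExpansion 1 g -
      (u • qExpansion 1 ec_form.mf + v • qExpansion 1 (F_form' T).mf) := by
    have e2 := ModularForm.qExpansion_sub (Γ := Gm) one_pos h1 g
      (u • ec_form.mf + v • (F_form' T).mf)
    have e3 := ModularForm.qExpansion_add (Γ := Gm) one_pos h1 (u • ec_form.mf)
      (v • (F_form' T).mf)
    have e4 := ModularForm.qExpansion_smul (Γ := Gm) one_pos h1 u ec_form.mf
    have e5 := ModularForm.qExpansion_smul (Γ := Gm) one_pos h1 v (F_form' T).mf
    rw [← e4, ← e5]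
    exact e2.trans (congrArg _ e3)
  have hc : ∀ n, (qExpansion 1 h).coeff n = (qExpansion 1 g).coeff n -
      (u * (cE n : ℂ) + v * (an r n : ℂ)) := by
    intro n
    rw [e1, map_sub, map_add, PowerSeries.coeff_smul, PowerSeries.coeff_smul, ec_form.coeff,
      (F_form' T).coeff, smul_eq_mul, smul_eq_mul]
  have c0 : cE 0 = 2 := by decide
  have c1 : cE 1 = 3 := by decide
  have c2 : cE 2 = 9 := by decide
  have h0 : (qExpansion 1 h).coeff 0 = 0 := by
    rw [hc, an_zero T, c0, ← hb0, hu]
    push_cast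
    ring
  have h1' : (qExpansion 1 h).coeff 1 = 0 := by
    rw [hc, an_one T, c1, ← hb1, hv]
    push_cast
    ring
  have hz := M2_zero h h0 h1'
  have h2 := hc 2
  rw [hz, an_two T, c2] at h2
  have h3 : (qExpansion 1 (0 : ModularForm Gm 2)).coeff 2 = 0 := by
    have : qExpansion 1 (0 : ModularForm Gm 2) = 0 := UpperHalfPlane.qExpansion_zero 1
    rw [this]
    simp
  rw [h3] at h2
  push_cast at h2
  rw [hv, hu] at h2
  linear_combination (-1 : ℂ) * h2

end

end Vale.Agent.P014.H687
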