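import Vale.Agent.P014.H687.Param
import Vale.Agent.P014.H687.CS

/-!
# P014 (H687): the coefficients of the form of level `17` at all primes
-/

open PowerSeries

namespace Vale.Agent.P014.H687

theorem fact17 : Fact (Nat.Prime 17) := ⟨by norm_num⟩

theorem csum17 : @csum 17 fact17 = -1 := by
  have := fact17
  unfold csum
  decide +revert

section

variable {Θ : ℂ → ℂ} {r : ℕ → ℤ} (T : TD Θ r)

include T

/-- **modularity of `17a2`**: the coefficients at the primes `p ≠ 2, 17` -/
theorem an_eq_s2 {p : ℕ} [hp : Fact p.Prime] (hp2 : p ≠ 2) (h17 : p ≠ 17) :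
    an r p = - s2 p := by
  have h1 := an_mod_p T p hp2
  have h2 : csum p = s2 p := csum_eq hp2 h17
  rw [h2] at h1
  have h3 : (p : ℤ) ∣ an r p + s2 p := by
    rw [← ZMod.intCast_zmod_eq_zero_iff_dvd]
    push_cast
    rw [h1]
    ring
  have hpn : ¬ p ∣ 17 := fun h =>
    h17 ((Nat.prime_dvd_prime_iff_eq hp.out (by norm_num)).1 h)
  have h4 : (4 : ℤ) ∣ an r p + s2 p := by
    have e1 := an_mod_four T hp.out.ne_zero
    have e2 := s2_mod_four hp2 h17
    have e3 : sg p = 1 + p := by
      unfold sg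
      have h3 : ¬ 17 ∣ p := by
        intro h4
        exact h17 ((Nat.prime_dvd_prime_iff_eq (by norm_num) hp.out).1 h4).symm
      rw [if_neg h3, ArithmeticFunction.sigma_one_apply, hp.out.sum_divisors]
      push_cast
      ring
    rw [e3] at e1
    omega
  have hcop : IsCoprime (4 : ℤ) (p : ℤ) := by
    have : Nat.Coprime 4 p := by
      have h5 : Nat.Coprime 2 p := (Nat.coprime_primes Nat.prime_two hp.out).2 (Ne.symm hp2)
      exact Nat.Coprime.pow_left 2 h5
    exact_mod_cast Nat.isCoprime_iff_coprime.2 this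
  have h5 : (4 : ℤ) * p ∣ an r p + s2 p := hcop.mul_dvd h4 h3
  have h6 : |an r p + s2 p| < 4 * p := by
    have b1 := an_bound T hp.out hpn
    have b2 := s2_bound (p := p)
    have b3 := abs_add_le (an r p) (s2 p)
    have b4 : (2 : ℤ) ≤ p := by exact_mod_cast hp.out.two_le
    linarith
  have h7 := Int.eq_zero_of_abs_lt_dvd h5 h6
  linarith

theorem an_17 : an r 17 = 1 := by
  have : Fact (Nat.Prime 17) := fact17
  have h1 := an_mod_p T 17 (by norm_num)
  have h2 : csum 17 = -1 := csum17
  rw [h2] at h1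
  have h3 : ((17 : ℕ) : ℤ) ∣ an r 17 - 1 := by
    rw [← ZMod.intCast_zmod_eq_zero_iff_dvd]
    push_cast
    rw [h1]
    push_cast
    ring
  have h4 := an_mod_four T (n := 17) (by norm_num)
  have h5 : sg 17 = 1 := by decide
  rw [h5] at h4
  have h6 := abs_le.1 (an_bound17 T)
  push_cast at h3
  omega

end

end Vale.Agent.P014.H687
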